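import Vale.Agent.P015.M.Defs

/-!
# P015, module ED: entropy decrement on the tree of a walk

`H b` is the entropy of `b` independent samples of a mixture of laws.  It is subadditive in `b`
and it is at least `log (number of rich children) - E log (number of compatible children)`.
-/

namespace Vale.Agent.P015.M

open Finset hiding box
open Vale.Agent.P006.CLS Vale.Agent.P015.H222
open scoped Pointwise

namespace ED

/-! ## inequalities for the logarithm -/

/-- pointwise Gibbs inequality -/
theorem gibbs_pt {p q : ℝ} (hp : 0 ≤ p) (hq : 0 ≤ q) (h : 0 < p → 0 < q) :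
    Real.negMulLog p ≤ -(p * Real.log q) + (q - p) := by
  rcases hp.eq_or_lt with h0 | h0
  · rw [← h0]
    simp only [Real.negMulLog_zero, zero_mul, neg_zero, sub_zero, zero_add]
    exact hq
  · have hq' := h h0
    have h1 := Real.log_le_sub_one_of_pos (div_pos hq' h0)
    rw [Real.log_div hq'.ne' h0.ne'] at h1
    have h2 := mul_le_mul_of_nonneg_left h1 h0.le
    have h3 : p * (q / p - 1) = q - p := by field_simp
    rw [h3] at h2
    unfold Real.negMulLog
    nlinarith

section

variable {A B : Type*} [Fintype A] [Fintype B]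

/-- subadditivity of the entropy -/
theorem sub_add (p : A → B → ℝ) (hp : ∀ x y, 0 ≤ p x y) (h1 : ∑ x, ∑ y, p x y = 1) :
    ∑ x, ∑ y, Real.negMulLog (p x y) ≤
      ∑ x, Real.negMulLog (∑ y, p x y) + ∑ y, Real.negMulLog (∑ x, p x y) := by
  have key : ∀ x y, Real.negMulLog (p x y) ≤
      -(p x y * Real.log (∑ y, p x y)) - p x y * Real.log (∑ x, p x y) +
        ((∑ y, p x y) * (∑ x, p x y) - p x y) := by
    intro x y
    have h0 : p x y ≤ ∑ y, p x y := single_le_sum (f := fun y => p x y) (fun y _ => hp x y)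
      (mem_univ y)
    have h0' : p x y ≤ ∑ x, p x y := single_le_sum (f := fun x => p x y) (fun x _ => hp x y)
      (mem_univ x)
    rcases (hp x y).eq_or_lt with h | h
    · rw [← h]
      simp only [Real.negMulLog_zero, zero_mul, neg_zero, sub_zero, zero_add]
      exact mul_nonneg (sum_nonneg fun y _ => hp x y) (sum_nonneg fun x _ => hp x y)
    · have e1 : 0 < ∑ y, p x y := lt_of_lt_of_le h h0
      have e2 : 0 < ∑ x, p x y := lt_of_lt_of_le h h0'
      have := gibbs_pt h.le (mul_pos e1 e2).le (fun _ => mul_pos e1 e2)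
      rw [Real.log_mul e1.ne' e2.ne'] at this
      linarith
  calc ∑ x, ∑ y, Real.negMulLog (p x y)
      ≤ ∑ x, ∑ y, (-(p x y * Real.log (∑ y, p x y)) - p x y * Real.log (∑ x, p x y) +
        ((∑ y, p x y) * (∑ x, p x y) - p x y)) :=
        sum_le_sum fun x _ => sum_le_sum fun y _ => key x y
    _ = ∑ x, Real.negMulLog (∑ y, p x y) + ∑ y, Real.negMulLog (∑ x, p x y) := by
        simp only [sum_add_distrib, sum_sub_distrib, sum_neg_distrib]
        have a1 : ∑ x, ∑ y, p x y * Real.log (∑ y, p x y)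
            = ∑ x, (∑ y, p x y) * Real.log (∑ y, p x y) := by
          refine sum_congr rfl fun x _ => ?_
          rw [sum_mul]
        have a2 : ∑ x, ∑ y, p x y * Real.log (∑ x, p x y)
            = ∑ y, (∑ x, p x y) * Real.log (∑ x, p x y) := by
          rw [sum_comm]
          refine sum_congr rfl fun y _ => ?_
          rw [sum_mul]
        have a3 : ∑ x, ∑ y, (∑ y, p x y) * (∑ x, p x y) = 1 := by
          have : ∀ x, ∑ y, (∑ y, p x y) * (∑ x, p x y) = (∑ y, p x y) * ∑ y, ∑ x, p x y := by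
            intro x; rw [mul_sum]
          simp only [this]
          rw [← sum_mul, h1, one_mul, sum_comm, h1]
        rw [a1, a2, a3, h1]
        simp only [Real.negMulLog, neg_mul, sum_neg_distrib]
        ring

/-- the entropy is at most the logarithm of the number of points -/
theorem le_log_card [Nonempty A] (p : A → ℝ) (hp : ∀ x, 0 ≤ p x) (h1 : ∑ x, p x = 1) :
    ∑ x, Real.negMulLog (p x) ≤ Real.log (Fintype.card A) := by
  have hc : (0 : ℝ) < Fintype.card A := by exact_mod_cast Fintype.card_pos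
  calc ∑ x, Real.negMulLog (p x)
      ≤ ∑ x, (-(p x * Real.log ((Fintype.card A : ℝ)⁻¹)) + ((Fintype.card A : ℝ)⁻¹ - p x)) :=
        sum_le_sum fun x _ => gibbs_pt (hp x) (inv_nonneg.2 hc.le) fun _ => inv_pos.2 hc
    _ = Real.log (Fintype.card A) := by
        rw [sum_add_distrib, sum_neg_distrib, ← sum_mul, sum_sub_distrib, h1, sum_const,
          Finset.card_univ, nsmul_eq_mul, mul_inv_cancel₀ hc.ne', Real.log_inv]
        ring

end

/-- the entropy of a mixture, at one point -/
theorem mix_pt {R : Type*} (Y : Finset R) (N : ℕ) (P : R → ℝ) (hP : ∀ y ∈ Y, 0 ≤ P y)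
    (hN : (Y.filter (fun y => 0 < P y)).card = N) (hY : Y.Nonempty) :
    (∑ y ∈ Y, Real.negMulLog (P y)) / Y.card
      + ((∑ y ∈ Y, P y) / Y.card) * (Real.log Y.card - Real.log N)
      ≤ Real.negMulLog ((∑ y ∈ Y, P y) / Y.card) := by
  classical
  have hc : (0 : ℝ) < Y.card := by exact_mod_cast hY.card_pos
  set S := ∑ y ∈ Y, P y with hS
  have hS0 : 0 ≤ S := sum_nonneg hP
  rcases hS0.eq_or_lt with h0 | h0
  · have : ∀ y ∈ Y, P y = 0 := (sum_eq_zero_iff_of_nonneg hP).1 h0.symm
    have e1 : ∑ y ∈ Y, Real.negMulLog (P y) = 0 := by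
      refine sum_eq_zero fun y hy => ?_
      rw [this y hy, Real.negMulLog_zero]
    rw [e1, ← h0]
    simp
  · have hne : (Y.filter (fun y => 0 < P y)).Nonempty := by
      by_contra hcon
      rw [not_nonempty_iff_eq_empty, filter_eq_empty_iff] at hcon
      have : S ≤ 0 := sum_nonpos fun y hy => le_of_not_gt (hcon hy)
      linarith
    have hN0 : (0 : ℝ) < N := by rw [← hN]; exact_mod_cast hne.card_pos
    have key : ∀ y ∈ Y.filter (fun y => 0 < P y),
        Real.negMulLog (P y) ≤ -(P y * Real.log (S / N)) + (S / N - P y) := by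
      intro y hy
      exact gibbs_pt (mem_filter.1 hy).2.le (div_pos h0 hN0).le fun _ => div_pos h0 hN0
    have e1 : ∑ y ∈ Y, Real.negMulLog (P y)
        = ∑ y ∈ Y.filter (fun y => 0 < P y), Real.negMulLog (P y) := by
      rw [sum_filter_of_ne]
      intro y hy hne
      rcases (hP y hy).eq_or_lt with h | h
      · rw [← h, Real.negMulLog_zero] at hne; exact absurd rfl hne
      · exact h
    have e2 : ∑ y ∈ Y.filter (fun y => 0 < P y), P y = S := by
      rw [hS, sum_filter_of_ne]
      intro y hy hne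
      exact lt_of_le_of_ne (hP y hy) hne.symm
    have h3 : ∑ y ∈ Y, Real.negMulLog (P y) ≤ -(S * Real.log (S / N)) := by
      rw [e1]
      refine (sum_le_sum key).trans ?_
      rw [sum_add_distrib, sum_neg_distrib, ← sum_mul, sum_sub_distrib, e2, sum_const, hN,
        nsmul_eq_mul]
      have : (N : ℝ) * (S / N) = S := by field_simp
      rw [this]
      linarith
    have h4 : Real.negMulLog (S / Y.card)
        = -(S * Real.log (S / N)) / Y.card + (S / Y.card) * (Real.log Y.card - Real.log N) := by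
      unfold Real.negMulLog
      rw [Real.log_div h0.ne' hc.ne', Real.log_div h0.ne' hN0.ne']
      field_simp
      ring
    rw [h4]
    have := div_le_div_of_nonneg_right h3 hc.le
    linarith

/-! ## samples -/

section

variable {U X : Type} [Fintype U] [Nonempty U] [Fintype X]

open Classical in
/-- the law of one sample -/
noncomputable def q (d : U → X) (z : X) : ℝ :=
  ((univ.filter (fun u => d u = z)).card : ℝ) / Fintype.card U

/-- the law of `b` independent samples -/
noncomputable def Q (d : U → X) (b : ℕ) (x : Fin b → X) : ℝ := ∏ j, q d (x j)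

omit [Nonempty U] [Fintype X] in
theorem q_nonneg (d : U → X) (z : X) : 0 ≤ q d z := by
  unfold q; positivity

omit [Nonempty U] [Fintype X] in
theorem Q_nonneg (d : U → X) (b : ℕ) (x : Fin b → X) : 0 ≤ Q d b x :=
  prod_nonneg fun _ _ => q_nonneg d _

theorem sum_q (d : U → X) : ∑ z, q d z = 1 := by
  classical
  have hc : (0 : ℝ) < Fintype.card U := by exact_mod_cast Fintype.card_pos
  unfold q
  rw [← sum_div, div_eq_one_iff_eq hc.ne']
  have := Finset.card_eq_sum_card_fiberwise (f := d) (s := (univ : Finset U)) (t := univ)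
    (fun u _ => mem_univ _)
  rw [Finset.card_univ] at this
  rw [this]
  push_cast
  rfl

theorem sum_Q (d : U → X) (b : ℕ) : ∑ x, Q d b x = 1 := by
  classical
  have := Finset.prod_univ_sum (fun _ : Fin b => (univ : Finset X)) (fun _ z => q d z)
  unfold Q
  rw [Fintype.piFinset_univ] at this
  rw [← this]
  simp [sum_q]

omit [Nonempty U] [Fintype X] in
theorem Q_append (d : U → X) (b c : ℕ) (x : Fin b → X) (y : Fin c → X) :
    Q d (b + c) (Fin.append x y) = Q d b x * Q d c y := by
  unfold Q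
  rw [Fin.prod_univ_add]
  simp [Fin.append_left, Fin.append_right]

omit [Nonempty U] [Fintype X] in
theorem exists_of_Q_pos {d : U → X} {b : ℕ} {x : Fin b → X} (h : 0 < Q d b x) :
    ∃ u : Fin b → U, ∀ j, x j = d (u j) := by
  classical
  have : ∀ j, ∃ u, x j = d u := by
    intro j
    by_contra hcon
    push Not at hcon
    have h0 : q d (x j) = 0 := by
      unfold q
      rw [filter_eq_empty_iff.2 (fun u _ hu => hcon u hu.symm)]
      simp
    have : Q d b x = 0 := prod_eq_zero (mem_univ j) h0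
    linarith
  choose u hu using this
  exact ⟨u, hu⟩

omit [Nonempty U] in
theorem avg_eq (d : U → X) (b : ℕ) (F : (Fin b → X) → ℝ) : Avg d b F = ∑ x, Q d b x * F x := by
  classical
  unfold Avg
  rw [← Finset.sum_fiberwise (univ : Finset (Fin b → U)) (fun u => (fun i => d (u i)))
    (fun u => F (fun i => d (u i))), sum_div]
  refine sum_congr rfl fun x _ => ?_
  have h1 : ∑ u ∈ (univ : Finset (Fin b → U)).filter (fun u => (fun i => d (u i)) = x),
      F (fun i => d (u i))
      = ((univ : Finset (Fin b → U)).filter (fun u => (fun i => d (u i)) = x)).card * F x := by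
    rw [← nsmul_eq_mul, ← sum_const]
    refine sum_congr rfl fun u hu => ?_
    rw [(mem_filter.1 hu).2]
  have h2 : (univ : Finset (Fin b → U)).filter (fun u => (fun i => d (u i)) = x)
      = Fintype.piFinset (fun j => (univ : Finset U).filter (fun u => d u = x j)) := by
    ext u
    simp only [mem_filter, mem_univ, true_and, Fintype.mem_piFinset]
    constructor
    · intro h j; rw [← h]
    · intro h; ext j; exact h j
  rw [h1, h2, Fintype.card_piFinset]
  unfold Q q
  rw [Finset.prod_div_distrib]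
  push_cast
  rw [prod_const, Finset.card_univ, Fintype.card_fin]
  ring

/-! ## mixtures -/

variable (d : ℕ → U → X) (v : Finset ℕ)

/-- the law of `b` samples of the mixture `ν` -/
noncomputable def P (ν : ℕ → ℝ) (b : ℕ) (x : Fin b → X) : ℝ := ∑ t ∈ v, ν t * Q (d t) b x

/-- the entropy of `b` samples -/
noncomputable def H (ν : ℕ → ℝ) (b : ℕ) : ℝ := ∑ x, Real.negMulLog (P d v ν b x)

/-- a law on the times of `w` -/
structure Law (w : Finset ℕ) (ν : ℕ → ℝ) : Prop where
  nn : ∀ t, 0 ≤ ν t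
  out : ∀ t, t ∉ w → ν t = 0
  one : ∑ t ∈ v, ν t = 1

variable {d v}

omit [Nonempty U] [Fintype X] in
theorem P_nonneg {w : Finset ℕ} {ν : ℕ → ℝ} (h : Law v w ν) (b : ℕ) (x : Fin b → X) :
    0 ≤ P d v ν b x := sum_nonneg fun t _ => mul_nonneg (h.nn t) (Q_nonneg _ _ _)

theorem sum_P {w : Finset ℕ} {ν : ℕ → ℝ} (h : Law v w ν) (b : ℕ) : ∑ x, P d v ν b x = 1 := by
  unfold P
  rw [sum_comm]
  simp only [← mul_sum, sum_Q, mul_one]
  exact h.one

theorem H_nonneg {w : Finset ℕ} {ν : ℕ → ℝ} (h : Law v w ν) (b : ℕ) : 0 ≤ H d v ν b := by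
  refine sum_nonneg fun x _ => Real.negMulLog_nonneg (P_nonneg h b x) ?_
  rw [← sum_P (d := d) h b]
  exact single_le_sum (f := fun x => P d v ν b x) (fun x _ => P_nonneg h b x) (mem_univ x)

theorem H_le {w : Finset ℕ} {ν : ℕ → ℝ} (h : Law v w ν) (b : ℕ) [Nonempty X] :
    H d v ν b ≤ b * Real.log (Fintype.card X) := by
  have := le_log_card (A := Fin b → X) (P d v ν b) (P_nonneg h b) (sum_P h b)
  rw [Fintype.card_fun, Fintype.card_fin] at this
  push_cast at this
  rw [Real.log_pow] at this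
  exact this

theorem H_add {w : Finset ℕ} {ν : ℕ → ℝ} (h : Law v w ν) (b c : ℕ) :
    H d v ν (b + c) ≤ H d v ν b + H d v ν c := by
  classical
  have e : H d v ν (b + c) = ∑ x : Fin b → X, ∑ y : Fin c → X,
      Real.negMulLog (P d v ν (b + c) (Fin.append x y)) := by
    unfold H
    rw [← (Fin.appendEquiv b c).sum_comp, Fintype.sum_prod_type]
    rfl
  have hs : ∑ x : Fin b → X, ∑ y : Fin c → X, P d v ν (b + c) (Fin.append x y) = 1 := by
    rw [← sum_P (d := d) h (b + c), ← (Fin.appendEquiv b c).sum_comp, Fintype.sum_prod_type]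
    rfl
  have h1 := sub_add (fun (x : Fin b → X) (y : Fin c → X) => P d v ν (b + c) (Fin.append x y))
    (fun x y => P_nonneg h _ _) hs
  rw [e]
  refine h1.trans (le_of_eq ?_)
  have m1 : ∀ x : Fin b → X, ∑ y : Fin c → X, P d v ν (b + c) (Fin.append x y) = P d v ν b x := by
    intro x
    unfold P
    rw [sum_comm]
    refine sum_congr rfl fun t _ => ?_
    simp only [Q_append]
    rw [← mul_sum, ← mul_sum, sum_Q, mul_one]
  have m2 : ∀ y : Fin c → X, ∑ x : Fin b → X, P d v ν (b + c) (Fin.append x y) = P d v ν c y := by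
    intro y
    unfold P
    rw [sum_comm]
    refine sum_congr rfl fun t _ => ?_
    simp only [Q_append]
    rw [← mul_sum, ← sum_mul, sum_Q, one_mul]
  simp only [m1, m2]
  rfl

omit [Nonempty U] in
theorem H_zero {w : Finset ℕ} {ν : ℕ → ℝ} (h : Law v w ν) : H d v ν 0 = 0 := by
  unfold H
  have h1 : ∀ x : Fin 0 → X, P d v ν 0 x = 1 := by
    intro x
    unfold P Q
    simp [h.one]
  simp [h1]

theorem H_mul {w : Finset ℕ} {ν : ℕ → ℝ} (h : Law v w ν) (b k : ℕ) :
    H d v ν (k * b) ≤ k * H d v ν b := by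
  induction k with
  | zero => rw [zero_mul, H_zero h]; simp
  | succ k ih =>
    rw [add_mul, one_mul]
    refine (H_add h _ _).trans ?_
    push_cast
    linarith

omit [Nonempty U] [Fintype X] in
theorem P_mix {R : Type} (Y : Finset R) (ν : R → ℕ → ℝ) (b : ℕ) (x : Fin b → X) :
    P d v (fun t => (∑ y ∈ Y, ν y t) / Y.card) b x = (∑ y ∈ Y, P d v (ν y) b x) / Y.card := by
  unfold P
  rw [sum_comm, sum_div]
  refine sum_congr rfl fun t _ => ?_
  rw [← sum_mul]
  ring

/-- a mixture of laws -/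
theorem Law.mix {R : Type} {w : Finset ℕ} {Y : Finset R} (hY : Y.Nonempty) {ν : R → ℕ → ℝ}
    {W : R → Finset ℕ} (hW : ∀ y ∈ Y, W y ⊆ w) (h : ∀ y ∈ Y, Law v (W y) (ν y)) :
    Law v w (fun t => (∑ y ∈ Y, ν y t) / Y.card) := by
  have hc : (0 : ℝ) < Y.card := by exact_mod_cast hY.card_pos
  refine ⟨?_, ?_, ?_⟩
  · intro t
    exact div_nonneg (sum_nonneg fun y hy => (h y hy).nn t) hc.le
  · intro t ht
    rw [sum_eq_zero fun y hy => (h y hy).out t (fun h' => ht (hW y hy h'))]
    simp
  · rw [← sum_div, sum_comm]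
    rw [sum_congr rfl fun y hy => (h y hy).one]
    rw [sum_const, nsmul_eq_mul, mul_one, div_self hc.ne']

/-- the entropy of a mixture -/
theorem H_mix {R : Type} {Y : Finset R} (hY : Y.Nonempty) {ν : R → ℕ → ℝ}
    {W : R → Finset ℕ} (h : ∀ y ∈ Y, Law v (W y) (ν y)) (b : ℕ) (c : (Fin b → X) → ℝ)
    (hc : ∀ x, (∃ y ∈ Y, 0 < P d v (ν y) b x) →
      ((Y.filter (fun y => 0 < P d v (ν y) b x)).card : ℝ) ≤ c x) :
    (∑ y ∈ Y, H d v (ν y) b) / Y.card + Real.log Y.card
      - ∑ x, P d v (fun t => (∑ y ∈ Y, ν y t) / Y.card) b x * Real.log (c x)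
      ≤ H d v (fun t => (∑ y ∈ Y, ν y t) / Y.card) b := by
  classical
  have hcard : (0 : ℝ) < Y.card := by exact_mod_cast hY.card_pos
  have hPn : ∀ y ∈ Y, ∀ x, 0 ≤ P d v (ν y) b x := fun y hy x => P_nonneg (h y hy) b x
  have hsum : ∑ x, (∑ y ∈ Y, P d v (ν y) b x) / Y.card = 1 := by
    rw [← sum_div, sum_comm, sum_congr rfl fun y hy => sum_P (d := d) (h y hy) b, sum_const,
      nsmul_eq_mul, mul_one, div_self hcard.ne']
  have key : ∀ x, (∑ y ∈ Y, Real.negMulLog (P d v (ν y) b x)) / Y.card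
      + ((∑ y ∈ Y, P d v (ν y) b x) / Y.card) * (Real.log Y.card - Real.log (c x))
      ≤ Real.negMulLog ((∑ y ∈ Y, P d v (ν y) b x) / Y.card) := by
    intro x
    have h1 := mix_pt Y _ (fun y => P d v (ν y) b x) (fun y hy => hPn y hy x) rfl hY
    refine le_trans ?_ h1
    have hS0 : 0 ≤ ∑ y ∈ Y, P d v (ν y) b x := sum_nonneg fun y hy => hPn y hy x
    rcases hS0.eq_or_lt with h0 | h0
    · rw [← h0]; simp
    · have hex : ∃ y ∈ Y, 0 < P d v (ν y) b x := by
        by_contra hcon
        push Not at hcon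
        have : ∑ y ∈ Y, P d v (ν y) b x ≤ 0 := sum_nonpos hcon
        linarith
      obtain ⟨y, hy, hy0⟩ := hex
      have hpos : 0 < (Y.filter (fun y => 0 < P d v (ν y) b x)).card :=
        card_pos.2 ⟨y, mem_filter.2 ⟨hy, hy0⟩⟩
      have hlog : Real.log ((Y.filter (fun y => 0 < P d v (ν y) b x)).card : ℝ) ≤
          Real.log (c x) := Real.log_le_log (by exact_mod_cast hpos) (hc x ⟨y, hy, hy0⟩)
      have h2 : 0 ≤ (∑ y ∈ Y, P d v (ν y) b x) / Y.card := div_nonneg h0.le hcard.le
      have := mul_le_mul_of_nonneg_left hlog h2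
      nlinarith
  have e1 : H d v (fun t => (∑ y ∈ Y, ν y t) / Y.card) b
      = ∑ x, Real.negMulLog ((∑ y ∈ Y, P d v (ν y) b x) / Y.card) := by
    unfold H
    simp only [P_mix]
  rw [e1]
  refine le_trans (le_of_eq ?_) (sum_le_sum fun x _ => key x)
  rw [sum_add_distrib, ← sum_div]
  simp only [mul_sub]
  rw [sum_sub_distrib, ← sum_mul, hsum, one_mul]
  simp only [P_mix]
  unfold H
  rw [sum_comm]
  ring

omit [Nonempty U] in
theorem sum_P_mul (ν : ℕ → ℝ) (b : ℕ) (F : (Fin b → X) → ℝ) :
    ∑ x, P d v ν b x * F x = ∑ t ∈ v, ν t * Avg (d t) b F := by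
  unfold P
  simp only [avg_eq, sum_mul, mul_sum]
  rw [sum_comm]
  refine sum_congr rfl fun t _ => sum_congr rfl fun x _ => ?_
  ring

end

/-- the recursion -/
theorem main {U X R : Type} [Fintype U] [Nonempty U] [Fintype X] {d : ℕ → U → X}
    {B n : ℕ} {key : ℕ → ℕ → ℕ → R} {thr : ℕ → ℝ} {b : ℕ → ℕ}
    {cnt : ∀ i : ℕ, ℕ → (Fin (b i) → X) → ℝ} {f : ℕ → ℕ → ℝ} {v : Finset ℕ}
    (hthr : ∀ i < n, 1 ≤ thr i) (hb : ∀ i < n, 0 < b i) (hd : ∀ i, i + 1 < n → b i ∣ b (i + 1))
    (hcnt : ∀ i < n, ∀ a < B, ∀ x : Fin (b i) → X,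
      (∃ t ∈ v, ∃ u : Fin (b i) → U, ∀ j, x j = d t (u j)) →
      (Set.ncard {y | ∃ t ∈ v, key i a t = y ∧ ∃ u : Fin (b i) → U, ∀ j, x j = d t (u j)} : ℝ) ≤
        cnt i a x)
    (hf : ∀ i < n, ∀ a < B, ∀ t ∈ v,
      f i t * b i ≤ Real.log (thr i) - Avg (d t) (b i) (fun x => Real.log (cnt i a x))) :
    ∀ (m i : ℕ) (w : Finset ℕ), i + m = n → w ⊆ v → Rich B key thr m i w →
      ∃ ν : ℕ → ℝ, Law v w ν ∧
        (i < n → b i * ∑ t ∈ v, ν t * ∑ j ∈ Ico i n, f j t ≤ H d v ν (b i)) := by
  classical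
  intro m
  induction m with
  | zero =>
    intro i w hi hw hr
    obtain ⟨t, ht⟩ : w.Nonempty := hr
    refine ⟨fun s => if s = t then 1 else 0, ⟨?_, ?_, ?_⟩, ?_⟩
    · intro s; split_ifs <;> norm_num
    · intro s hs
      have : s ≠ t := fun h => hs (h ▸ ht)
      simp [this]
    · simp [hw ht]
    · intro h; omega
  | succ m ih =>
    intro i w hi hw hr
    obtain ⟨a, ha, hY⟩ := hr
    set Y := (w.image (key i a)).filter (fun y =>
      Rich B key thr m (i + 1) (w.filter (fun t => key i a t = y))) with hYd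
    have hin : i < n := by omega
    have h1 : ∀ y ∈ Y, ∃ ν : ℕ → ℝ, Law v (w.filter (fun t => key i a t = y)) ν ∧
        (i + 1 < n → b (i + 1) * ∑ t ∈ v, ν t * ∑ j ∈ Ico (i + 1) n, f j t
          ≤ H d v ν (b (i + 1))) := by
      intro y hy
      exact ih (i + 1) _ (by omega) ((filter_subset _ _).trans hw) (mem_filter.1 hy).2
    choose! ν hν1 hν2 using h1
    have hYc : (1 : ℝ) ≤ Y.card := (hthr i hin).trans hY
    have hYn : Y.Nonempty := by
      rw [← card_pos]
      have : (0 : ℝ) < Y.card := by linarith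
      exact_mod_cast this
    have hcp : (0 : ℝ) < Y.card := by linarith
    set μ : ℕ → ℝ := fun t => (∑ y ∈ Y, ν y t) / Y.card with hμ
    have hlaw : Law v w μ := Law.mix hYn (W := fun y => w.filter (fun t => key i a t = y))
      (fun y _ => filter_subset _ _) hν1
    refine ⟨μ, hlaw, fun _ => ?_⟩
    -- children
    have h3 : ∀ y ∈ Y, b i * ∑ t ∈ v, ν y t * ∑ j ∈ Ico (i + 1) n, f j t ≤
        H d v (ν y) (b i) := by
      intro y hy
      by_cases hlt : i + 1 < n
      · obtain ⟨k, hk⟩ := hd i hlt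
        have hb1 := hb (i + 1) hlt
        have hk0 : 0 < k := by
          rcases Nat.eq_zero_or_pos k with h | h
          · rw [h, mul_zero] at hk; omega
          · exact h
        have h4 := hν2 y hy hlt
        rw [hk, mul_comm (b i) k] at h4
        have h5 := h4.trans (H_mul (hν1 y hy) (b i) k)
        push_cast at h5
        rw [mul_assoc] at h5
        exact le_of_mul_le_mul_left h5 (by exact_mod_cast hk0)
      · have : i + 1 = n := by omega
        rw [this, Ico_self]
        simp only [sum_empty, mul_zero, sum_const_zero]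
        exact H_nonneg (hν1 y hy) _
    -- mixture
    have h6 := H_mix (d := d) hYn hν1 (b i) (cnt i a) (by
      intro x hx
      obtain ⟨y, hy, hy0⟩ := hx
      have hpos : ∀ y ∈ Y, 0 < P d v (ν y) (b i) x → ∃ t ∈ v, key i a t = y ∧
          ∃ u : Fin (b i) → U, ∀ j, x j = d t (u j) := by
        intro y hy h0
        unfold P at h0
        obtain ⟨t, ht, ht0⟩ := exists_lt_of_sum_lt (s := v) (f := fun _ => (0 : ℝ))
          (g := fun t => ν y t * Q (d t) (b i) x) (by simpa using h0)
        refine ⟨t, ht, ?_, ?_⟩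
        · by_contra hne
          have := (hν1 y hy).out t (fun h => hne (mem_filter.1 h).2)
          rw [this, zero_mul] at ht0
          exact lt_irrefl _ ht0
        · apply exists_of_Q_pos
          have h0' := (hν1 y hy).nn t
          by_contra hcon
          have : Q (d t) (b i) x ≤ 0 := le_of_not_gt hcon
          have := mul_nonpos_of_nonneg_of_nonpos h0' this
          linarith
      obtain ⟨t, ht, _, hu⟩ := hpos y hy hy0
      refine le_trans ?_ (hcnt i hin a ha x ⟨t, ht, hu⟩)
      have hfin : Set.Finite {y | ∃ t ∈ v, key i a t = y ∧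
          ∃ u : Fin (b i) → U, ∀ j, x j = d t (u j)} := by
        refine (v.image (key i a)).finite_toSet.subset ?_
        rintro y ⟨t, ht, h, _⟩
        exact mem_coe.2 (mem_image.2 ⟨t, ht, h⟩)
      have hsub : ((Y.filter (fun y => 0 < P d v (ν y) (b i) x) : Finset R) : Set R) ⊆
          {y | ∃ t ∈ v, key i a t = y ∧ ∃ u : Fin (b i) → U, ∀ j, x j = d t (u j)} := by
        intro y hy
        rw [mem_coe, mem_filter] at hy
        exact hpos y hy.1 hy.2
      have hle := Set.ncard_le_ncard hsub hfin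
      rw [Set.ncard_coe_finset] at hle
      exact_mod_cast hle)
    rw [sum_P_mul] at h6
    refine le_trans ?_ h6
    have h7 : b i * ∑ t ∈ v, μ t * ∑ j ∈ Ico i n, f j t
        = (∑ y ∈ Y, b i * ∑ t ∈ v, ν y t * ∑ j ∈ Ico (i + 1) n, f j t) / Y.card
          + ∑ t ∈ v, μ t * (f i t * b i) := by
      have e : ∀ t, ∑ j ∈ Ico i n, f j t = f i t + ∑ j ∈ Ico (i + 1) n, f j t := fun t =>
        sum_eq_sum_Ico_succ_bot hin _
      simp only [e, mul_add, sum_add_distrib]
      rw [add_comm]
      congr 1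
      · rw [← mul_sum, sum_comm, mul_div_assoc, sum_div]
        congr 1
        refine sum_congr rfl fun t _ => ?_
        rw [← sum_mul, hμ]
        ring
      · rw [mul_sum]
        exact sum_congr rfl fun t _ => by ring
    rw [h7]
    have h8 : (∑ y ∈ Y, b i * ∑ t ∈ v, ν y t * ∑ j ∈ Ico (i + 1) n, f j t) / Y.card ≤
        (∑ y ∈ Y, H d v (ν y) (b i)) / Y.card :=
      div_le_div_of_nonneg_right (sum_le_sum h3) hcp.le
    have h9 : ∑ t ∈ v, μ t * (f i t * b i) ≤ Real.log (thr i)
        - ∑ t ∈ v, μ t * Avg (d t) (b i) (fun x => Real.log (cnt i a x)) := by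
      have : Real.log (thr i) = ∑ t ∈ v, μ t * Real.log (thr i) := by
        rw [← sum_mul, hlaw.one, one_mul]
      rw [this, ← sum_sub_distrib]
      refine sum_le_sum fun t ht => ?_
      rw [← mul_sub]
      exact mul_le_mul_of_nonneg_left (hf i hin a ha t ht) (hlaw.nn t)
    have h10 : Real.log (thr i) ≤ Real.log Y.card :=
      Real.log_le_log (by linarith [hthr i hin]) hY
    linarith

end ED

/-- **module ED** -/
theorem ed : EDStmt := by
  intro U X R _ _ _ d B n key thr b cnt f v hn hthr hb hd hcnt hf hr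
  obtain ⟨ν, hν, h⟩ := ED.main hthr hb hd hcnt hf n 0 v (by omega) subset_rfl hr
  have h1 := h (by omega)
  have hX : Nonempty X := ⟨d 0 (Classical.arbitrary U)⟩
  have h2 := h1.trans (ED.H_le hν (b 0))
  have h3 : ∑ t ∈ v, ν t * ∑ j ∈ Ico 0 n, f j t ≤ Real.log (Fintype.card X) :=
    le_of_mul_le_mul_left h2 (by exact_mod_cast hb 0 (by omega))
  by_contra hcon
  push Not at hcon
  have h4 : ∃ t ∈ v, 0 < ν t := by
    by_contra hc
    push Not at hc
    have := sum_nonpos hc
    rw [hν.one] at this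
    linarith
  obtain ⟨t₀, ht₀, hpos⟩ := h4
  have h5 : ∑ t ∈ v, ν t * Real.log (Fintype.card X) < ∑ t ∈ v, ν t * ∑ j ∈ Ico 0 n, f j t := by
    refine sum_lt_sum (fun t ht => ?_) ⟨t₀, ht₀, ?_⟩
    · refine mul_le_mul_of_nonneg_left ?_ (hν.nn t)
      rw [← range_eq_Ico]
      exact (hcon t ht).le
    · refine mul_lt_mul_of_pos_left ?_ hpos
      rw [← range_eq_Ico]
      exact hcon t₀ ht₀
  rw [← sum_mul, hν.one, one_mul] at h5
  linarith

end Vale.Agent.P015.M
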