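import Vale.Agent.P015.M.Defs
import Vale.Agent.P015.R3.H85.Main

/-!
# P015, the moat theorem: from the goal to the theorem

`GoalStmt` says that an injective walk in `ℤ²` meets all classes of one of the linear forms
`x + r_p y` modulo some prime `p = 1 mod 4`.
-/

namespace Vale.Agent.P015.M

open Finset hiding box
open Vale.Agent.P015 Vale.Agent.P015.R3.H85 Vale.Agent.P006.CLS Vale.Agent.P015.H222

/-- the Gaussian prime that belongs to a root of `-1` modulo `p` -/
theorem exists_prime_of_root {p : ℕ} (hp : p.Prime) {s : ℤ} (hs : (p : ℤ) ∣ s ^ 2 + 1) :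
    ∃ π : GaussianInt, Prime π ∧ ∀ z : GaussianInt,
      π ∣ z ↔ ((lf s (z.re, z.im) : ℤ) : ZMod p) = 0 := by
  have := Fact.mk hp
  have h0 : ((s : ZMod p)) * (s : ZMod p) = (((-1 : ℤ)) : ZMod p) := by
    have h1 : (((s ^ 2 + 1 : ℤ)) : ZMod p) = 0 := (ZMod.intCast_zmod_eq_zero_iff_dvd _ _).2 hs
    push_cast at h1 ⊢
    linear_combination h1
  set φ : GaussianInt →+* ZMod p := Zsqrtd.lift ⟨(s : ZMod p), h0⟩ with hφ
  have hφ1 : ∀ z : GaussianInt, φ z = ((lf s (z.re, z.im) : ℤ) : ZMod p) := by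
    intro z
    rw [hφ, Zsqrtd.lift_apply_apply, lf]
    push_cast
    ring
  have hsurj : Function.Surjective φ := by
    intro y
    obtain ⟨n, rfl⟩ := ZMod.intCast_surjective y
    exact ⟨(n : GaussianInt), map_intCast φ n⟩
  have hmax : (RingHom.ker φ).IsMaximal := RingHom.ker_isMaximal_of_surjective φ hsurj
  obtain ⟨π, hπ⟩ := (IsPrincipalIdealRing.principal (RingHom.ker φ)).principal
  have hker : ∀ z, π ∣ z ↔ φ z = 0 := by
    intro z
    rw [← RingHom.mem_ker, hπ]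
    exact Ideal.mem_span_singleton.symm
  have hπ0 : π ≠ 0 := by
    rintro rfl
    have h1 : φ (p : GaussianInt) = 0 := by rw [map_natCast]; exact ZMod.natCast_self p
    have h2 := (hker _).2 h1
    rw [zero_dvd_iff] at h2
    have h3 : (p : GaussianInt) = ((p : ℤ) : GaussianInt) := by norm_cast
    rw [h3] at h2
    have h4 : (p : ℤ) = 0 := by exact_mod_cast h2
    exact hp.ne_zero (by exact_mod_cast h4)
  refine ⟨π, ?_, fun z => ?_⟩
  · have h1 : (Ideal.span {π}).IsPrime := by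
      have h2 : Ideal.span {π} = RingHom.ker φ := hπ.symm
      rw [h2]
      exact hmax.isPrime
    exact (Ideal.span_singleton_prime hπ0).1 h1
  · rw [hker, hφ1]

/-- no infinite walk misses a class modulo every Gaussian prime -/
theorem not_admissible (h : GoalStmt) (D : ℝ) : ¬ ∃ g : ℕ → GaussianInt, Admissible D g := by
  rintro ⟨g, hinj, hstep, hmiss⟩
  have hroot : ∀ p : ℕ, ∃ s : ℤ, p.Prime → p % 4 = 1 → (p : ℤ) ∣ s ^ 2 + 1 := by
    intro p
    by_cases hp : p.Prime ∧ p % 4 = 1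
    · have := Fact.mk hp.1
      obtain ⟨y, hy⟩ := (ZMod.exists_sq_eq_neg_one_iff (p := p)).2 (by omega)
      obtain ⟨s, rfl⟩ := ZMod.intCast_surjective y
      refine ⟨s, fun _ _ => ?_⟩
      rw [← ZMod.intCast_zmod_eq_zero_iff_dvd]
      push_cast
      linear_combination -hy
    · exact ⟨0, fun h1 h2 => absurd ⟨h1, h2⟩ hp⟩
  choose r hr using hroot
  refine h r hr ⌈D⌉₊ (fun t => ((g t).re, (g t).im)) ?_ ?_ ?_
  · intro a b hab
    simp only [Prod.mk.injEq] at hab
    exact hinj (Zsqrtd.ext hab.1 hab.2)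
  · intro t
    have h1 := hstep t
    have h2 : (D : ℝ) ≤ ⌈D⌉₊ := Nat.le_ceil D
    rw [Complex.dist_eq] at h1
    have h3 := Complex.abs_re_le_norm
      (GaussianInt.toComplex (g t) - GaussianInt.toComplex (g (t + 1)))
    have h4 := Complex.abs_im_le_norm
      (GaussianInt.toComplex (g t) - GaussianInt.toComplex (g (t + 1)))
    simp only [Complex.sub_re, Complex.sub_im, ← GaussianInt.intCast_re,
      ← GaussianInt.intCast_im] at h3 h4
    have h5 : |((g t).re : ℝ) - (g (t + 1)).re| ≤ (⌈D⌉₊ : ℝ) := h3.trans (h1.trans h2)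
    have h6 : |((g t).im : ℝ) - (g (t + 1)).im| ≤ (⌈D⌉₊ : ℝ) := h4.trans (h1.trans h2)
    have h7 : |(g t).re - (g (t + 1)).re| ≤ (⌈D⌉₊ : ℤ) := by exact_mod_cast h5
    have h8 : |(g t).im - (g (t + 1)).im| ≤ (⌈D⌉₊ : ℤ) := by exact_mod_cast h6
    rw [abs_le] at h7 h8
    simp only [box, Finset.mem_product, Finset.mem_Icc, Prod.fst_sub, Prod.snd_sub]
    refine ⟨⟨?_, ?_⟩, ?_, ?_⟩ <;> omega
  · intro p hp hp4
    obtain ⟨π, hπ, hdvd⟩ := exists_prime_of_root hp (hr p hp hp4)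
    obtain ⟨a, ha⟩ := hmiss π hπ
    refine ⟨((lf (r p) (a.re, a.im) : ℤ) : ZMod p), fun t ht => ha t ?_⟩
    rw [hdvd]
    have h1 : lf (r p) ((g t - a).re, (g t - a).im) =
        lf (r p) ((g t).re, (g t).im) - lf (r p) (a.re, a.im) := by
      simp only [lf, Zsqrtd.re_sub, Zsqrtd.im_sub]
      ring
    rw [h1, Int.cast_sub, ht, sub_self]

/-- **The moat theorem**, from `GoalStmt`. -/
theorem moat (h : GoalStmt) (D : ℝ) :
    (∃ B : ℕ, ∀ C : (moatGraph D).ConnectedComponent, C.supp.encard ≤ (B : ℕ∞)) ∧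
    (∀ C : (moatGraph D).ConnectedComponent, C.supp.Finite) ∧
    (¬ ∃ γ : ℕ → {z : GaussianInt // Prime z}, Function.Injective γ ∧
      ∀ n, dist (GaussianInt.toComplex (γ n)) (GaussianInt.toComplex (γ (n + 1))) ≤ D) ∧
    (∃ m : GaussianInt, m ≠ 0 ∧ ∀ z, (cluster D m z).encard ≤ ((phi m : ℕ) : ℕ∞)) ∧
    ∃ k : ℕ, ∀ f : ℕ → GaussianInt, (∀ i ≤ k, ∀ j ≤ k, f i = f j → i = j) →
      (∀ n < k, dist (GaussianInt.toComplex (f n)) (GaussianInt.toComplex (f (n + 1))) ≤ D) →
        ∃ π : GaussianInt, Prime π ∧ ∀ a, ∃ n ≤ k, π ∣ f n - a := by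
  have h3 := not_admissible h D
  obtain ⟨m, hm, hc⟩ := ((dichotomy D).out 0 2).2 h3
  have h2 := ((dichotomy D).out 1 2).2 h3
  obtain ⟨B, hB⟩ := bounded_components hm hc
  have hsupp : ∀ C : (moatGraph D).ConnectedComponent, C.supp.encard ≤ (B : ℕ∞) := by
    intro C
    obtain ⟨z, rfl⟩ := C.exists_rep
    refine le_trans (le_of_eq ?_) (hB z)
    congr 1
    ext w
    change (moatGraph D).connectedComponentMk w = (moatGraph D).connectedComponentMk z ↔ _
    rw [SimpleGraph.ConnectedComponent.eq, Set.mem_ofPred_eq]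
    exact ⟨fun h => h.symm, fun h => h.symm⟩
  refine ⟨⟨B, hsupp⟩, fun C => Set.finite_of_encard_le_coe (hsupp C), ?_, ⟨m, hm, hc⟩, h2⟩
  rintro ⟨γ, hinj, hstep⟩
  have hreach : ∀ n, (moatGraph D).Reachable (γ 0) (γ n) := by
    intro n
    induction n with
    | zero => exact SimpleGraph.Reachable.refl _
    | succ n ih =>
      refine ih.trans (SimpleGraph.Adj.reachable ?_)
      exact ⟨fun he => absurd (hinj he) (by omega), hstep n⟩
  have h4 : (Set.range γ).Infinite := Set.infinite_range_of_injective hinj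
  refine h4 ((Set.finite_of_encard_le_coe (hB (γ 0))).subset ?_)
  rintro _ ⟨n, rfl⟩
  exact hreach n

end Vale.Agent.P015.M
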