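import Vale.Agent.P015.M.Defs

/-! # Module LA: non-alignment -/

namespace Vale.Agent.P015.M

open Finset hiding box
open Vale.Agent.P006.CLS Vale.Agent.P015.H222

namespace LA

/-- cross product -/
def cr (V W : ℤ × ℤ) : ℤ := V.1 * W.2 - V.2 * W.1

theorem dvd_of_res {r : ℕ → ℤ} {P : Finset ℕ} {V : ℤ × ℤ} (h : res r P V = 0) {p : ℕ}
    (hp : p ∈ P) : (p : ℤ) ∣ lf (r p) V := by
  have h1 := congrFun h p
  rw [res_apply, if_pos hp, Pi.zero_apply] at h1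
  exact (ZMod.intCast_zmod_eq_zero_iff_dvd _ _).mp h1

theorem dvd_cr {r : ℤ} {p : ℕ} {V W : ℤ × ℤ} (hV : (p : ℤ) ∣ lf r V) (hW : (p : ℤ) ∣ lf r W) :
    (p : ℤ) ∣ cr V W := by
  have h : cr V W = lf r V * W.2 - V.2 * lf r W := by simp only [cr, lf]; ring
  rw [h]
  exact dvd_sub (hV.mul_right _) (hW.mul_left _)

theorem dvd_norm {r : ℤ} {p : ℕ} {V : ℤ × ℤ} (hr : (p : ℤ) ∣ r ^ 2 + 1)
    (hV : (p : ℤ) ∣ lf r V) : (p : ℤ) ∣ V.1 ^ 2 + V.2 ^ 2 := by
  have h : V.1 ^ 2 + V.2 ^ 2 = lf r V * (V.1 - r * V.2) + (r ^ 2 + 1) * V.2 ^ 2 := by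
    simp only [lf]; ring
  rw [h]
  exact dvd_add (hV.mul_right _) (hr.mul_right _)

/-- parallel through a nonzero vector -/
theorem par_trans {U V W : ℤ × ℤ} (hV : V ≠ 0) (h1 : cr U V = 0) (h2 : cr V W = 0) :
    cr U W = 0 := by
  simp only [cr] at *
  have e1 : V.1 * (U.1 * W.2 - U.2 * W.1) = 0 := by linear_combination W.1 * h1 + U.1 * h2
  have e2 : V.2 * (U.1 * W.2 - U.2 * W.1) = 0 := by linear_combination W.2 * h1 + U.2 * h2
  by_contra hne
  have a1 : V.1 = 0 := by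
    rcases mul_eq_zero.mp e1 with h | h
    · exact h
    · exact absurd h hne
  have a2 : V.2 = 0 := by
    rcases mul_eq_zero.mp e2 with h | h
    · exact h
    · exact absurd h hne
  exact hV (Prod.ext a1 a2)

/-- a product of distinct primes divides -/
theorem prod_dvd {s : Finset ℕ} (hs : ∀ p ∈ s, p.Prime) {n : ℤ} (h : ∀ p ∈ s, (p : ℤ) ∣ n) :
    ((∏ p ∈ s, p : ℕ) : ℤ) ∣ n := by
  rw [Int.natCast_dvd]
  refine Finset.prod_primes_dvd _ (fun p hp => (hs p hp).prime) (fun p hp => ?_)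
  exact Int.natCast_dvd.mp (h p hp)

theorem prod_biUnion {J : Finset ℕ} {P : ℕ → Finset ℕ}
    (hd : ∀ a ∈ J, ∀ b ∈ J, a ≠ b → Disjoint (P a) (P b)) :
    ∏ a ∈ J, qq (P a) = ∏ p ∈ J.biUnion P, p := by
  rw [Finset.prod_biUnion (fun a ha b hb hab => hd a ha b hb hab)]
  rfl

end LA

open LA

theorem la : LAStmt := by
  classical
  intro r J P hJ hP hdis R h Δ hRh hRΔ hΔ hh
  by_contra hcon
  push Not at hcon
  -- the windows of parts
  have hsub : ∀ j ≤ J, Ico j (j + J) ⊆ range (2 * J) := by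
    intro j hj a ha
    rw [Finset.mem_Ico] at ha
    rw [Finset.mem_range]
    omega
  have hcard : ∀ j, (Ico j (j + J)).card = J := by
    intro j
    simp
  have hch : ∀ j : ℕ, ∃ V : ℤ × ℤ, j ≤ J → V ∈ R ∧
      (∀ a ∈ Ico j (j + J), res r (P a) V = 0) ∧ V ≠ 0 := by
    intro j
    by_cases hj : j ≤ J
    · obtain ⟨V, hV, h1, h2⟩ := hcon _ (hsub j hj) (hcard j)
      exact ⟨V, fun _ => ⟨hV, h1, h2⟩⟩
    · exact ⟨0, fun h => absurd h hj⟩
  choose V hV using hch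
  have hlt : ∀ j ≤ J, ∀ a ∈ Ico j (j + J), a < 2 * J := by
    intro j hj a ha
    exact Finset.mem_range.mp (hsub j hj ha)
  -- consecutive vectors are parallel
  have hadj : ∀ j, j + 1 ≤ J → cr (V j) (V (j + 1)) = 0 := by
    intro j hj
    obtain ⟨h1, h2, h3⟩ := hV j (by omega)
    obtain ⟨h1', h2', h3'⟩ := hV (j + 1) hj
    set T : Finset ℕ := Ico (j + 1) (j + J) with hT
    have hTs : T ⊆ range (2 * J) := by
      intro a ha
      rw [hT, Finset.mem_Ico] at ha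
      rw [Finset.mem_range]
      omega
    have hTc : T.card = J - 1 := by
      rw [hT, Nat.card_Ico]; omega
    have h4 := hΔ T hTs hTc
    have hTd : ∀ a ∈ T, ∀ b ∈ T, a ≠ b → Disjoint (P a) (P b) := by
      intro a ha b hb hab
      exact hdis a (Finset.mem_range.mp (hTs ha)) b (Finset.mem_range.mp (hTs hb)) hab
    rw [prod_biUnion hTd] at h4
    have h5 : ((∏ p ∈ T.biUnion P, p : ℕ) : ℤ) ∣ cr (V j) (V (j + 1)) := by
      refine prod_dvd (fun p hp => ?_) (fun p hp => ?_)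
      · obtain ⟨a, ha, hpa⟩ := Finset.mem_biUnion.mp hp
        exact (hP a (Finset.mem_range.mp (hTs ha)) p hpa).1
      · obtain ⟨a, ha, hpa⟩ := Finset.mem_biUnion.mp hp
        rw [hT, Finset.mem_Ico] at ha
        refine dvd_cr (r := r p) (dvd_of_res (h2 a ?_) hpa) (dvd_of_res (h2' a ?_) hpa)
        · rw [Finset.mem_Ico]; omega
        · rw [Finset.mem_Ico]; omega
    have h6 : |cr (V j) (V (j + 1))| ≤ (Δ : ℤ) := hRΔ _ h1 _ h1'
    refine Int.eq_zero_of_abs_lt_dvd h5 (lt_of_le_of_lt h6 ?_)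
    exact_mod_cast h4
  have hpar : ∀ j ≤ J, cr (V 0) (V j) = 0 := by
    intro j
    induction j with
    | zero => intro _; simp only [cr]; ring
    | succ j ih =>
      intro hj
      exact par_trans (hV j (by omega)).2.2 (ih (by omega)) (hadj j hj)
  -- the primitive vector
  obtain ⟨hV0R, hV0r, hV0n⟩ := hV 0 (Nat.zero_le _)
  have hg : (0 : ℤ) < (Int.gcd (V 0).1 (V 0).2 : ℤ) := by
    have : 0 < Int.gcd (V 0).1 (V 0).2 := by
      rw [Nat.pos_iff_ne_zero]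
      intro h0
      rw [Int.gcd_eq_zero_iff] at h0
      exact hV0n (Prod.ext h0.1 h0.2)
    exact_mod_cast this
  obtain ⟨d, hd0, u, v, hu, hv, huv⟩ : ∃ d : ℤ, d ≠ 0 ∧ ∃ u v : ℤ, (V 0).1 = d * u ∧
      (V 0).2 = d * v ∧ ∃ x y : ℤ, x * u + y * v = 1 := by
    refine ⟨(Int.gcd (V 0).1 (V 0).2 : ℤ), hg.ne', ?_⟩
    obtain ⟨u, hu⟩ := Int.gcd_dvd_left (a := (V 0).1) (b := (V 0).2)
    obtain ⟨v, hv⟩ := Int.gcd_dvd_right (a := (V 0).1) (b := (V 0).2)
    refine ⟨u, v, hu, hv, ?_⟩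
    have hb := Int.gcd_eq_gcd_ab (V 0).1 (V 0).2
    refine ⟨Int.gcdA (V 0).1 (V 0).2, Int.gcdB (V 0).1 (V 0).2, ?_⟩
    have h7 : (Int.gcd (V 0).1 (V 0).2 : ℤ) *
        (Int.gcdA (V 0).1 (V 0).2 * u + Int.gcdB (V 0).1 (V 0).2 * v) =
        (Int.gcd (V 0).1 (V 0).2 : ℤ) * 1 := by
      calc _ = ((Int.gcd (V 0).1 (V 0).2 : ℤ) * u) * Int.gcdA (V 0).1 (V 0).2 +
            ((Int.gcd (V 0).1 (V 0).2 : ℤ) * v) * Int.gcdB (V 0).1 (V 0).2 := by ring
        _ = (V 0).1 * Int.gcdA (V 0).1 (V 0).2 + (V 0).2 * Int.gcdB (V 0).1 (V 0).2 := by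
            rw [← hu, ← hv]
        _ = _ := by rw [← hb, mul_one]
    exact mul_left_cancel₀ hg.ne' h7
  obtain ⟨x, y, hxy⟩ := huv
  set Z : ℤ × ℤ := (u, v) with hZ
  have hZ0 : Z ≠ 0 := by
    intro h0
    have h8 : u = 0 := congrArg Prod.fst h0
    have h9 : v = 0 := congrArg Prod.snd h0
    rw [h8, h9] at hxy
    omega
  have hmul : ∀ j ≤ J, ∃ t : ℤ, (V j).1 = t * u ∧ (V j).2 = t * v := by
    intro j hj
    have h1 : cr Z (V j) = 0 := by
      have h2 := hpar j hj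
      simp only [cr, hu, hv, hZ] at h2 ⊢
      have h3 : d * (u * (V j).2 - v * (V j).1) = 0 := by linear_combination h2
      rcases mul_eq_zero.mp h3 with h | h
      · exact absurd h hd0
      · exact h
    simp only [cr, hZ] at h1
    refine ⟨x * (V j).1 + y * (V j).2, ?_, ?_⟩
    · linear_combination (-(V j).1) * hxy - y * h1
    · linear_combination (-(V j).2) * hxy + x * h1
  -- the two extreme windows
  set g : ℕ → ℕ := fun a => ∏ p ∈ (P a).filter (fun p : ℕ => (p : ℤ) ∣ lf (r p) Z), p with hgdef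
  set k : ℕ → ℕ := fun a => ∏ p ∈ (P a).filter (fun p : ℕ => ¬ (p : ℤ) ∣ lf (r p) Z), p with hkdef
  have hgk : ∀ a, g a * k a = qq (P a) := by
    intro a
    exact Finset.prod_filter_mul_prod_filter_not _ _ _
  have hgpos : ∀ a < 2 * J, 0 < g a := by
    intro a ha
    exact Finset.prod_pos (fun p hp => (hP a ha p (Finset.mem_filter.mp hp).1).1.pos)
  have hkpos : ∀ a < 2 * J, 0 < k a := by
    intro a ha
    exact Finset.prod_pos (fun p hp => (hP a ha p (Finset.mem_filter.mp hp).1).1.pos)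
  have hNZ : 0 < u ^ 2 + v ^ 2 := by
    rcases eq_or_ne u 0 with h0 | h0
    · have : v ≠ 0 := by
        rintro rfl
        exact hZ0 (by rw [hZ, h0]; rfl)
      positivity
    · positivity
  have hall : ((∏ a ∈ range (2 * J), g a : ℕ) : ℤ) ≤ u ^ 2 + v ^ 2 := by
    have h1 : (∏ a ∈ range (2 * J), g a : ℕ) =
        ∏ p ∈ (range (2 * J)).biUnion
          (fun a => (P a).filter (fun p : ℕ => (p : ℤ) ∣ lf (r p) Z)), p := by
      rw [Finset.prod_biUnion]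
      intro a ha b hb hab
      exact (hdis a (Finset.mem_range.mp ha) b (Finset.mem_range.mp hb) hab).mono
        (Finset.filter_subset _ _) (Finset.filter_subset _ _)
    rw [h1]
    refine Int.le_of_dvd hNZ (prod_dvd (fun p hp => ?_) (fun p hp => ?_))
    · obtain ⟨a, ha, hpa⟩ := Finset.mem_biUnion.mp hp
      exact (hP a (Finset.mem_range.mp ha) p (Finset.mem_filter.mp hpa).1).1
    · obtain ⟨a, ha, hpa⟩ := Finset.mem_biUnion.mp hp
      obtain ⟨h2, h3⟩ := Finset.mem_filter.mp hpa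
      exact dvd_norm (V := Z) (hP a (Finset.mem_range.mp ha) p h2).2 h3
  have hsplit : (∏ a ∈ Ico 0 (0 + J), g a) * (∏ a ∈ Ico J (J + J), g a) =
      ∏ a ∈ range (2 * J), g a := by
    rw [zero_add, Finset.range_eq_Ico, two_mul]
    exact Finset.prod_Ico_consecutive _ (Nat.zero_le _) (by omega)
  obtain ⟨j, hj, hsmall⟩ : ∃ j ≤ J, (∏ a ∈ Ico j (j + J), g a) ^ 2 ≤ ∏ a ∈ range (2 * J), g a := by
    rcases le_total (∏ a ∈ Ico 0 (0 + J), g a) (∏ a ∈ Ico J (J + J), g a) with h1 | h1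
    · refine ⟨0, Nat.zero_le _, ?_⟩
      rw [← hsplit, sq]
      exact Nat.mul_le_mul_left _ h1
    · refine ⟨J, le_rfl, ?_⟩
      rw [← hsplit, sq]
      exact Nat.mul_le_mul_right _ h1
  obtain ⟨hjR, hjr, hj0⟩ := hV j hj
  obtain ⟨t, ht1, ht2⟩ := hmul j hj
  have ht0 : t ≠ 0 := by
    rintro rfl
    refine hj0 (Prod.ext ?_ ?_)
    · rw [ht1]; simp
    · rw [ht2]; simp
  have hkt : ((∏ a ∈ Ico j (j + J), k a : ℕ) : ℤ) ∣ t := by
    have h1 : (∏ a ∈ Ico j (j + J), k a : ℕ) =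
        ∏ p ∈ (Ico j (j + J)).biUnion
          (fun a => (P a).filter (fun p : ℕ => ¬ (p : ℤ) ∣ lf (r p) Z)), p := by
      rw [Finset.prod_biUnion]
      intro a ha b hb hab
      exact (hdis a (hlt j hj a ha) b (hlt j hj b hb) hab).mono
        (Finset.filter_subset _ _) (Finset.filter_subset _ _)
    rw [h1]
    refine prod_dvd (fun p hp => ?_) (fun p hp => ?_)
    · obtain ⟨a, ha, hpa⟩ := Finset.mem_biUnion.mp hp
      exact (hP a (hlt j hj a ha) p (Finset.mem_filter.mp hpa).1).1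
    · obtain ⟨a, ha, hpa⟩ := Finset.mem_biUnion.mp hp
      obtain ⟨h2, h3⟩ := Finset.mem_filter.mp hpa
      have h4 := dvd_of_res (hjr a ha) h2
      have h5 : lf (r p) (V j) = t * lf (r p) Z := by
        simp only [lf, ht1, ht2, hZ]; ring
      rw [h5] at h4
      rcases (Nat.prime_iff_prime_int.mp (hP a (hlt j hj a ha) p h2).1).dvd_or_dvd h4 with h | h
      · exact h
      · exact absurd h h3
  have hkt' : ((∏ a ∈ Ico j (j + J), k a : ℕ) : ℤ) ≤ |t| := by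
    have h1 : (((∏ a ∈ Ico j (j + J), k a : ℕ) : ℤ)) ∣ |t| := (dvd_abs _ _).mpr hkt
    exact Int.le_of_dvd (abs_pos.mpr ht0) h1
  have hbig := hh _ (hsub j hj) (hcard j)
  have hprod : ∏ a ∈ Ico j (j + J), qq (P a) =
      (∏ a ∈ Ico j (j + J), g a) * (∏ a ∈ Ico j (j + J), k a) := by
    rw [← Finset.prod_mul_distrib]
    exact Finset.prod_congr rfl (fun a _ => (hgk a).symm)
  -- comparison of the norms
  have hbox := hRh _ hjR
  rw [mem_box] at hbox
  set Gj : ℕ := ∏ a ∈ Ico j (j + J), g a with hGj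
  set Kj : ℕ := ∏ a ∈ Ico j (j + J), k a with hKj
  have e1 : ((2 * h : ℕ) : ℤ) < (Gj : ℤ) * Kj := by
    rw [hprod] at hbig
    exact_mod_cast hbig
  have e2 : ((Gj : ℤ)) ^ 2 ≤ u ^ 2 + v ^ 2 := by
    refine le_trans ?_ hall
    exact_mod_cast hsmall
  have e3 : (Kj : ℤ) ^ 2 ≤ t ^ 2 := by
    rw [← sq_abs t]
    exact pow_le_pow_left₀ (by positivity) hkt' 2
  have e4 : ((Gj : ℤ) * Kj) ^ 2 ≤ (t * u) ^ 2 + (t * v) ^ 2 := by
    calc ((Gj : ℤ) * Kj) ^ 2 = (Gj : ℤ) ^ 2 * (Kj : ℤ) ^ 2 := by ring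
      _ ≤ (u ^ 2 + v ^ 2) * t ^ 2 := mul_le_mul e2 e3 (by positivity) (by positivity)
      _ = _ := by ring
  rw [← ht1, ← ht2] at e4
  have e5 : (V j).1 ^ 2 ≤ (h : ℤ) ^ 2 := sq_le_sq' hbox.1.1 hbox.1.2
  have e6 : (V j).2 ^ 2 ≤ (h : ℤ) ^ 2 := sq_le_sq' hbox.2.1 hbox.2.2
  push_cast at e1
  have e7 : (2 * (h : ℤ)) ^ 2 < ((Gj : ℤ) * Kj) ^ 2 := by
    refine pow_lt_pow_left₀ e1 (by positivity) (by norm_num)
  nlinarith [e4, e5, e6, e7, sq_nonneg (h : ℤ)]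

end Vale.Agent.P015.M
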