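import Vale.Agent.P015.M.LB512

/-! # P015, module LB -/

namespace Vale.Agent.P015.M

/-- **Lemma B** -/
theorem lb : LBStmt := lb512

end Vale.Agent.P015.M
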