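import Vale.Agent.P015.M.Defs
import Vale.Agent.P015.R2.H731.Lev

/-!
# P015, the moat theorem: supply of primes
-/

namespace Vale.Agent.P015.M

open Finset hiding box
open Vale.Agent.P015 Vale.Agent.P015.Cx Vale.Agent.P006.CLS Vale.Agent.P015.H222

/-- disjoint subsets of given size -/
theorem exists_parts (k : ℕ) : ∀ (B : ℕ) (S : Finset ℕ), B * k ≤ S.card →
    ∃ P : ℕ → Finset ℕ, (∀ a < B, P a ⊆ S ∧ (P a).card = k) ∧
      ∀ a < B, ∀ b < B, a ≠ b → Disjoint (P a) (P b)
  | 0, _, _ => ⟨fun _ => ∅, fun a ha => absurd ha (Nat.not_lt_zero a),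
      fun a ha => absurd ha (Nat.not_lt_zero a)⟩
  | B + 1, S, h => by
    have h1 : k ≤ S.card := le_trans (by rw [Nat.succ_mul]; exact Nat.le_add_left _ _) h
    obtain ⟨T, hTS, hT⟩ := Finset.exists_subset_card_eq h1
    have h2 : B * k ≤ (S \ T).card := by
      rw [Finset.card_sdiff_of_subset hTS, hT]
      rw [Nat.succ_mul] at h
      omega
    obtain ⟨P, hP1, hP2⟩ := exists_parts k B (S \ T) h2
    refine ⟨fun a => if a = B then T else P a, fun a ha => ?_, fun a ha b hb hab => ?_⟩
    · by_cases haB : a = B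
      · simp only [if_pos haB]
        exact ⟨hTS, hT⟩
      · simp only [if_neg haB]
        obtain ⟨h3, h4⟩ := hP1 a (by omega)
        exact ⟨h3.trans sdiff_subset, h4⟩
    · by_cases haB : a = B
      · have hbB : b ≠ B := fun h => hab (haB.trans h.symm)
        simp only [if_pos haB, if_neg hbB]
        exact (Finset.disjoint_sdiff).mono_right (hP1 b (by omega)).1
      · by_cases hbB : b = B
        · simp only [if_pos hbB, if_neg haB]
          exact ((Finset.disjoint_sdiff).mono_right (hP1 a (by omega)).1).symm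
        · simp only [if_neg haB, if_neg hbB]
          exact hP2 a (by omega) b (by omega) hab

/-- **PS** -/
theorem ps : PSStmt := by
  intro r hr B hB
  have hB0 : (0 : ℝ) < B := by exact_mod_cast hB
  have hB1 : (1 : ℝ) ≤ B := by exact_mod_cast hB
  obtain ⟨N, hN1, hN⟩ := Vale.Agent.P015.R2.H731.th_dyadic
  refine ⟨1 / (16 * B), by positivity, ?_, ?_⟩
  · rw [div_le_div_iff₀ (by positivity) (by norm_num)]
    linarith
  -- `log z ≤ z / (16 B)` for large `z`
  have hlim := Real.isLittleO_log_id_atTop.def (show (0 : ℝ) < 1 / (16 * B) by positivity)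
  obtain ⟨x₀, hx₀⟩ := Filter.eventually_atTop.mp hlim
  obtain ⟨N', hN'⟩ := exists_nat_ge x₀
  refine ⟨max (max N N') 3, fun z hz => ?_⟩
  have hzN : N ≤ z := (le_max_left _ _).trans ((le_max_left _ _).trans hz)
  have hzN' : N' ≤ z := (le_max_right _ _).trans ((le_max_left _ _).trans hz)
  have hz3 : 3 ≤ z := (le_max_right _ _).trans hz
  have hz0 : (0 : ℝ) < z := by
    have : 0 < z := by omega
    exact_mod_cast this
  have hlogpos : 0 < Real.log z := Real.log_pos (by
    have : 1 < z := by omega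
    exact_mod_cast this)
  have hlog : Real.log z ≤ 1 / (16 * B) * z := by
    have h1 := hx₀ z (hN'.trans (by exact_mod_cast hzN'))
    rw [Real.norm_of_nonneg hlogpos.le, id, Real.norm_of_nonneg hz0.le] at h1
    exact h1
  -- number of primes
  set S := primesMod (z / 2) z with hS
  have hcard : 1 / 8 * (z : ℝ) ≤ S.card * Real.log z := by
    have h1 := hN z hzN
    have h2 : th z = th (z / 2) + ∑ p ∈ primesMod (z / 2) z, Real.log p := by
      unfold th
      rw [← Finset.sum_union]
      · refine Finset.sum_congr ?_ (fun _ _ => rfl)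
        ext p
        rw [Finset.mem_union, mem_primesMod, mem_primesMod, mem_primesMod]
        constructor
        · rintro ⟨⟨h1, h2⟩, h3⟩
          by_cases h4 : p ≤ z / 2
          · exact Or.inl ⟨⟨h1, h4⟩, h3⟩
          · exact Or.inr ⟨⟨by omega, h2⟩, h3⟩
        · rintro (⟨⟨h1, h2⟩, h3⟩ | ⟨⟨h1, h2⟩, h3⟩)
          · exact ⟨⟨h1, by omega⟩, h3⟩
          · exact ⟨⟨by omega, h2⟩, h3⟩
      · rw [Finset.disjoint_left]
        intro p hp hp'
        rw [mem_primesMod] at hp hp'
        omega
    have h3 : ∑ p ∈ S, Real.log p ≤ S.card * Real.log z := by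
      rw [← nsmul_eq_mul]
      refine Finset.sum_le_card_nsmul S _ _ (fun p hp => ?_)
      have hp1 := mem_primesMod.mp hp
      refine Real.log_le_log ?_ ?_
      · have := hp1.2.1.pos; exact_mod_cast this
      · exact_mod_cast hp1.1.2
    linarith only [h1, h2, h3]
  set k : ℕ := ⌊2 * (1 / (16 * B)) * z / Real.log z⌋₊ with hk
  have hk1 : k * Real.log z ≤ 2 * (1 / (16 * B)) * z := by
    have h1 : (k : ℝ) ≤ 2 * (1 / (16 * B)) * z / Real.log z := Nat.floor_le (by positivity)
    rwa [le_div_iff₀ hlogpos] at h1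
  have hk2 : 1 / (16 * B) * z ≤ k * Real.log z := by
    have h1 : 2 * (1 / (16 * B)) * z / Real.log z < k + 1 := Nat.lt_floor_add_one _
    rw [div_lt_iff₀ hlogpos] at h1
    linarith only [h1, hlog]
  have hBk : B * k ≤ S.card := by
    have h1 : ((B * k : ℕ) : ℝ) * Real.log z ≤ S.card * Real.log z := by
      push_cast
      calc (B : ℝ) * k * Real.log z = B * (k * Real.log z) := by ring
        _ ≤ B * (2 * (1 / (16 * B)) * z) := by gcongr
        _ = 1 / 8 * z := by field_simp; norm_num
        _ ≤ _ := hcard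
    have h2 := le_of_mul_le_mul_right h1 hlogpos
    exact_mod_cast h2
  obtain ⟨P, hP1, hP2⟩ := exists_parts k B S hBk
  refine ⟨P, k, fun a ha => ⟨fun p hp => ?_, (hP1 a ha).2, fun p hp => ?_⟩, hP2, hk2, ?_⟩
  · have h1 := mem_primesMod.mp ((hP1 a ha).1 hp)
    exact ⟨h1.2.1, hr p h1.2.1 h1.2.2⟩
  · have h1 := mem_primesMod.mp ((hP1 a ha).1 hp)
    exact ⟨h1.2.2, by omega, h1.1.2⟩
  · linarith only [hk1]

end Vale.Agent.P015.M
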