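import Vale.Agent.P015.M.Defs

/-! # P015, the moat theorem: module SA (sampling) -/

namespace Vale.Agent.P015.M

open Finset hiding box
open Vale.Agent.P006.CLS Vale.Agent.P015.H222

namespace SA

/-- the class of the time `t` -/
noncomputable def cl (r : ℕ → ℤ) (p : ℕ) (g : ℕ → ℤ × ℤ) (t : ℕ) : ZMod p :=
  ((lf (r p) (g t) : ℤ) : ZMod p)

theorem walk_box {g : ℕ → ℤ × ℤ} {D N : ℕ} (hs : ∀ t < N, g (t + 1) - g t ∈ box D) :
    ∀ k t, t + k ≤ N → g (t + k) - g t ∈ box (k * D) := by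
  intro k
  induction k with
  | zero => intro t _; simp [mem_box]
  | succ k ih =>
    intro t ht
    have h1 := ih t (by omega)
    have h2 := hs (t + k) (by omega)
    rw [show t + (k + 1) = t + k + 1 by ring]
    rw [mem_box] at h1 h2 ⊢
    simp only [Prod.fst_sub, Prod.snd_sub] at h1 h2 ⊢
    push_cast at h1 h2 ⊢
    obtain ⟨⟨a1, a2⟩, a3, a4⟩ := h1
    obtain ⟨⟨b1, b2⟩, b3, b4⟩ := h2
    refine ⟨⟨?_, ?_⟩, ?_, ?_⟩ <;> linarith

theorem zero_of_lf {s : ℤ} {p : ℕ} (hr : (p : ℤ) ∣ s ^ 2 + 1) {K : ℕ} (hK : 2 * K ^ 2 < p)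
    {w : ℤ × ℤ} (hw : w ∈ box K) (h : (p : ℤ) ∣ lf s w) : w = 0 := by
  have h1 : (p : ℤ) ∣ w.1 ^ 2 + w.2 ^ 2 := by
    have : w.1 ^ 2 + w.2 ^ 2 = lf s w * (w.1 - s * w.2) + (s ^ 2 + 1) * w.2 ^ 2 := by
      unfold lf; ring
    rw [this]
    exact dvd_add (Dvd.dvd.mul_right h _) (Dvd.dvd.mul_right hr _)
  rw [mem_box] at hw
  obtain ⟨⟨a1, a2⟩, a3, a4⟩ := hw
  have h2 : w.1 ^ 2 + w.2 ^ 2 ≤ 2 * (K : ℤ) ^ 2 := by nlinarith
  have h3 : w.1 ^ 2 + w.2 ^ 2 = 0 := by
    by_contra h0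
    have h4 : 0 < w.1 ^ 2 + w.2 ^ 2 := lt_of_le_of_ne (by positivity) (Ne.symm h0)
    have h5 := Int.le_of_dvd h4 h1
    have h6 : (2 * (K : ℤ) ^ 2) < p := by exact_mod_cast hK
    linarith
  have h4 : w.1 = 0 := by nlinarith [sq_nonneg w.1, sq_nonneg w.2]
  have h5 : w.2 = 0 := by nlinarith [sq_nonneg w.1, sq_nonneg w.2]
  ext <;> simp [h4, h5]

/-- a block visits a class at most once -/
theorem once {r : ℕ → ℤ} {p D ℓ N : ℕ} {g : ℕ → ℤ × ℤ} (hr : (p : ℤ) ∣ r p ^ 2 + 1)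
    (hinj : ∀ a ≤ N, ∀ b ≤ N, g a = g b → a = b)
    (hs : ∀ t < N, g (t + 1) - g t ∈ box D) (hp : 2 * (ℓ * D) ^ 2 < p)
    {v i j : ℕ} (hij : i ≤ j) (hj : j ≤ ℓ) (hv : v + ℓ ≤ N)
    (h : cl r p g (v + i) = cl r p g (v + j)) : i = j := by
  have h1 := walk_box hs (j - i) (v + i) (by omega)
  rw [show v + i + (j - i) = v + j by omega] at h1
  have h2 : (p : ℤ) ∣ lf (r p) (g (v + j) - g (v + i)) := by
    have h3 : lf (r p) (g (v + j) - g (v + i)) = lf (r p) (g (v + j)) - lf (r p) (g (v + i)) := by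
      unfold lf
      simp only [Prod.fst_sub, Prod.snd_sub]
      ring
    rw [h3]
    unfold cl at h
    exact (ZMod.intCast_eq_intCast_iff_dvd_sub _ _ _).mp h
  have h4 : 2 * ((j - i) * D) ^ 2 < p := by
    have : (j - i) * D ≤ ℓ * D := Nat.mul_le_mul_right _ (by omega)
    have h5 : ((j - i) * D) ^ 2 ≤ (ℓ * D) ^ 2 := Nat.pow_le_pow_left this 2
    omega
  have h5 := zero_of_lf hr h4 h1 h2
  have h6 : g (v + j) = g (v + i) := by
    rw [sub_eq_zero] at h5
    exact h5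
  have := hinj _ (by omega) _ (by omega) h6
  omega

variable (r : ℕ → ℤ) (p : ℕ) (g : ℕ → ℤ × ℤ) (ℓ m : ℕ)

/-- the blocks that hit the class `c` -/
noncomputable def Hc (c : ZMod p) : Finset (Fin m) := by
  classical
  exact univ.filter (fun v => ∃ i ∈ range (ℓ + 1), cl r p g (v + i) = c)

/-- the blocks that miss the class `c` -/
noncomputable def Sc (c : ZMod p) : Finset (Fin m) := by
  classical
  exact univ.filter (fun v => ¬ ∃ i ∈ range (ℓ + 1), cl r p g (v + i) = c)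

theorem card_add (c : ZMod p) : (Hc r p g ℓ m c).card + (Sc r p g ℓ m c).card = m := by
  classical
  unfold Hc Sc
  rw [Finset.card_filter_add_card_filter_not]
  simp

end SA

open SA in
theorem sum_missed (r : ℕ → ℤ) (p : ℕ) [NeZero p] (g : ℕ → ℤ × ℤ) (ℓ N b : ℕ) :
    ∑ u : Fin b → Fin (N - ℓ + 1), ((p : ℝ) - hit r p g u) =
      ∑ c : ZMod p, ((Sc r p g ℓ (N - ℓ + 1) c).card : ℝ) ^ b := by
  classical
  have h1 : ∀ u : Fin b → Fin (N - ℓ + 1), ((p : ℝ) - hit r p g u) =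
      (((univ : Finset (ZMod p)).bipartiteAbove
        (fun (u : Fin b → Fin (N - ℓ + 1)) c => ∀ j, u j ∈ Sc r p g ℓ (N - ℓ + 1) c) u).card : ℝ) := by
    intro u
    have h2 : (univ : Finset (ZMod p)).bipartiteAbove
        (fun (u : Fin b → Fin (N - ℓ + 1)) c => ∀ j, u j ∈ Sc r p g ℓ (N - ℓ + 1) c) u =
        ((Finset.univ ×ˢ range (ℓ + 1)).image
          (fun x : Fin b × ℕ => ((lf (r p) (g ((u x.1 : ℕ) + x.2)) : ℤ) : ZMod p)))ᶜ := by
      ext c
      simp only [Finset.bipartiteAbove, Finset.mem_filter, Finset.mem_univ, true_and,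
        Finset.mem_compl, Finset.mem_image, Finset.mem_product, Sc, cl, not_exists, not_and,
        Prod.forall]
    rw [h2, Finset.card_compl, ZMod.card]
    have h3 : hit r p g u = ((Finset.univ ×ˢ range (ℓ + 1)).image
          (fun x : Fin b × ℕ => ((lf (r p) (g ((u x.1 : ℕ) + x.2)) : ℤ) : ZMod p))).card := by
      unfold hit
      rfl
    rw [h3, Nat.cast_sub]
    calc _ ≤ (univ : Finset (ZMod p)).card := Finset.card_le_card (Finset.subset_univ _)
      _ = p := by rw [Finset.card_univ, ZMod.card]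
  rw [Finset.sum_congr rfl (fun u _ => h1 u), ← Nat.cast_sum,
    Finset.sum_card_bipartiteAbove_eq_sum_card_bipartiteBelow, Nat.cast_sum]
  refine Finset.sum_congr rfl fun c _ => ?_
  have h4 : (univ : Finset (Fin b → Fin (N - ℓ + 1))).bipartiteBelow
      (fun (u : Fin b → Fin (N - ℓ + 1)) c => ∀ j, u j ∈ Sc r p g ℓ (N - ℓ + 1) c) c =
      Fintype.piFinset (fun _ => Sc r p g ℓ (N - ℓ + 1) c) := by
    ext u
    simp [Finset.bipartiteBelow, Fintype.mem_piFinset]
  rw [h4, Fintype.card_piFinset_const]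
  push_cast
  rfl

open SA in
/-- the first alternative -/
theorem sa_first {r : ℕ → ℤ} {p : ℕ} (hp0 : 0 < p) {g : ℕ → ℤ × ℤ} {ℓ N b : ℕ} {Λ : ℝ}
    (hΛ : 2 ≤ Λ)
    (hhit : ∀ u : Fin b → Fin (N - ℓ + 1), hit r p g u < p)
    {T : Finset (ZMod p)} (hT : Λ * T.card ≤ p)
    (hTc : ∀ c ∉ T, Λ * ((Sc r p g ℓ (N - ℓ + 1) c).card : ℝ) ^ b ≤ ((N - ℓ + 1 : ℕ) : ℝ) ^ b) :
    (∑ u : Fin b → Fin (N - ℓ + 1), Real.log ((p : ℝ) - hit r p g u)) /
      (Fintype.card (Fin (N - ℓ + 1)) : ℝ) ^ b ≤ Real.log p - Real.log Λ + Real.log 2 := by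
  classical
  have : NeZero p := ⟨hp0.ne'⟩
  have hp1 : (0 : ℝ) < p := by exact_mod_cast hp0
  have hΛ0 : (0 : ℝ) < Λ := by linarith
  set m := N - ℓ + 1 with hm
  have hm0 : (0 : ℝ) < m := by positivity
  have hmb : (0 : ℝ) < (m : ℝ) ^ b := by positivity
  set y : ℝ := 2 * p / Λ with hy
  have hy0 : 0 < y := by positivity
  have hylog : Real.log y = Real.log p - Real.log Λ + Real.log 2 := by
    rw [hy, Real.log_div (by positivity) (by positivity), Real.log_mul (by norm_num) (by positivity)]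
    ring
  rw [← hylog, Fintype.card_fin, div_le_iff₀ hmb]
  have hsum : ∑ u : Fin b → Fin m, ((p : ℝ) - hit r p g u) ≤ y * (m : ℝ) ^ b := by
    rw [sum_missed]
    rw [← Finset.sum_filter_add_sum_filter_not (univ : Finset (ZMod p)) (fun c => c ∈ T)]
    have h1 : ∑ c ∈ (univ : Finset (ZMod p)).filter (fun c => c ∈ T),
        ((Sc r p g ℓ m c).card : ℝ) ^ b ≤ T.card * (m : ℝ) ^ b := by
      have h2 : (univ : Finset (ZMod p)).filter (fun c => c ∈ T) = T := by ext; simp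
      rw [h2]
      calc _ ≤ ∑ c ∈ T, (m : ℝ) ^ b := by
            refine Finset.sum_le_sum fun c _ => ?_
            have h3 : (Sc r p g ℓ m c).card ≤ m := by
              have := card_add r p g ℓ m c
              omega
            exact pow_le_pow_left₀ (by positivity) (by exact_mod_cast h3) b
        _ = _ := by rw [Finset.sum_const, nsmul_eq_mul]
    have h4 : ∑ c ∈ (univ : Finset (ZMod p)).filter (fun c => ¬ c ∈ T),
        ((Sc r p g ℓ m c).card : ℝ) ^ b ≤ p * ((m : ℝ) ^ b / Λ) := by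
      calc _ ≤ ∑ c ∈ (univ : Finset (ZMod p)).filter (fun c => ¬ c ∈ T), ((m : ℝ) ^ b / Λ) := by
            refine Finset.sum_le_sum fun c hc => ?_
            have h5 := hTc c (Finset.mem_filter.mp hc).2
            rw [le_div_iff₀ hΛ0]
            linarith
        _ ≤ ∑ c ∈ (univ : Finset (ZMod p)), ((m : ℝ) ^ b / Λ) :=
            Finset.sum_le_sum_of_subset_of_nonneg (Finset.filter_subset _ _)
              (fun _ _ _ => by positivity)
        _ = _ := by rw [Finset.sum_const, nsmul_eq_mul, Finset.card_univ, ZMod.card]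
    have h6 : (T.card : ℝ) ≤ p / Λ := by
      rw [le_div_iff₀ hΛ0]
      linarith
    calc _ ≤ (T.card : ℝ) * (m : ℝ) ^ b + p * ((m : ℝ) ^ b / Λ) := add_le_add h1 h4
      _ ≤ p / Λ * (m : ℝ) ^ b + p * ((m : ℝ) ^ b / Λ) := by gcongr
      _ = y * (m : ℝ) ^ b := by rw [hy]; ring
  have hlog : ∀ u : Fin b → Fin m, Real.log ((p : ℝ) - hit r p g u) ≤
      (Real.log y - 1) + ((p : ℝ) - hit r p g u) / y := by
    intro u
    have h1 : (0 : ℝ) < (p : ℝ) - hit r p g u := by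
      have := hhit u
      have h2 : (hit r p g u : ℝ) < p := by exact_mod_cast this
      linarith
    have h2 := Real.log_le_sub_one_of_pos (div_pos h1 hy0)
    rw [Real.log_div h1.ne' hy0.ne'] at h2
    linarith
  calc _ ≤ ∑ u : Fin b → Fin m, ((Real.log y - 1) + ((p : ℝ) - hit r p g u) / y) :=
        Finset.sum_le_sum fun u _ => hlog u
    _ = (m : ℝ) ^ b * (Real.log y - 1) +
        (∑ u : Fin b → Fin m, ((p : ℝ) - hit r p g u)) / y := by
        rw [Finset.sum_add_distrib, Finset.sum_const, nsmul_eq_mul, ← Finset.sum_div,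
          Finset.card_univ, Fintype.card_fun, Fintype.card_fin, Fintype.card_fin]
        push_cast
        ring
    _ ≤ (m : ℝ) ^ b * (Real.log y - 1) + (m : ℝ) ^ b := by
        have : (∑ u : Fin b → Fin m, ((p : ℝ) - hit r p g u)) / y ≤ (m : ℝ) ^ b := by
          rw [div_le_iff₀ hy0]
          linarith
        linarith
    _ = Real.log y * (m : ℝ) ^ b := by ring

open SA in
/-- few visits to a class that many samples miss -/
theorem sa_rare {r : ℕ → ℤ} {p : ℕ} {g : ℕ → ℤ × ℤ} {ℓ m b : ℕ} (hm : 0 < m) {Λ : ℝ}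
    (hΛ : 2 ≤ Λ) {c : ZMod p}
    (h : (m : ℝ) ^ b < Λ * ((Sc r p g ℓ m c).card : ℝ) ^ b) :
    (b : ℝ) * (Hc r p g ℓ m c).card ≤ m * Real.log Λ := by
  have hm0 : (0 : ℝ) < m := by exact_mod_cast hm
  have hΛ0 : (0 : ℝ) < Λ := by linarith
  have hmb : (0 : ℝ) < (m : ℝ) ^ b := by positivity
  have h1 : ((Hc r p g ℓ m c).card : ℝ) + (Sc r p g ℓ m c).card = m := by
    exact_mod_cast card_add r p g ℓ m c
  set x : ℝ := ((Hc r p g ℓ m c).card : ℝ) with hx
  have h2 : ((Sc r p g ℓ m c).card : ℝ) ≤ m * Real.exp (-(x / m)) := by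
    have h3 := Real.add_one_le_exp (-(x / m))
    have h4 : ((Sc r p g ℓ m c).card : ℝ) = m * (-(x / m) + 1) := by
      have : (m : ℝ) * (x / m) = x := by field_simp
      linarith
    rw [h4]
    exact mul_le_mul_of_nonneg_left h3 hm0.le
  have h5 : ((Sc r p g ℓ m c).card : ℝ) ^ b ≤ (m : ℝ) ^ b * Real.exp (-(x / m)) ^ b := by
    rw [← mul_pow]
    exact pow_le_pow_left₀ (by positivity) h2 b
  have h6 : (m : ℝ) ^ b < Λ * ((m : ℝ) ^ b * Real.exp (-(x / m)) ^ b) :=
    h.trans_le (mul_le_mul_of_nonneg_left h5 hΛ0.le)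
  have h7 : 1 < Λ * Real.exp (-(x / m)) ^ b := by
    have h8 : (m : ℝ) ^ b * 1 < (m : ℝ) ^ b * (Λ * Real.exp (-(x / m)) ^ b) := by
      rw [mul_one]
      calc _ < _ := h6
        _ = _ := by ring
    exact lt_of_mul_lt_mul_left h8 hmb.le
  rw [← Real.exp_nat_mul] at h7
  have h9 := Real.log_lt_log one_pos h7
  rw [Real.log_one, Real.log_mul hΛ0.ne' (Real.exp_pos _).ne', Real.log_exp] at h9
  have h10 : (b : ℝ) * (x / m) ≤ Real.log Λ := by linarith
  calc (b : ℝ) * x = m * ((b : ℝ) * (x / m)) := by field_simp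
    _ ≤ m * Real.log Λ := mul_le_mul_of_nonneg_left h10 hm0.le

open SA in
/-- the count of the visits by the blocks -/
theorem sa_count {r : ℕ → ℤ} {p D ℓ N : ℕ} {g : ℕ → ℤ × ℤ} (hr : (p : ℤ) ∣ r p ^ 2 + 1)
    (hinj : ∀ a ≤ N, ∀ b ≤ N, g a = g b → a = b)
    (hs : ∀ t < N, g (t + 1) - g t ∈ box D) (hp : 2 * (ℓ * D) ^ 2 < p) (hN : 2 * ℓ ≤ N)
    (T : Finset (ZMod p)) [DecidablePred fun t => cl r p g t ∈ T] :
    ((Icc ℓ (N - ℓ)).filter (fun t => cl r p g t ∈ T)).card * (ℓ + 1) ≤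
      ∑ c ∈ T, (Hc r p g ℓ (N - ℓ + 1) c).card := by
  classical
  set pr : Finset (ℕ × ℕ) := (range (N - ℓ + 1) ×ˢ range (ℓ + 1)).filter
    (fun x => cl r p g (x.1 + x.2) ∈ T) with hpr
  have h1 : ((Icc ℓ (N - ℓ)).filter (fun t => cl r p g t ∈ T)).card * (ℓ + 1) ≤ pr.card := by
    rw [show ((Icc ℓ (N - ℓ)).filter (fun t => cl r p g t ∈ T)).card * (ℓ + 1) =
      (((Icc ℓ (N - ℓ)).filter (fun t => cl r p g t ∈ T)) ×ˢ range (ℓ + 1)).card by
        rw [Finset.card_product, Finset.card_range]]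
    apply Finset.card_le_card_of_injOn (fun x => (x.1 - x.2, x.2))
    · intro x hx
      simp only [Finset.coe_product, Set.mem_prod, Finset.mem_coe, Finset.mem_filter,
        Finset.mem_Icc, Finset.mem_range] at hx
      obtain ⟨⟨⟨h2, h3⟩, h4⟩, h5⟩ := hx
      simp only [hpr, Finset.mem_coe, Finset.mem_filter, Finset.mem_product, Finset.mem_range]
      refine ⟨⟨by omega, h5⟩, ?_⟩
      rw [show x.1 - x.2 + x.2 = x.1 by omega]
      exact h4
    · intro x hx y hy hxy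
      simp only [Finset.coe_product, Set.mem_prod, Finset.mem_coe, Finset.mem_filter,
        Finset.mem_Icc, Finset.mem_range] at hx hy
      simp only [Prod.mk.injEq] at hxy
      ext <;> omega
  refine h1.trans ?_
  have h2 : pr.card = ∑ c ∈ T, (pr.filter (fun x => cl r p g (x.1 + x.2) = c)).card := by
    apply Finset.card_eq_sum_card_fiberwise
    intro x hx
    rw [hpr] at hx
    exact (Finset.mem_filter.mp hx).2
  rw [h2]
  refine Finset.sum_le_sum fun c _ => ?_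
  apply Finset.card_le_card_of_injOn (fun x => Fin.ofNat (N - ℓ + 1) x.1)
  · intro x hx
    simp only [hpr, Finset.coe_filter, Finset.mem_filter, Finset.mem_product, Finset.mem_range,
      Set.mem_ofPred_eq] at hx
    obtain ⟨⟨⟨h3, h4⟩, _⟩, h5⟩ := hx
    simp only [Hc, Finset.coe_filter, Set.mem_ofPred_eq, Finset.mem_univ, true_and,
      Finset.mem_range]
    refine ⟨x.2, h4, ?_⟩
    simp only [Fin.val_ofNat]
    rw [Nat.mod_eq_of_lt h3]
    exact h5
  · intro x hx y hy hxy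
    simp only [hpr, Finset.coe_filter, Finset.mem_filter, Finset.mem_product, Finset.mem_range,
      Set.mem_ofPred_eq] at hx hy
    obtain ⟨⟨⟨h3, h4⟩, _⟩, h5⟩ := hx
    obtain ⟨⟨⟨h6, h7⟩, _⟩, h8⟩ := hy
    have h9 : x.1 = y.1 := by
      have h10 := congrArg Fin.val hxy
      simp only [Fin.val_ofNat] at h10
      rw [Nat.mod_eq_of_lt h3, Nat.mod_eq_of_lt h6] at h10
      exact h10
    have h11 : x.2 = y.2 := by
      rcases le_total x.2 y.2 with h | h
      · refine once hr hinj hs hp h (by omega) (v := x.1) (by omega) ?_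
        rw [h5, h9, h8]
      · symm
        refine once hr hinj hs hp h (by omega) (v := x.1) (by omega) ?_
        rw [h5, h9, h8]
    ext
    · exact h9
    · exact h11

open SA in
/-- **SA** -/
theorem sa : SAStmt := by
  classical
  intro r p D ℓ N b Λ δ g hp hr hinj hs hℓ hpD hΛ hδ hδ1 hℓN hb hN hhit
  have hp0 : 0 < p := hp.pos
  have : NeZero p := ⟨hp0.ne'⟩
  have hp1 : (0 : ℝ) < p := by exact_mod_cast hp0
  have hΛ0 : (0 : ℝ) < Λ := by linarith
  set T : Finset (ZMod p) := univ.filter (fun c => ((N - ℓ + 1 : ℕ) : ℝ) ^ b <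
    Λ * ((Sc r p g ℓ (N - ℓ + 1) c).card : ℝ) ^ b) with hTdef
  by_cases hT : Λ * T.card ≤ p
  · left
    refine sa_first hp0 hΛ hhit hT ?_
    intro c hc
    rw [hTdef, Finset.mem_filter] at hc
    simpa using hc
  · right
    rw [not_le] at hT
    refine ⟨T, hT.le, ?_⟩
    have h1 : (b : ℝ) * ∑ c ∈ T, ((Hc r p g ℓ (N - ℓ + 1) c).card : ℝ) ≤
        T.card * (((N - ℓ + 1 : ℕ) : ℝ) * Real.log Λ) := by
      rw [Finset.mul_sum]
      calc _ ≤ ∑ c ∈ T, (((N - ℓ + 1 : ℕ) : ℝ) * Real.log Λ) := by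
            refine Finset.sum_le_sum fun c hc => ?_
            exact sa_rare (by omega) hΛ (Finset.mem_filter.mp hc).2
        _ = _ := by rw [Finset.sum_const, nsmul_eq_mul]
    have h2 : (((Icc ℓ (N - ℓ)).filter (fun t => cl r p g t ∈ T)).card : ℝ) * (ℓ + 1) ≤
        ∑ c ∈ T, ((Hc r p g ℓ (N - ℓ + 1) c).card : ℝ) := by
      exact_mod_cast sa_count hr hinj hs hpD hℓN T
    set mid : ℝ := (((Icc ℓ (N - ℓ)).filter (fun t => cl r p g t ∈ T)).card : ℝ) with hmid
    have hmid0 : 0 ≤ mid := by positivity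
    have h3 : (((range (N + 1)).filter
        (fun t => ((lf (r p) (g t) : ℤ) : ZMod p) ∈ T)).card : ℝ) ≤ mid + 2 * ℓ := by
      have h4 : (range (N + 1)).filter (fun t => ((lf (r p) (g t) : ℤ) : ZMod p) ∈ T) ⊆
          ((Icc ℓ (N - ℓ)).filter (fun t => cl r p g t ∈ T)) ∪
            (range ℓ ∪ Ico (N - ℓ + 1) (N + 1)) := by
        intro t ht
        rw [Finset.mem_filter, Finset.mem_range] at ht
        rw [Finset.mem_union, Finset.mem_union, Finset.mem_filter, Finset.mem_Icc,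
          Finset.mem_range, Finset.mem_Ico]
        by_cases h5 : ℓ ≤ t ∧ t ≤ N - ℓ
        · exact Or.inl ⟨h5, ht.2⟩
        · right
          omega
      have h6 := (Finset.card_le_card h4).trans (Finset.card_union_le _ _)
      have h7 := Finset.card_union_le (range ℓ) (Ico (N - ℓ + 1) (N + 1))
      rw [Finset.card_range, Nat.card_Ico] at h7
      have h8 : ((range (N + 1)).filter
          (fun t => ((lf (r p) (g t) : ℤ) : ZMod p) ∈ T)).card ≤
          ((Icc ℓ (N - ℓ)).filter (fun t => cl r p g t ∈ T)).card + 2 * ℓ := by omega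
      rw [hmid]
      exact_mod_cast h8
    have hN1 : ((N - ℓ + 1 : ℕ) : ℝ) ≤ N := by
      have : N - ℓ + 1 ≤ N := by omega
      exact_mod_cast this
    have hlogΛ : 0 < Real.log Λ := Real.log_pos (by linarith)
    have hT0 : (0 : ℝ) ≤ T.card := by positivity
    have hb0 : (0 : ℝ) ≤ b := by positivity
    have hℓ0 : (0 : ℝ) ≤ ℓ := by positivity
    have hN0 : (0 : ℝ) ≤ N := by positivity
    -- the visits in the middle
    have h9 : (b : ℝ) * ℓ * mid ≤ T.card * N * Real.log Λ := by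
      calc (b : ℝ) * ℓ * mid ≤ b * (mid * (ℓ + 1)) := by nlinarith [mul_nonneg hb0 hmid0]
        _ ≤ b * ∑ c ∈ T, ((Hc r p g ℓ (N - ℓ + 1) c).card : ℝ) :=
            mul_le_mul_of_nonneg_left h2 hb0
        _ ≤ _ := h1
        _ ≤ T.card * ((N : ℝ) * Real.log Λ) := by gcongr
        _ = _ := by ring
    have h10 : 4 * (p * mid) ≤ δ * T.card * N := by
      have h11 : Real.log Λ * (4 * (p * mid)) ≤ Real.log Λ * (δ * T.card * N) := by
        calc Real.log Λ * (4 * (p * mid)) = (4 * Real.log Λ * p) * mid := by ring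
          _ ≤ (δ * (b * ℓ)) * mid := mul_le_mul_of_nonneg_right hb hmid0
          _ = δ * ((b : ℝ) * ℓ * mid) := by ring
          _ ≤ δ * (T.card * N * Real.log Λ) := mul_le_mul_of_nonneg_left h9 hδ.le
          _ = _ := by ring
      exact le_of_mul_le_mul_left h11 hlogΛ
    have h12 : 4 * (ℓ * p) ≤ δ * T.card * N := by
      calc 4 * ((ℓ : ℝ) * p) ≤ 4 * (ℓ * (Λ * T.card)) := by gcongr
        _ = (4 * ℓ * Λ) * T.card := by ring
        _ ≤ (δ * N) * T.card := mul_le_mul_of_nonneg_right hN hT0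
        _ = _ := by ring
    calc _ ≤ (mid + 2 * ℓ) * p := mul_le_mul_of_nonneg_right h3 hp1.le
      _ ≤ δ * T.card * N := by nlinarith

end Vale.Agent.P015.M
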