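import Vale.Agent.P015.M.SSB

/-! Module SS: one group of parts saves `exp (s / ε)`. -/

namespace Vale.Agent.P015.M

open Finset hiding box
open Vale.Agent.P006.CLS Vale.Agent.P015.H222
open scoped Pointwise

theorem cap_ok (hLB : LBStmt) (hLA : LAStmt) {r : ℕ → ℤ} {P : ℕ → Finset ℕ} {w : ℕ → ℤ × ℤ}
    {n : ℕ} {S : Sys} {T : Finset ℕ} (hok : OK r P w n S T) {o J B : ℕ} (hJ : 1 ≤ J)
    (hT : ∀ a < 2 * J, o + a ∈ T) (hTB : ∀ a < 2 * J, o + a < B) {e s y : ℝ}
    (hP : Parts r P B e s) (he : 0 ≤ (1 - e) * s)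
    (hE : ∀ a < B, (nres r (P a) w n : ℝ) ≤ Real.exp y) {L ρ ρ' : ℕ} {M' Z : ℝ} (hρ' : 0 < ρ')
    (h1 : 8 * (4 * L + 1) ^ 2 * M' * ρ ≤ Z * ρ') (h2 : (4 : ℝ) * ρ ≤ Z)
    (hZ : Z < Real.exp ((J - 1 : ℕ) * ((1 - e) * s))) :
    S.Cap L ρ' ρ M' (Real.exp (J * y)) := by
  classical
  intro x hx A hA hAρ hlong hweb hM
  have hy := hok.web x hx
  choose! y' hy' using hy
  refine capCore hLB hLA hJ (P := fun a => P (o + a)) (fun a ha => hP.rts _ (hTB a ha))
    (fun a ha b hb hab => hP.disj _ (hTB a ha) _ (hTB b hb) (by omega))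
    (fun a ha => hP.low _ (hTB a ha)) he hρ' hA hAρ hlong hM
    (fun a => (range (n + 1)).image (fun i => res r (P (o + a)) (w i)))
    (fun a ha => ?_) (fun a => y' (o + a)) (fun a ha v hv => ?_) h1 h2 hZ
  · have := hE _ (hTB a ha)
    unfold nres at this
    convert this
  · obtain ⟨i, hi, hi2⟩ := hy' (o + a) (hT a ha) v (hweb v hv)
    exact Finset.mem_image.2 ⟨i, Finset.mem_range.2 (by omega), hi2.symm⟩

theorem cap_mono {S : Sys} {L ρ ρ' : ℕ} {M m m' : ℝ} (h : S.Cap L ρ' ρ M m) (hm : m ≤ m') :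
    S.Cap L ρ' ρ M m' :=
  fun x hx A hA h1 h2 h3 h4 => (h x hx A hA h1 h2 h3 h4).trans hm

theorem choose_J {c s Z : ℝ} (hc0 : 0 < c) (hc1 : c < 1) (hs : 0 < s) (hZ : 1 ≤ Z) :
    ∃ J : ℕ, 1 ≤ J ∧ Z < Real.exp ((J - 1 : ℕ) * ((1 - c / 4) * s)) ∧
      J * ((1 - c) * s) ≤ (1 - 3 * c / 4) * Real.log Z + 2 * s ∧
      (J : ℝ) ≤ 2 * Real.log Z / s + 2 := by
  have hx : 0 < (1 - c / 4) * s := mul_pos (by linarith) hs
  have hl : 0 ≤ Real.log Z := Real.log_nonneg hZ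
  have hf : (⌊Real.log Z / ((1 - c / 4) * s)⌋₊ : ℝ) ≤ Real.log Z / ((1 - c / 4) * s) :=
    Nat.floor_le (by positivity)
  refine ⟨⌊Real.log Z / ((1 - c / 4) * s)⌋₊ + 2, by omega, ?_, ?_, ?_⟩
  · have h1 : Real.log Z / ((1 - c / 4) * s) < ⌊Real.log Z / ((1 - c / 4) * s)⌋₊ + 1 :=
      Nat.lt_floor_add_one _
    rw [div_lt_iff₀ hx] at h1
    have e : ((⌊Real.log Z / ((1 - c / 4) * s)⌋₊ + 2 - 1 : ℕ) : ℝ) =
        ⌊Real.log Z / ((1 - c / 4) * s)⌋₊ + 1 := by
      rw [show ⌊Real.log Z / ((1 - c / 4) * s)⌋₊ + 2 - 1 =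
        ⌊Real.log Z / ((1 - c / 4) * s)⌋₊ + 1 by omega]
      push_cast; ring
    rw [e]
    calc Z = Real.exp (Real.log Z) := (Real.exp_log (by linarith)).symm
      _ < _ := Real.exp_lt_exp.2 h1
  · push_cast
    have h1 : (⌊Real.log Z / ((1 - c / 4) * s)⌋₊ : ℝ) * ((1 - c) * s) ≤
        Real.log Z / ((1 - c / 4) * s) * ((1 - c) * s) :=
      mul_le_mul_of_nonneg_right hf (mul_nonneg (by linarith) hs.le)
    have h2 : Real.log Z / ((1 - c / 4) * s) * ((1 - c) * s) =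
        Real.log Z * ((1 - c) / (1 - c / 4)) := by
      have : (1 - c / 4) ≠ 0 := by linarith
      field_simp
    have h3 : (1 - c) / (1 - c / 4) ≤ 1 - 3 * c / 4 := by
      rw [div_le_iff₀ (by linarith)]
      nlinarith [sq_nonneg c]
    have h4 : Real.log Z * ((1 - c) / (1 - c / 4)) ≤ Real.log Z * (1 - 3 * c / 4) :=
      mul_le_mul_of_nonneg_left h3 hl
    nlinarith
  · push_cast
    have h1 : Real.log Z / ((1 - c / 4) * s) ≤ 2 * Real.log Z / s := by
      rw [div_le_div_iff₀ hx hs]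
      nlinarith [mul_nonneg hl hs.le]
    linarith

/-- exponents of the stages -/
noncomputable def mu (c : ℝ) (j : ℕ) : ℝ := max (3 - 5 * c / 8 * j) (1 - 5 * c / 8)

theorem mu_zero {c : ℝ} (hc : 0 < c) : mu c 0 = 3 := by
  unfold mu
  rw [max_eq_left]
  · simp
  · push_cast; linarith

theorem mu_le {c : ℝ} (hc : 0 < c) (j : ℕ) : mu c j ≤ 3 := by
  unfold mu
  refine max_le ?_ (by linarith)
  have : 0 ≤ 5 * c / 8 * (j : ℝ) := by positivity
  linarith

theorem mu_step {c : ℝ} (hc0 : 0 < c) (j : ℕ) :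
    (1 - 3 * c / 4) * max (mu c j) 1 + c / 8 ≤ mu c (j + 1) := by
  rcases le_total (mu c j) 1 with h | h
  · rw [max_eq_right h]
    refine le_trans ?_ (le_max_right _ _)
    linarith
  · rw [max_eq_left h]
    refine le_trans ?_ (le_max_left _ _)
    have h1 : mu c j = 3 - 5 * c / 8 * j := by
      unfold mu at h ⊢
      rcases le_max_iff.1 h with h2 | h2
      · exact max_eq_left (by linarith)
      · linarith
    push_cast
    nlinarith

theorem mu_end {c : ℝ} {n : ℕ} (hc0 : 0 < c) (hc1 : c < 1) (hn : 5 / c ≤ n) :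
    mu c n = 1 - 5 * c / 8 := by
  unfold mu
  apply max_eq_right
  rw [div_le_iff₀ hc0] at hn
  nlinarith

theorem num_step {c s t μ : ℝ} {n L m₀ ρ ρ' : ℕ} (hc0 : 0 < c) (hs : s = c / 80 * t)
    (ht : 0 < t) (hL : (L : ℝ) ≤ Real.exp s) (hm : (m₀ : ℝ) ≤ 2 * Real.exp t)
    (hρ : ρ ≤ 2 ^ (2 * n + 1) * m₀) (hρ' : m₀ ≤ ρ') (hX : 200 * 2 ^ (2 * n + 4) ≤ Real.exp s) :
    8 * (4 * L + 1) ^ 2 * (Real.exp (μ * t) / Real.exp (-(c / 16 * t))) * ρ ≤
      Real.exp ((max μ 1 + c / 16 + 3 * (c / 80)) * t) * ρ' ∧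
    (4 : ℝ) * ρ ≤ Real.exp ((max μ 1 + c / 16 + 3 * (c / 80)) * t) := by
  have hs0 : 0 < s := by rw [hs]; positivity
  have h1 : 1 ≤ Real.exp s := Real.one_le_exp hs0.le
  have hρr : (ρ : ℝ) ≤ 2 ^ (2 * n + 1) * m₀ := by exact_mod_cast hρ
  have hρ'r : (m₀ : ℝ) ≤ ρ' := by exact_mod_cast hρ'
  have hpow : (0 : ℝ) < 2 ^ (2 * n + 1) := by positivity
  constructor
  · have e1 : Real.exp (μ * t) / Real.exp (-(c / 16 * t)) = Real.exp ((μ + c / 16) * t) := by
      rw [← Real.exp_sub]; congr 1; ring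
    rw [e1]
    have h2 : (4 * (L : ℝ) + 1) ^ 2 ≤ (5 * Real.exp s) ^ 2 :=
      pow_le_pow_left₀ (by positivity) (by linarith) 2
    have h3 : 200 * 2 ^ (2 * n + 1) ≤ Real.exp s := by
      refine le_trans ?_ hX
      have : (2 : ℝ) ^ (2 * n + 1) ≤ 2 ^ (2 * n + 4) := pow_le_pow_right₀ (by norm_num) (by omega)
      linarith
    have h4 : (μ + c / 16) * t + 3 * s ≤ (max μ 1 + c / 16 + 3 * (c / 80)) * t := by
      rw [hs]
      nlinarith [le_max_left μ 1]
    calc 8 * (4 * (L : ℝ) + 1) ^ 2 * Real.exp ((μ + c / 16) * t) * ρ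
        ≤ 8 * (5 * Real.exp s) ^ 2 * Real.exp ((μ + c / 16) * t) * (2 ^ (2 * n + 1) * m₀) := by
          gcongr
      _ = (200 * 2 ^ (2 * n + 1)) * (Real.exp s ^ 2 * Real.exp ((μ + c / 16) * t)) * m₀ := by ring
      _ ≤ Real.exp s * (Real.exp s ^ 2 * Real.exp ((μ + c / 16) * t)) * ρ' := by
          gcongr
      _ = Real.exp ((μ + c / 16) * t + 3 * s) * ρ' := by
          rw [Real.exp_add, show (3 : ℝ) * s = s + s + s by ring, Real.exp_add, Real.exp_add]
          ring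
      _ ≤ _ := by
          apply mul_le_mul_of_nonneg_right _ (Nat.cast_nonneg _)
          exact Real.exp_le_exp.2 h4
  · have h4 : s + t ≤ (max μ 1 + c / 16 + 3 * (c / 80)) * t := by
      rw [hs]
      nlinarith [le_max_right μ 1]
    calc (4 : ℝ) * ρ ≤ 4 * (2 ^ (2 * n + 1) * (2 * Real.exp t)) := by gcongr; linarith [mul_le_mul_of_nonneg_left hm hpow.le]
      _ = 2 ^ (2 * n + 4) * Real.exp t := by ring
      _ ≤ Real.exp s * Real.exp t := by
          apply mul_le_mul_of_nonneg_right _ (Real.exp_pos _).le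
          refine le_trans ?_ hX
          have : (0 : ℝ) < 2 ^ (2 * n + 4) := by positivity
          linarith
      _ = Real.exp (s + t) := (Real.exp_add _ _).symm
      _ ≤ _ := Real.exp_le_exp.2 h4

theorem box_bound {t : ℝ} {n m₀ ρ : ℕ} (hm1 : 1 ≤ m₀) (hm : (m₀ : ℝ) ≤ 2 * Real.exp t)
    (hρ : ρ ≤ 2 ^ (2 * n + 1) * m₀) (hX : (4 : ℝ) ^ (2 * n + 4) ≤ Real.exp t) :
    ((box ρ).card : ℝ) ≤ Real.exp (3 * t) := by
  rw [card_box']
  have hρr : (ρ : ℝ) ≤ 2 ^ (2 * n + 1) * m₀ := by exact_mod_cast hρ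
  have hm1r : (1 : ℝ) ≤ m₀ := by exact_mod_cast hm1
  have h1 : (1 : ℝ) ≤ 2 ^ (2 * n + 2) := one_le_pow₀ (by norm_num)
  have h2 : 2 * (ρ : ℝ) + 1 ≤ 2 ^ (2 * n + 3) * m₀ := by
    have e : (2 : ℝ) ^ (2 * n + 3) * m₀ = 2 * (2 ^ (2 * n + 1) * m₀) + 2 ^ (2 * n + 2) * m₀ := by
      ring
    have h3 : (1 : ℝ) ≤ 2 ^ (2 * n + 2) * m₀ := one_le_mul_of_one_le_of_one_le h1 hm1r
    linarith
  have h4 : 2 * (ρ : ℝ) + 1 ≤ 2 ^ (2 * n + 4) * Real.exp t := by
    refine h2.trans ?_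
    calc (2 : ℝ) ^ (2 * n + 3) * m₀ ≤ 2 ^ (2 * n + 3) * (2 * Real.exp t) := by gcongr
      _ = _ := by ring
  push_cast
  calc (2 * (ρ : ℝ) + 1) ^ 2 ≤ (2 ^ (2 * n + 4) * Real.exp t) ^ 2 :=
        pow_le_pow_left₀ (by positivity) h4 2
    _ = 4 ^ (2 * n + 4) * Real.exp t ^ 2 := by
        rw [mul_pow, ← pow_mul, mul_comm (2 * n + 4) 2, pow_mul]; norm_num
    _ ≤ Real.exp t * Real.exp t ^ 2 := by gcongr
    _ = Real.exp (3 * t) := by
        rw [show (3 : ℝ) * t = t + t + t by ring, Real.exp_add, Real.exp_add]; ring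

theorem biUnion_singleton (o M : ℕ) :
    (Finset.univ.biUnion (fun i : Fin M => ({o * M + i} : Finset ℕ))) =
      Ico (o * M) ((o + 1) * M) := by
  ext a
  simp only [Finset.mem_biUnion, Finset.mem_univ, true_and, Finset.mem_singleton, Finset.mem_Ico]
  constructor
  · rintro ⟨i, rfl⟩
    have := i.2
    constructor
    · omega
    · rw [Nat.add_mul, one_mul]; omega
  · rintro ⟨h1, h2⟩
    rw [Nat.add_mul, one_mul] at h2
    exact ⟨⟨a - o * M, by omega⟩, by simp only; omega⟩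

theorem biUnion_Ico (o p M : ℕ) :
    (Finset.univ.biUnion (fun i : Fin p => Ico ((o * p + i) * M) ((o * p + i + 1) * M))) =
      Ico (o * (p * M)) ((o + 1) * (p * M)) := by
  rcases Nat.eq_zero_or_pos M with hM | hM
  · subst hM
    simp only [Nat.mul_zero, Finset.Ico_self]
    ext a; simp
  ext a
  simp only [Finset.mem_biUnion, Finset.mem_univ, true_and, Finset.mem_Ico]
  constructor
  · rintro ⟨i, h1, h2⟩
    constructor
    · refine le_trans ?_ h1
      rw [← mul_assoc]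
      exact Nat.mul_le_mul_right _ (by omega)
    · refine lt_of_lt_of_le h2 ?_
      rw [← mul_assoc]
      refine Nat.mul_le_mul_right _ ?_
      have := i.2
      rw [Nat.add_mul, one_mul]; omega
  · rintro ⟨h1, h2⟩
    rw [← mul_assoc, ← Nat.le_div_iff_mul_le hM] at h1
    rw [← mul_assoc, ← Nat.div_lt_iff_lt_mul hM, Nat.add_mul, one_mul] at h2
    refine ⟨⟨a / M - o * p, by omega⟩, ?_, ?_⟩
    · simp only
      rw [← Nat.le_div_iff_mul_le hM]; omega
    · simp only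
      rw [← Nat.div_lt_iff_lt_mul hM]; omega

theorem Ico_disj {M k l : ℕ} (h : k ≠ l) :
    Disjoint (Ico (k * M) ((k + 1) * M)) (Ico (l * M) ((l + 1) * M)) := by
  rcases Nat.eq_zero_or_pos M with hM | hM
  · subst hM; simp
  rw [Finset.disjoint_left]
  intro a ha hb
  rw [Finset.mem_Ico] at ha hb
  apply h
  rw [← Nat.le_div_iff_mul_le hM, ← Nat.div_lt_iff_lt_mul hM] at ha hb
  omega

/-- the induction on the stages -/
theorem stages (hLB : LBStmt) (hLA : LAStmt) (hST : StageStmt) {c s t : ℝ} {n p B0 B L m₀ N : ℕ}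
    {r : ℕ → ℤ} {P : ℕ → Finset ℕ} {w : ℕ → ℤ × ℤ} (hc0 : 0 < c) (hc1 : c < 1)
    (hs : s = c / 80 * t) (ht : 0 < t) (hp1 : 1 ≤ p) (hB0 : 2 * (640 / c + 2) ≤ (B0 : ℝ))
    (hP : Parts r P B (c / 4) s) (hE : ∀ a < B, (nres r (P a) w N : ℝ) ≤ Real.exp ((1 - c) * s))
    (hL : (L : ℝ) ≤ Real.exp s) (hm1 : 1 ≤ m₀) (hm : (m₀ : ℝ) ≤ 2 * Real.exp t)
    (hX : 200 * 2 ^ (2 * n + 4) ≤ Real.exp s) (hX4 : (4 : ℝ) ^ (2 * n + 4) ≤ Real.exp t)
    (hpt : (p : ℝ) ≤ Real.exp t) (h2t : 2 ≤ Real.exp t) :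
    ∀ j q, j + q = n → ∀ o, (o + 1) * (B0 * p ^ j) ≤ B →
      ∃ S : Sys, OK r P w N S (Ico (o * (B0 * p ^ j)) ((o + 1) * (B0 * p ^ j))) ∧
        S.Small L (2 ^ j * m₀) (2 ^ q * (2 ^ (n + 1) * m₀)) (Real.exp (mu c j * t))
          (Real.exp ((5 * j + 2 - c / 16 * p) * t)) := by
  have hs0 : 0 < s := by rw [hs]; positivity
  have hrad : ∀ q, q ≤ n → 2 ^ q * (2 ^ (n + 1) * m₀) ≤ 2 ^ (2 * n + 1) * m₀ := by
    intro q hq
    rw [← mul_assoc, ← pow_add]
    exact Nat.mul_le_mul_right _ (Nat.pow_le_pow_right (by norm_num) (by omega))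
  intro j
  induction j with
  | zero =>
    intro q hq o ho
    simp only [pow_zero, mul_one] at ho ⊢
    refine ⟨Sys.prod (fun i : Fin B0 => base r (P (o * B0 + i)) w N), ?_, ?_⟩
    · rw [← biUnion_singleton]
      refine prod_ok (fun i => base_ok r P w N _) ?_
      intro i j hij
      rw [Finset.disjoint_singleton]
      intro h
      exact hij (Fin.ext (by omega))
    · refine small_zero _ ?_ (Real.exp_pos _).le
      rw [mu_zero hc0]
      exact box_bound hm1 hm (hrad q (by omega)) hX4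
  | succ j ih =>
    intro q hq o ho
    have ih' := ih (q + 1) (by omega)
    have hM : B0 * p ^ (j + 1) = p * (B0 * p ^ j) := by ring
    rw [hM] at ho ⊢
    set M := B0 * p ^ j with hMdef
    have hex : ∀ i : Fin p, ∃ S : Sys, OK r P w N S (Ico ((o * p + i) * M) ((o * p + i + 1) * M)) ∧
        S.Small L (2 ^ j * m₀) (2 ^ (q + 1) * (2 ^ (n + 1) * m₀)) (Real.exp (mu c j * t))
          (Real.exp ((5 * j + 2 - c / 16 * p) * t)) := by
      intro i
      apply ih'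
      refine le_trans ?_ ho
      have := i.2
      calc (o * p + i + 1) * M ≤ (o * p + p) * M := Nat.mul_le_mul_right _ (by omega)
        _ = (o + 1) * (p * M) := by ring
    choose S hS1 hS2 using hex
    have hok : OK r P w N (Sys.prod S) (Ico (o * (p * M)) ((o + 1) * (p * M))) := by
      rw [← biUnion_Ico]
      refine prod_ok hS1 ?_
      intro i j hij
      apply Ico_disj
      intro h
      exact hij (Fin.ext (by omega))
    refine ⟨Sys.prod S, hok, ?_⟩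
    -- the bound for one system
    set Z := Real.exp ((max (mu c j) 1 + c / 16 + 3 * (c / 80)) * t) with hZ
    have hmax1 : 1 ≤ max (mu c j) 1 := le_max_right _ _
    have hmax3 : max (mu c j) 1 ≤ 3 := max_le (mu_le hc0 j) (by norm_num)
    have hZ1 : 1 ≤ Z := Real.one_le_exp (by positivity)
    have hlogZ : Real.log Z = (max (mu c j) 1 + c / 16 + 3 * (c / 80)) * t := Real.log_exp _
    obtain ⟨J, hJ1, hJ2, hJ3, hJ4⟩ := choose_J hc0 hc1 hs0 hZ1
    have hJB : 2 * J ≤ B0 := by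
      have h1 : 2 * Real.log Z / s ≤ 640 / c := by
        rw [hlogZ, hs, div_le_div_iff₀ (by positivity) hc0]
        have h2 : max (mu c j) 1 + c / 16 + 3 * (c / 80) ≤ 4 := by linarith
        nlinarith [mul_pos ht hc0]
      have h2 : (2 : ℝ) * J ≤ B0 := by linarith
      exact_mod_cast h2
    have hp0 : 1 ≤ p ^ j := Nat.one_le_pow _ _ (by omega)
    have hMB : B0 ≤ M := Nat.le_mul_of_pos_right _ (by omega)
    have hMp : M ≤ p * M := Nat.le_mul_of_pos_left _ (by omega)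
    have hnum := num_step (μ := mu c j) (n := n) (L := L) (m₀ := m₀)
      (ρ := 2 ^ q * (2 ^ (n + 1) * m₀)) (ρ' := 2 ^ (j + 1) * m₀) hc0 hs ht hL hm
      (hrad q (by omega)) (Nat.le_mul_of_pos_left _ (by positivity)) hX
    have hsub : ∀ a < 2 * J, o * (p * M) + a < (o + 1) * (p * M) := by
      intro a ha
      rw [Nat.add_mul, one_mul]; omega
    have hcap := cap_ok hLB hLA hok (o := o * (p * M)) (J := J) (B := B) hJ1
      (fun a ha => Finset.mem_Ico.2 ⟨by omega, hsub a ha⟩)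
      (fun a ha => lt_of_lt_of_le (hsub a ha) ho) hP
      (mul_nonneg (by linarith) hs0.le) hE (L := L) (ρ := 2 ^ q * (2 ^ (n + 1) * m₀))
      (ρ' := 2 ^ (j + 1) * m₀) (by positivity) hnum.1 hnum.2 hJ2
    have hcap' := cap_mono hcap (m' := Real.exp (mu c (j + 1) * t)) (by
      apply Real.exp_le_exp.2
      refine hJ3.trans ?_
      rw [hlogZ, hs]
      have h1 := mul_le_mul_of_nonneg_right (mu_step hc0 j) ht.le
      nlinarith [mul_pos ht hc0, mul_pos (mul_pos ht hc0) hc0])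
    refine stage_step hST S hp1 (ρ'' := 2 ^ j * m₀) (M := Real.exp (mu c j * t))
      (η := Real.exp ((5 * j + 2 - c / 16 * p) * t)) (Real.exp_pos (-(c / 16 * t)))
      (Real.exp_pos _).le (Real.exp_pos _).le ?_ ?_ hcap' ?_
    · rw [pow_succ]; exact le_of_eq (by ring)
    · intro i
      have e : 2 * (2 ^ q * (2 ^ (n + 1) * m₀)) = 2 ^ (q + 1) * (2 ^ (n + 1) * m₀) := by ring
      rw [e]
      exact hS2 i
    · have hb1 : ((box (2 ^ q * (2 ^ (n + 1) * m₀))).card : ℝ) ≤ Real.exp (3 * t) :=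
        box_bound hm1 hm (hrad q (by omega)) hX4
      have hb2 : ((box (2 * (2 ^ q * (2 ^ (n + 1) * m₀)))).card : ℝ) ≤ Real.exp (3 * t) := by
        have e : 2 * (2 ^ q * (2 ^ (n + 1) * m₀)) = 2 ^ (q + 1) * (2 ^ (n + 1) * m₀) := by ring
        rw [e]
        exact box_bound hm1 hm (hrad (q + 1) (by omega)) hX4
      have hτ : Real.exp (-(c / 16 * t)) ^ p = Real.exp (-(c / 16 * p) * t) := by
        rw [← Real.exp_nat_mul]; congr 1; ring
      rw [hτ]
      have e1 : Real.exp (3 * t) * Real.exp t * Real.exp ((5 * j + 2 - c / 16 * p) * t) =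
          Real.exp ((5 * j + 6 - c / 16 * p) * t) := by
        rw [← Real.exp_add, ← Real.exp_add]; congr 1; ring
      have e2 : Real.exp (3 * t) * Real.exp (3 * t) * Real.exp (-(c / 16 * p) * t) ≤
          Real.exp ((5 * j + 6 - c / 16 * p) * t) := by
        rw [← Real.exp_add, ← Real.exp_add]
        apply Real.exp_le_exp.2
        have : 0 ≤ (j : ℝ) * t := by positivity
        nlinarith
      calc _ ≤ Real.exp (3 * t) * Real.exp t * Real.exp ((5 * j + 2 - c / 16 * p) * t) +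
            Real.exp (3 * t) * Real.exp (3 * t) * Real.exp (-(c / 16 * p) * t) := by gcongr
        _ ≤ Real.exp ((5 * j + 6 - c / 16 * p) * t) + Real.exp ((5 * j + 6 - c / 16 * p) * t) := by
            rw [e1]; gcongr
        _ = 2 * Real.exp ((5 * j + 6 - c / 16 * p) * t) := by ring
        _ ≤ Real.exp t * Real.exp ((5 * j + 6 - c / 16 * p) * t) := by gcongr
        _ = Real.exp ((5 * (j + 1 : ℕ) + 2 - c / 16 * p) * t) := by
            rw [← Real.exp_add]; congr 1; push_cast; ring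

theorem card_image_le_of_factor {α β γ : Type*} [DecidableEq β] [DecidableEq γ] (s : Finset α)
    (f : α → β) (g : α → γ) (h : ∀ x ∈ s, ∀ y ∈ s, g x = g y → f x = f y) :
    (s.image f).card ≤ (s.image g).card := by
  classical
  rcases s.eq_empty_or_nonempty with h0 | ⟨x0, -⟩
  · rw [h0]; simp
  have : Nonempty α := ⟨x0⟩
  have hex : ∀ b ∈ s.image f, ∃ x ∈ s, f x = b := fun b hb => by simpa using hb
  choose! k hk1 hk2 using hex
  apply Finset.card_le_card_of_injOn (fun b => g (k b))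
  · intro b hb
    exact Finset.mem_image_of_mem _ (hk1 b hb)
  · intro b hb b' hb' heq
    have := h _ (hk1 b hb) _ (hk1 b' hb') heq
    rwa [hk2 b hb, hk2 b' hb'] at this

/-- every class of a long walk has a long component -/
theorem long_of_walk {r : ℕ → ℤ} {P : ℕ → Finset ℕ} {w : ℕ → ℤ × ℤ} {N : ℕ} {S : Sys}
    {T : Finset ℕ} (hok : OK r P w N S T) {L ρ ρ' m : ℕ} (hρ : ρ' + L ≤ ρ) (hm : 2 * ρ' ≤ m)
    (hst : ∀ i < N, w (i + 1) - w i ∈ box L)
    (hlong : ∃ i ≤ N, ∃ j ≤ N, w i - w j ∉ box m) {i : ℕ} (hi : i ≤ N) :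
    S.Long L ρ' ρ (S.φ (w i)) := by
  obtain ⟨i0, hi0, j0, hj0, hij⟩ := hlong
  have hweb : ∀ k ≤ N, w k - w i ∈ S.web (S.φ (w i)) := by
    intro k hk
    unfold Sys.web
    rw [Set.mem_ofPred_eq, ← map_add, add_sub_cancel]
    exact hok.mem k hk
  have hk : ∃ k ≤ N, w k - w i ∉ box ρ' := by
    by_contra hcon
    push Not at hcon
    apply hij
    have h1 := hcon i0 hi0
    have h2 := hcon j0 hj0
    have := box_sub (k := m) (by omega) h1 h2
    rwa [sub_sub_sub_cancel_right] at this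
  obtain ⟨k, hk, hkb⟩ := hk
  rcases le_total i k with h | h
  · refine exists_far hρ (fun j => w (i + j) - w i) (by simp) (k - i)
      (fun j hj => hweb _ (by omega)) (fun j hj => ?_) ?_
    · rw [sub_sub_sub_cancel_right]
      have h1 := hst (i + j) (by omega)
      exact h1
    · rw [Nat.add_sub_cancel' h]
      exact hkb
  · refine exists_far hρ (fun j => w (i - j) - w i) (by simp) (i - k)
      (fun j hj => hweb _ (by omega)) (fun j hj => ?_) ?_
    · rw [sub_sub_sub_cancel_right]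
      have h1 := hst (i - (j + 1)) (by omega)
      rw [show i - (j + 1) + 1 = i - j by omega] at h1
      exact box_symm h1
    · rw [Nat.sub_sub_self h]
      exact hkb

theorem long_card {S : Sys} {c s t : ℝ} {n L m₀ : ℕ} {x : S.G} (hc0 : 0 < c) (hc1 : c < 1)
    (hn : 5 / c ≤ n) (hs : s = c / 80 * t) (ht : 0 < t) (hLs : (L : ℝ) ≤ Real.exp s)
    (hm : Real.exp t ≤ m₀) (hx : S.Long L (2 ^ n * m₀) (2 ^ (n + 1) * m₀) x) :
    Real.exp (mu c n * t) < ((S.A L (2 ^ (n + 1) * m₀) x).card : ℝ) := by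
  have h1 := conn_card (comp_conn L (2 ^ (n + 1) * m₀) (S.web x)) hx
  change 2 ^ n * m₀ < L * (S.A L (2 ^ (n + 1) * m₀) x).card at h1
  generalize (S.A L (2 ^ (n + 1) * m₀) x).card = A at h1 ⊢
  have h2 : ((2 ^ n * m₀ : ℕ) : ℝ) < L * (A : ℝ) := by exact_mod_cast h1
  have h3 : Real.exp t ≤ ((2 ^ n * m₀ : ℕ) : ℝ) := by
    push_cast
    have : (1 : ℝ) ≤ 2 ^ n := one_le_pow₀ (by norm_num)
    nlinarith
  have h4 : Real.exp t < Real.exp s * (A : ℝ) :=
    lt_of_le_of_lt h3 (lt_of_lt_of_le h2 (mul_le_mul_of_nonneg_right hLs (Nat.cast_nonneg _)))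
  rw [mu_end hc0 hc1 hn]
  have h5 : Real.exp ((1 - 5 * c / 8) * t) * Real.exp s ≤ Real.exp t := by
    rw [← Real.exp_add]
    apply Real.exp_le_exp.2
    rw [hs]
    nlinarith [mul_pos hc0 ht]
  have h6 : Real.exp ((1 - 5 * c / 8) * t) * Real.exp s < (A : ℝ) * Real.exp s := by
    rw [mul_comm (A : ℝ)]
    exact lt_of_le_of_lt h5 h4
  exact lt_of_mul_lt_mul_right h6 (Real.exp_pos _).le

theorem nres_le_image {r : ℕ → ℤ} {P : ℕ → Finset ℕ} {w : ℕ → ℤ × ℤ} {N B : ℕ} {S : Sys}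
    [DecidableEq S.G] (hok : OK r P w N S (range B)) :
    nres r ((range B).biUnion P) w N ≤ ((range (N + 1)).image (fun i => S.φ (w i))).card := by
  classical
  unfold nres
  refine card_image_le_of_factor _ _ _ ?_
  intro i _ j _ hij
  have h1 := hok.det (w i) (w j) hij
  funext q
  rw [res_apply, res_apply]
  by_cases hq : q ∈ (range B).biUnion P
  · rw [if_pos hq, if_pos hq]
    obtain ⟨a, ha, haq⟩ := Finset.mem_biUnion.1 hq
    have h2 := congrFun (h1 a ha) q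
    rw [res_apply, res_apply, if_pos haq, if_pos haq] at h2
    exact h2
  · rw [if_neg hq, if_neg hq]

/-- the last step -/
theorem finish {S : Sys} {r : ℕ → ℤ} {P : ℕ → Finset ℕ} {w : ℕ → ℤ × ℤ} {N B n p L m₀ : ℕ}
    {c s t : ℝ} (hok : OK r P w N S (range B)) (hc0 : 0 < c) (hc1 : c < 1)
    (hn : 5 / c ≤ n) (hs : s = c / 80 * t) (ht : 0 < t) (hLs : (L : ℝ) ≤ Real.exp s)
    (hm : Real.exp t ≤ m₀) (hpr : 16 * (5 * n + 3) ≤ (p : ℝ) * c)
    (hlong : ∀ i ≤ N, S.Long L (2 ^ n * m₀) (2 ^ (n + 1) * m₀) (S.φ (w i)))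
    (hsm : S.Small L (2 ^ n * m₀) (2 ^ (n + 1) * m₀) (Real.exp (mu c n * t))
      (Real.exp ((5 * n + 2 - c / 16 * p) * t))) :
    (nres r ((range B).biUnion P) w N : ℝ) * Real.exp t ≤
      ∏ a ∈ range B, (nres r (P a) w N : ℝ) := by
  classical
  have hfac := nres_le_image hok
  have hcount : (((range (N + 1)).image (fun i => S.φ (w i))).card : ℝ) ≤
      Real.exp ((5 * n + 2 - c / 16 * p) * t) * S.E.card := by
    unfold Sys.Small at hsm
    refine le_trans ?_ hsm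
    have : (range (N + 1)).image (fun i => S.φ (w i)) ⊆ S.E.filter (fun x =>
        S.Long L (2 ^ n * m₀) (2 ^ (n + 1) * m₀) x ∧
        Real.exp (mu c n * t) < ((S.A L (2 ^ (n + 1) * m₀) x).card : ℝ)) := by
      intro x hx
      obtain ⟨i, hi, rfl⟩ := Finset.mem_image.1 hx
      rw [Finset.mem_range] at hi
      rw [Finset.mem_filter]
      have h2 := hlong i (by omega)
      exact ⟨hok.mem i (by omega), h2, long_card hc0 hc1 hn hs ht hLs hm h2⟩
    exact_mod_cast Finset.card_le_card this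
  have hfac' : (nres r ((range B).biUnion P) w N : ℝ) ≤
      Real.exp ((5 * n + 2 - c / 16 * p) * t) * S.E.card :=
    le_trans (by exact_mod_cast hfac) hcount
  rw [← hok.card]
  calc (nres r ((range B).biUnion P) w N : ℝ) * Real.exp t
      ≤ (Real.exp ((5 * n + 2 - c / 16 * p) * t) * S.E.card) * Real.exp t := by gcongr
    _ = Real.exp ((5 * n + 2 - c / 16 * p) * t + t) * S.E.card := by
        rw [Real.exp_add]; ring
    _ ≤ 1 * S.E.card := by
        apply mul_le_mul_of_nonneg_right _ (Nat.cast_nonneg _)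
        apply Real.exp_le_one_iff.2
        have h1 : (5 * n + 3 - c / 16 * p) ≤ 0 := by nlinarith
        nlinarith
    _ = S.E.card := one_mul _

/-- **Module SS.** -/
theorem ss (hLB : LBStmt) (hLA : LAStmt) (hST : StageStmt) : SStmt := by
  intro c hc0 hc1
  obtain ⟨n, hn⟩ := exists_nat_ge (5 / c)
  obtain ⟨p, hp⟩ := exists_nat_ge (16 * (5 * n + 3) / c)
  obtain ⟨B0, hB0⟩ := exists_nat_ge (2 * (640 / c + 2))
  have hpr : 16 * (5 * n + 3) ≤ (p : ℝ) * c := by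
    rwa [div_le_iff₀ hc0] at hp
  have hp1 : 1 ≤ p := by
    by_contra h
    have : p = 0 := by omega
    rw [this] at hpr
    push_cast at hpr
    have : (0 : ℝ) ≤ n := Nat.cast_nonneg _
    linarith
  have hB01 : 1 ≤ B0 := by
    by_contra h
    have h1 : B0 = 0 := by omega
    rw [h1] at hB0
    push_cast at hB0
    have : 0 < 640 / c := by positivity
    linarith
  obtain ⟨X, hX⟩ : ∃ X : ℝ, X = 200 * 4 ^ (2 * n + 4) + p := ⟨_, rfl⟩
  have h4pow : (1 : ℝ) ≤ 4 ^ (2 * n + 4) := one_le_pow₀ (by norm_num)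
  have h24 : (2 : ℝ) ^ (2 * n + 4) ≤ 4 ^ (2 * n + 4) :=
    pow_le_pow_left₀ (by norm_num) (by norm_num) _
  have hp0 : (0 : ℝ) ≤ p := Nat.cast_nonneg _
  have hX200 : 200 ≤ X := by rw [hX]; linarith
  have hXa : 200 * (2 : ℝ) ^ (2 * n + 4) ≤ X := by rw [hX]; linarith
  have hXb : (4 : ℝ) ^ (2 * n + 4) ≤ X := by rw [hX]; linarith
  have hXc : (p : ℝ) ≤ X := by rw [hX]; linarith
  have hXd : 4 * (2 : ℝ) ^ n ≤ X := by
    have h1 : (2 : ℝ) ^ n ≤ 2 ^ (2 * n + 4) := pow_le_pow_right₀ (by norm_num) (by omega)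
    have h2 : (0 : ℝ) < 2 ^ n := by positivity
    linarith
  clear h4pow h24 hX
  refine ⟨B0 * p ^ n, c / 80, Real.log X, ?_, by positivity, by linarith, ?_⟩
  · exact Nat.one_le_iff_ne_zero.2 (by positivity)
  intro s hs0 r P hP L N w hL hst hE hlong
  have hXs : X ≤ Real.exp s := by
    rw [← Real.log_le_iff_le_exp (by linarith)]
    exact hs0
  obtain ⟨t, ht⟩ : ∃ t : ℝ, t = s / (c / 80) := ⟨_, rfl⟩
  have hst' : s = c / 80 * t := by rw [ht]; field_simp
  have hspos : 0 < s := lt_of_lt_of_le (Real.log_pos (by linarith)) hs0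
  have htpos : 0 < t := by rw [ht]; positivity
  have hst2 : s ≤ t := by rw [hst']; nlinarith
  have hXt : X ≤ Real.exp t := hXs.trans (Real.exp_le_exp.2 hst2)
  have hLs : (L : ℝ) ≤ Real.exp s := by
    rcases Nat.eq_zero_or_pos L with h | h
    · rw [h]; push_cast; exact (Real.exp_pos _).le
    · rw [← Real.log_le_iff_le_exp (by exact_mod_cast h)]
      exact hL
  obtain ⟨m₀, hm1, hmge, hmle⟩ : ∃ m₀ : ℕ, 1 ≤ m₀ ∧ Real.exp t ≤ m₀ ∧
      (m₀ : ℝ) ≤ 2 * Real.exp t := by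
    refine ⟨⌈Real.exp t⌉₊, Nat.one_le_ceil_iff.2 (Real.exp_pos _), Nat.le_ceil _, ?_⟩
    have h1t : 1 ≤ Real.exp t := Real.one_le_exp htpos.le
    have := Nat.ceil_lt_add_one (Real.exp_pos t).le
    linarith
  obtain ⟨S, hok, hsm⟩ := stages hLB hLA hST (n := n) (p := p) (B0 := B0) (B := B0 * p ^ n)
    (L := L) (m₀ := m₀) (N := N) (r := r) (P := P) (w := w) hc0 hc1 hst' htpos hp1 hB0 hP hE hLs
    hm1 hmle (hXa.trans hXs) (hXb.trans hXt) (hXc.trans hXt) (by linarith) n 0 (by omega) 0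
    (by rw [zero_add, one_mul])
  rw [zero_mul, zero_add, one_mul, ← Finset.range_eq_Ico] at hok
  rw [pow_zero, one_mul] at hsm
  have hmL : L ≤ 2 ^ n * m₀ := by
    have h1 : (L : ℝ) ≤ m₀ := hLs.trans ((Real.exp_le_exp.2 hst2).trans hmge)
    have h2 : L ≤ m₀ := by exact_mod_cast h1
    exact h2.trans (Nat.le_mul_of_pos_left _ (by positivity))
  obtain ⟨i0, hi0, j0, hj0, m, hm, hij⟩ := hlong
  have hm2 : 2 * (2 ^ n * m₀) ≤ m := by
    have e : 2 * s / (c / 80) = t + t := by rw [ht]; ring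
    rw [e, Real.exp_add] at hm
    have h3 : (2 : ℝ) * (2 ^ n * m₀) ≤ m := by
      calc (2 : ℝ) * (2 ^ n * m₀) ≤ 2 * (2 ^ n * (2 * Real.exp t)) := by gcongr
        _ = (4 * 2 ^ n) * Real.exp t := by ring
        _ ≤ Real.exp t * Real.exp t := by
            apply mul_le_mul_of_nonneg_right (hXd.trans hXt) (Real.exp_pos _).le
        _ ≤ m := hm
    exact_mod_cast h3
  rw [← ht]
  refine finish hok hc0 hc1 hn hst' htpos hLs hmge hpr ?_ hsm
  intro i hi
  refine long_of_walk hok ?_ hm2 hst ⟨i0, hi0, j0, hj0, hij⟩ hi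
  have e : 2 ^ (n + 1) * m₀ = 2 ^ n * m₀ + 2 ^ n * m₀ := by ring
  rw [e]
  exact Nat.add_le_add_left hmL _

end Vale.Agent.P015.M
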