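import Vale.Agent.P015.M.Defs

/-! # Module ST: the stage lemma -/

namespace Vale.Agent.P015.M

open Finset hiding box
open Vale.Agent.P006.CLS Vale.Agent.P015.H222
open scoped Pointwise

namespace Stg

theorem sub_mem_box {m n : ℕ} {u v : ℤ × ℤ} (hu : u ∈ box m) (hv : v ∈ box n) :
    u - v ∈ box (m + n) := by
  rw [mem_box] at *
  simp only [Prod.fst_sub, Prod.snd_sub]
  push_cast
  omega

theorem zero_mem_box (n : ℕ) : (0 : ℤ × ℤ) ∈ box n := by
  rw [mem_box]
  simp

theorem box_mono {m n : ℕ} (h : m ≤ n) {v : ℤ × ℤ} (hv : v ∈ box m) : v ∈ box n := by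
  rw [mem_box] at *
  have : (m : ℤ) ≤ n := by exact_mod_cast h
  omega

theorem mem_comp {L ρ : ℕ} {S : Set (ℤ × ℤ)} {v : ℤ × ℤ} :
    v ∈ comp L ρ S ↔ v ∈ box ρ ∧ Reach L (S ∩ (box ρ : Finset (ℤ × ℤ))) v := by
  simp only [comp, Finset.mem_filter]

/-- paths from `0` can be reversed when `0 ∈ S` -/
theorem reach_rev {L : ℕ} {S : Set (ℤ × ℤ)} (h0 : (0 : ℤ × ℤ) ∈ S) {v : ℤ × ℤ}
    (h : Reach L S v) :
    v ∈ S ∧ Relation.ReflTransGen (fun x y => y ∈ S ∧ y - x ∈ box L) v 0 := by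
  unfold Reach at h
  induction h with
  | refl => exact ⟨h0, Relation.ReflTransGen.refl⟩
  | tail _ hbc ih => exact ⟨hbc.1, Relation.ReflTransGen.head ⟨ih.1, box_symm hbc.2⟩ ih.2⟩

/-- the component seen from one of its points -/
theorem comp_shift {L ρ : ℕ} {S S' : Set (ℤ × ℤ)} (h0 : (0 : ℤ × ℤ) ∈ S) {u w : ℤ × ℤ}
    (hS : ∀ b ∈ S, b - u ∈ S') (hu : u ∈ comp L ρ S) (hw : w ∈ comp L ρ S) :
    w - u ∈ comp L (2 * ρ) S' := by
  rw [mem_comp] at *
  have h0' : (0 : ℤ × ℤ) ∈ S ∩ (box ρ : Finset (ℤ × ℤ)) := ⟨h0, zero_mem_box ρ⟩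
  have h1 := (reach_rev h0' hu.2).2.trans hw.2
  refine ⟨?_, ?_⟩
  · have := sub_mem_box hw.1 hu.1
    rwa [← two_mul] at this
  · have h2 : Relation.ReflTransGen
        (fun x y => y ∈ S' ∩ (box (2 * ρ) : Finset (ℤ × ℤ)) ∧ y - x ∈ box L) (u - u) (w - u) := by
      refine Relation.ReflTransGen.lift (fun v => v - u) ?_ _ _ h1
      intro a b hab
      refine ⟨⟨hS b hab.1.1, ?_⟩, ?_⟩
      · have := sub_mem_box (Finset.mem_coe.mp hab.1.2) hu.1
        rw [← two_mul] at this
        exact Finset.mem_coe.mpr this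
      · have e : (b - u) - (a - u) = b - a := by abel
        rw [e]
        exact hab.2
    rw [sub_self] at h2
    exact h2

variable {n : ℕ} (S : Fin n → Sys)

theorem mem_E {L ρ : ℕ} {x : (Sys.prod S).G} (hx : x ∈ (Sys.prod S).E) {u : ℤ × ℤ}
    (hu : u ∈ (Sys.prod S).A L ρ x) : x + (Sys.prod S).φ u ∈ (Sys.prod S).E := by
  have h0 : (0 : ℤ × ℤ) ∈ (Sys.prod S).web x ∩ (box ρ : Finset (ℤ × ℤ)) := by
    refine ⟨?_, zero_mem_box ρ⟩
    show x + (Sys.prod S).φ 0 ∈ (Sys.prod S).E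
    rw [map_zero, add_zero]
    exact hx
  exact (reach_rev h0 (mem_comp.mp hu).2).1.1

theorem mem_E_apply {x : (Sys.prod S).G} (hx : x ∈ (Sys.prod S).E) (i : Fin n) :
    x i ∈ (S i).E := Fintype.mem_piFinset.mp hx i

theorem mem_A {L ρ : ℕ} {x : (Sys.prod S).G} (hx : x ∈ (Sys.prod S).E) {u w : ℤ × ℤ}
    (hu : u ∈ (Sys.prod S).A L ρ x) (hw : w ∈ (Sys.prod S).A L ρ x) (i : Fin n) :
    w - u ∈ (S i).A L (2 * ρ) ((x + (Sys.prod S).φ u) i) := by
  refine comp_shift (S := (Sys.prod S).web x) ?_ ?_ hu hw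
  · show x + (Sys.prod S).φ 0 ∈ (Sys.prod S).E
    rw [map_zero, add_zero]
    exact hx
  · intro b hb
    show (x + (Sys.prod S).φ u) i + (S i).φ (b - u) ∈ (S i).E
    have h1 : (x + (Sys.prod S).φ b) i ∈ (S i).E := mem_E_apply S hb i
    have h2 : (x + (Sys.prod S).φ u) i + (S i).φ (b - u) = (x + (Sys.prod S).φ b) i := by
      show (x i + (S i).φ u) + (S i).φ (b - u) = x i + (S i).φ b
      rw [map_sub]
      abel
    rw [h2]
    exact h1

theorem zero_mem_A {L ρ : ℕ} (S : Sys) (x : S.G) : (0 : ℤ × ℤ) ∈ S.A L ρ x :=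
  mem_comp.mpr ⟨zero_mem_box ρ, Relation.ReflTransGen.refl⟩

theorem long_coord {L ρ ρ' ρ'' : ℕ} (hρ : 2 * ρ'' ≤ ρ') {x : (Sys.prod S).G}
    (hx : x ∈ (Sys.prod S).E) (hl : (Sys.prod S).Long L ρ' ρ x) {u : ℤ × ℤ}
    (hu : u ∈ (Sys.prod S).A L ρ x) (i : Fin n) :
    (S i).Long L ρ'' (2 * ρ) ((x + (Sys.prod S).φ u) i) := by
  obtain ⟨w, hw, hwn⟩ := hl
  by_contra hcon
  have h1 : ∀ v ∈ (S i).A L (2 * ρ) ((x + (Sys.prod S).φ u) i), v ∈ box ρ'' := by
    intro v hv
    by_contra h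
    exact hcon ⟨v, hv, h⟩
  have h2 := h1 _ (mem_A S hx hu hw i)
  have h3 := h1 _ (mem_A S hx hu (zero_mem_A (Sys.prod S) x) i)
  have h4 := sub_mem_box h2 h3
  have e : (w - u) - (0 - u) = w := by abel
  rw [e, ← two_mul] at h4
  exact hwn (box_mono hρ h4)

/-- AM-GM -/
theorem amgm {n : ℕ} (hn : 1 ≤ n) (h : Fin n → ℝ) (h0 : ∀ i, 0 ≤ h i) {τ : ℝ}
    (hτ : ∑ i, h i ≤ n * τ) : ∏ i, h i ≤ τ ^ n := by
  have hn0 : (0 : ℝ) < n := by exact_mod_cast hn
  have hn' : n ≠ 0 := by omega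
  have h1 := Real.geom_mean_le_arith_mean_weighted (Finset.univ : Finset (Fin n))
    (fun _ => (1 : ℝ) / n) h (fun _ _ => by positivity)
    (by rw [Finset.sum_const, Finset.card_univ, Fintype.card_fin, nsmul_eq_mul]; field_simp)
    (fun i _ => h0 i)
  have h2 : ∑ i, (1 : ℝ) / n * h i ≤ τ := by
    rw [← Finset.mul_sum, div_mul_eq_mul_div, one_mul, div_le_iff₀ hn0]
    linarith
  have h3 : ∏ i, h i = (∏ i, h i ^ ((1 : ℝ) / n)) ^ n := by
    rw [← Finset.prod_pow]
    refine Finset.prod_congr rfl (fun i _ => ?_)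
    rw [← Real.rpow_natCast, ← Real.rpow_mul (h0 i), one_div, inv_mul_cancel₀ hn0.ne',
      Real.rpow_one]
  rw [h3]
  refine pow_le_pow_left₀ ?_ (h1.trans h2) n
  exact Finset.prod_nonneg (fun i _ => Real.rpow_nonneg (h0 i) _)

/-- translations are injective -/
theorem card_shift {G : Type*} [AddCommGroup G] [DecidableEq G] (E F : Finset G) (d : G)
    (p : G → Prop) [DecidablePred p] (h : ∀ x ∈ E, p x → x + d ∈ F) :
    (E.filter p).card ≤ F.card := by
  refine Finset.card_le_card_of_injOn (fun x => x + d) ?_ ?_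
  · intro x hx
    rw [Finset.mem_coe, Finset.mem_filter] at hx
    exact h x hx.1 hx.2
  · intro x _ y _ hxy
    exact add_right_cancel hxy

end Stg

open Stg

theorem stage : StageStmt := by
  classical
  intro n S L ρ ρ' ρ'' M η τ hτ hM hη hρ hn hsm
  -- exceptional and good classes
  set exc : ∀ i, Finset (S i).G := fun i => (S i).E.filter
    (fun x => (S i).Long L ρ'' (2 * ρ) x ∧ M < (((S i).A L (2 * ρ) x).card : ℝ)) with hexc
  set good : ∀ i, (ℤ × ℤ) → Finset (S i).G := fun i v => (S i).E.filter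
    (fun x => (((S i).A L (2 * ρ) x).card : ℝ) ≤ M ∧ v ∈ (S i).A L (2 * ρ) x) with hgood
  have hexcc : ∀ i, ((exc i).card : ℝ) ≤ η * (S i).E.card := fun i => hsm i
  set h : Fin n → (ℤ × ℤ) → ℝ := fun i v => ((good i v).card : ℝ) / (S i).E.card with hh
  have h0 : ∀ i v, 0 ≤ h i v := fun i v => by positivity
  have hgh : ∀ i v, ((good i v).card : ℝ) = h i v * (S i).E.card := by
    intro i v
    rcases Nat.eq_zero_or_pos (S i).E.card with he | he
    · have h1 : (good i v).card = 0 := by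
        have := Finset.card_le_card (Finset.filter_subset
          (fun x => (((S i).A L (2 * ρ) x).card : ℝ) ≤ M ∧ v ∈ (S i).A L (2 * ρ) x) (S i).E)
        rw [he] at this
        exact Nat.le_zero.mp this
      rw [h1, he]
      simp
    · have he' : ((S i).E.card : ℝ) ≠ 0 := by exact_mod_cast he.ne'
      rw [hh]
      field_simp
  have hsum : ∀ i, ∑ v ∈ box (2 * ρ), h i v ≤ M := by
    intro i
    have h1 : ∑ v ∈ box (2 * ρ), ((good i v).card : ℝ) ≤ M * (S i).E.card := by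
      have h2 : ∀ v, ((good i v).card : ℝ) = ∑ x ∈ (S i).E,
          (if (((S i).A L (2 * ρ) x).card : ℝ) ≤ M ∧ v ∈ (S i).A L (2 * ρ) x then (1 : ℝ)
            else 0) := by
        intro v
        rw [Finset.sum_boole]
      rw [Finset.sum_congr rfl (fun v _ => h2 v), Finset.sum_comm,
        mul_comm M, ← nsmul_eq_mul, ← Finset.sum_const]
      refine Finset.sum_le_sum (fun x _ => ?_)
      rw [Finset.sum_boole]
      by_cases hx : (((S i).A L (2 * ρ) x).card : ℝ) ≤ M
      · refine le_trans ?_ hx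
        have : (box (2 * ρ)).filter (fun v => (((S i).A L (2 * ρ) x).card : ℝ) ≤ M ∧
            v ∈ (S i).A L (2 * ρ) x) ⊆ (S i).A L (2 * ρ) x := by
          intro v hv
          exact (Finset.mem_filter.mp hv).2.2
        exact_mod_cast Finset.card_le_card this
      · have : (box (2 * ρ)).filter (fun v => (((S i).A L (2 * ρ) x).card : ℝ) ≤ M ∧
            v ∈ (S i).A L (2 * ρ) x) = ∅ := by
          refine Finset.filter_eq_empty_iff.mpr ?_
          intro v _ hv
          exact hx hv.1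
        rw [this]
        simpa using hM
    rcases Nat.eq_zero_or_pos (S i).E.card with he | he
    · have h2 : ∀ v ∈ box (2 * ρ), h i v = 0 := by
        intro v _
        rw [hh]
        simp [he]
      rw [Finset.sum_eq_zero h2]
      exact hM
    · have he' : (0 : ℝ) < ((S i).E.card : ℝ) := by exact_mod_cast he
      rw [hh]
      rw [← Finset.sum_div, div_le_iff₀ he']
      exact h1
  -- popular vectors
  set Sp : Finset (ℤ × ℤ) := (box (2 * ρ)).filter (fun v => n * τ ≤ ∑ i, h i v) with hSp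
  have hn0 : (0 : ℝ) < n := by exact_mod_cast hn
  have hSpc : (Sp.card : ℝ) ≤ M / τ := by
    rw [le_div_iff₀ hτ]
    have h1 : (Sp.card : ℝ) * (n * τ) ≤ n * M := by
      calc (Sp.card : ℝ) * (n * τ) = ∑ _v ∈ Sp, (n * τ) := by
            rw [Finset.sum_const, nsmul_eq_mul]
        _ ≤ ∑ v ∈ Sp, ∑ i, h i v := Finset.sum_le_sum (fun v hv => (Finset.mem_filter.mp hv).2)
        _ ≤ ∑ v ∈ box (2 * ρ), ∑ i, h i v :=
            Finset.sum_le_sum_of_subset_of_nonneg (Finset.filter_subset _ _)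
              (fun v _ _ => Finset.sum_nonneg (fun i _ => h0 i v))
        _ = ∑ i, ∑ v ∈ box (2 * ρ), h i v := Finset.sum_comm
        _ ≤ ∑ _i : Fin n, M := Finset.sum_le_sum (fun i _ => hsum i)
        _ = n * M := by rw [Finset.sum_const, Finset.card_univ, Fintype.card_fin, nsmul_eq_mul]
    have h2 : (n : ℝ) * ((Sp.card : ℝ) * τ) ≤ n * M := by
      calc (n : ℝ) * ((Sp.card : ℝ) * τ) = (Sp.card : ℝ) * (n * τ) := by ring
        _ ≤ _ := h1
    exact le_of_mul_le_mul_left h2 hn0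
  -- the discarded sets
  have hprodcard : ∀ F : ∀ i, Finset (S i).G, ((Fintype.piFinset F).card : ℝ) =
      ∏ i, ((F i).card : ℝ) := by
    intro F
    rw [Fintype.card_piFinset]
    push_cast
    rfl
  have hEcard : (((Sys.prod S).E).card : ℝ) = ∏ i, ((S i).E.card : ℝ) := hprodcard _
  have hB1 : ∀ (u : ℤ × ℤ) (i : Fin n),
      (((Sys.prod S).E.filter (fun x => x + (Sys.prod S).φ u ∈ (Sys.prod S).E ∧
        (x + (Sys.prod S).φ u) i ∈ exc i)).card : ℝ) ≤ η * (Sys.prod S).E.card := by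
    intro u i
    set F : ∀ j, Finset (S j).G := fun j => if j = i then exc j else (S j).E with hF
    have h1 : ((Sys.prod S).E.filter (fun x => x + (Sys.prod S).φ u ∈ (Sys.prod S).E ∧
        (x + (Sys.prod S).φ u) i ∈ exc i)).card ≤ (Fintype.piFinset F).card := by
      refine card_shift (G := (Sys.prod S).G) _ _ ((Sys.prod S).φ u) _ ?_
      intro x _ hx2
      refine Fintype.mem_piFinset.mpr (fun j => ?_)
      rw [hF]
      by_cases hji : j = i
      · subst hji
        simp only [if_true]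
        exact hx2.2
      · simp only [if_neg hji]
        exact mem_E_apply S hx2.1 j
    have h2 : ((Fintype.piFinset F).card : ℝ) ≤ η * (Sys.prod S).E.card := by
      rw [hprodcard, hEcard, ← Finset.mul_prod_erase Finset.univ _ (Finset.mem_univ i),
        ← Finset.mul_prod_erase Finset.univ (fun j => ((S j).E.card : ℝ)) (Finset.mem_univ i),
        ← mul_assoc]
      have h3 : ∏ j ∈ Finset.univ.erase i, ((F j).card : ℝ) =
          ∏ j ∈ Finset.univ.erase i, ((S j).E.card : ℝ) := by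
        refine Finset.prod_congr rfl (fun j hj => ?_)
        rw [hF]
        simp only [if_neg (Finset.ne_of_mem_erase hj)]
      rw [h3]
      refine mul_le_mul_of_nonneg_right ?_ (Finset.prod_nonneg (fun j _ => Nat.cast_nonneg _))
      have h4 : F i = exc i := by rw [hF]; simp
      rw [h4]
      exact hexcc i
    exact le_trans (by exact_mod_cast h1) h2
  have hB2 : ∀ (u v : ℤ × ℤ), v ∈ box (2 * ρ) → v ∉ Sp →
      (((Sys.prod S).E.filter (fun x => x + (Sys.prod S).φ u ∈ (Sys.prod S).E ∧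
        ∀ i, (x + (Sys.prod S).φ u) i ∈ good i v)).card : ℝ) ≤ τ ^ n * (Sys.prod S).E.card := by
    intro u v hv hvS
    have h1 : ((Sys.prod S).E.filter (fun x => x + (Sys.prod S).φ u ∈ (Sys.prod S).E ∧
        ∀ i, (x + (Sys.prod S).φ u) i ∈ good i v)).card ≤
        (Fintype.piFinset (fun i => good i v)).card := by
      refine card_shift (G := (Sys.prod S).G) _ _ ((Sys.prod S).φ u) _ ?_
      intro x _ hx2
      exact Fintype.mem_piFinset.mpr hx2.2
    have h2 : ((Fintype.piFinset (fun i => good i v)).card : ℝ) ≤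
        τ ^ n * (Sys.prod S).E.card := by
      rw [hprodcard, hEcard, Finset.prod_congr rfl (fun i _ => hgh i v),
        Finset.prod_mul_distrib]
      refine mul_le_mul_of_nonneg_right ?_ (Finset.prod_nonneg (fun j _ => Nat.cast_nonneg _))
      refine amgm hn _ (fun i => h0 i v) ?_
      have h3 : ¬ (n * τ ≤ ∑ i, h i v) := fun h4 => hvS (Finset.mem_filter.mpr ⟨hv, h4⟩)
      exact (not_le.mp h3).le
    exact le_trans (by exact_mod_cast h1) h2
  -- the covering
  set D1 : (ℤ × ℤ) × Fin n → Finset (Sys.prod S).G := fun y =>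
    (Sys.prod S).E.filter (fun x => x + (Sys.prod S).φ y.1 ∈ (Sys.prod S).E ∧
        (x + (Sys.prod S).φ y.1) y.2 ∈ exc y.2) with hD1
  set D2 : (ℤ × ℤ) × (ℤ × ℤ) → Finset (Sys.prod S).G := fun y =>
    (Sys.prod S).E.filter (fun x => x + (Sys.prod S).φ y.1 ∈ (Sys.prod S).E ∧
        ∀ i, (x + (Sys.prod S).φ y.1) i ∈ good i y.2) with hD2
  have hcov : (Sys.prod S).E.filter (fun x => (Sys.prod S).Long L ρ' ρ x ∧
      M / τ < (((Sys.prod S).A L ρ x - (Sys.prod S).A L ρ x).card : ℝ)) ⊆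
      (box ρ ×ˢ (Finset.univ : Finset (Fin n))).biUnion D1 ∪
        (box ρ ×ˢ (box (2 * ρ) \ Sp)).biUnion D2 := by
    intro x hx
    obtain ⟨hxE, hxl, hxc⟩ := Finset.mem_filter.mp hx
    by_contra hcon
    rw [Finset.mem_union, not_or] at hcon
    obtain ⟨hc1, hc2⟩ := hcon
    refine absurd hxc (not_lt.mpr ?_)
    refine le_trans ?_ hSpc
    have hsub : (Sys.prod S).A L ρ x - (Sys.prod S).A L ρ x ⊆ Sp := by
      intro v hv
      obtain ⟨w, hw, u, hu, rfl⟩ := Finset.mem_sub.mp hv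
      by_contra hvS
      apply hc2
      have hub : u ∈ box ρ := (mem_comp.mp hu).1
      have hwb : w ∈ box ρ := (mem_comp.mp hw).1
      have hvb : w - u ∈ box (2 * ρ) := by
        have := sub_mem_box hwb hub
        rwa [← two_mul] at this
      refine Finset.mem_biUnion.mpr ⟨(u, w - u), ?_, ?_⟩
      · exact Finset.mem_product.mpr ⟨hub, Finset.mem_sdiff.mpr ⟨hvb, hvS⟩⟩
      · refine Finset.mem_filter.mpr ⟨hxE, mem_E S hxE hu, fun i => ?_⟩
        refine Finset.mem_filter.mpr ⟨mem_E_apply S (mem_E S hxE hu) i, ?_, mem_A S hxE hu hw i⟩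
        by_contra hbig
        apply hc1
        refine Finset.mem_biUnion.mpr ⟨(u, i), Finset.mem_product.mpr ⟨hub, Finset.mem_univ _⟩, ?_⟩
        refine Finset.mem_filter.mpr ⟨hxE, mem_E S hxE hu, ?_⟩
        exact Finset.mem_filter.mpr ⟨mem_E_apply S (mem_E S hxE hu) i,
          long_coord S hρ hxE hxl hu i, not_le.mp hbig⟩
    exact_mod_cast Finset.card_le_card hsub
  have hcount : (((Sys.prod S).E.filter (fun x => (Sys.prod S).Long L ρ' ρ x ∧
      M / τ < (((Sys.prod S).A L ρ x - (Sys.prod S).A L ρ x).card : ℝ))).card : ℝ) ≤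
      ∑ y ∈ box ρ ×ˢ (Finset.univ : Finset (Fin n)), ((D1 y).card : ℝ) +
        ∑ y ∈ box ρ ×ˢ (box (2 * ρ) \ Sp), ((D2 y).card : ℝ) := by
    have h1 := (Finset.card_le_card hcov).trans (Finset.card_union_le _ _)
    have h2 := h1.trans (add_le_add Finset.card_biUnion_le Finset.card_biUnion_le)
    exact_mod_cast h2
  refine hcount.trans ?_
  have hs1 : ∑ y ∈ box ρ ×ˢ (Finset.univ : Finset (Fin n)), ((D1 y).card : ℝ) ≤
      ((box ρ).card : ℝ) * n * (η * (Sys.prod S).E.card) := by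
    calc _ ≤ ∑ _y ∈ box ρ ×ˢ (Finset.univ : Finset (Fin n)), (η * (Sys.prod S).E.card) :=
          Finset.sum_le_sum (fun y _ => hB1 y.1 y.2)
      _ = _ := by
          rw [Finset.sum_const, nsmul_eq_mul, Finset.card_product, Finset.card_univ,
            Fintype.card_fin]
          push_cast
          ring
  have hs2 : ∑ y ∈ box ρ ×ˢ (box (2 * ρ) \ Sp), ((D2 y).card : ℝ) ≤
      ((box ρ).card : ℝ) * (box (2 * ρ)).card * (τ ^ n * (Sys.prod S).E.card) := by
    calc _ ≤ ∑ _y ∈ box ρ ×ˢ (box (2 * ρ) \ Sp), (τ ^ n * (Sys.prod S).E.card) := by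
          refine Finset.sum_le_sum (fun y hy => ?_)
          obtain ⟨_, hy2⟩ := Finset.mem_product.mp hy
          obtain ⟨hy3, hy4⟩ := Finset.mem_sdiff.mp hy2
          exact hB2 y.1 y.2 hy3 hy4
      _ = ((box ρ).card : ℝ) * (box (2 * ρ) \ Sp).card * (τ ^ n * (Sys.prod S).E.card) := by
          rw [Finset.sum_const, nsmul_eq_mul, Finset.card_product]
          push_cast
          ring
      _ ≤ _ := by
          have h3 : ((box (2 * ρ) \ Sp).card : ℝ) ≤ (box (2 * ρ)).card := by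
            exact_mod_cast Finset.card_le_card Finset.sdiff_subset
          have h4 : 0 ≤ τ ^ n * ((Sys.prod S).E.card : ℝ) :=
            mul_nonneg (pow_nonneg hτ.le n) (Nat.cast_nonneg _)
          exact mul_le_mul_of_nonneg_right
            (mul_le_mul_of_nonneg_left h3 (Nat.cast_nonneg _)) h4
  refine (add_le_add hs1 hs2).trans (le_of_eq ?_)
  ring

end Vale.Agent.P015.M
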