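import Vale.Agent.P015.M.Defs

/-! # P015, module T1: iteration of (S) over super-parts -/

namespace Vale.Agent.P015.M

open Finset hiding box
open Vale.Agent.P006.CLS Vale.Agent.P015.H222
open scoped Pointwise

namespace T1

theorem biUnion_mul (P : ℕ → Finset ℕ) (m n : ℕ) :
    (range (m * n)).biUnion P =
      (range m).biUnion (fun a => (range n).biUnion (fun b => P (a * n + b))) := by
  ext x
  simp only [Finset.mem_biUnion, Finset.mem_range]
  constructor
  · rintro ⟨a, ha, hx⟩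
    have hn : 0 < n := by
      rcases Nat.eq_zero_or_pos n with h | h
      · subst h; omega
      · exact h
    refine ⟨a / n, ?_, a % n, Nat.mod_lt _ hn, ?_⟩
    · rw [Nat.div_lt_iff_lt_mul hn]; exact ha
    · rw [Nat.div_add_mod' a n]; exact hx
  · rintro ⟨a, ha, b, hb, hx⟩
    refine ⟨a * n + b, ?_, hx⟩
    calc a * n + b < a * n + n := by omega
      _ = (a + 1) * n := by ring
      _ ≤ m * n := Nat.mul_le_mul_right _ ha

theorem nres_pos (r : ℕ → ℤ) (P : Finset ℕ) (w : ℕ → ℤ × ℤ) (n : ℕ) : 1 ≤ nres r P w n := by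
  classical
  unfold nres
  exact Finset.card_pos.2 ((Finset.nonempty_range_iff.2 (by omega)).image _)

theorem idx_lt {m n a b : ℕ} (ha : a < m) (hb : b < n) : a * n + b < m * n := by
  calc a * n + b < a * n + n := by omega
    _ = (a + 1) * n := by ring
    _ ≤ m * n := Nat.mul_le_mul_right _ ha

theorem idx_inj {n a b a' b' : ℕ} (hb : b < n) (hb' : b' < n) (h : a * n + b = a' * n + b') :
    a = a' ∧ b = b' := by
  have hn : 0 < n := by omega
  have h1 : (a * n + b) / n = a := by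
    rw [Nat.add_comm, Nat.add_mul_div_right _ _ hn, Nat.div_eq_of_lt hb, Nat.zero_add]
  have h2 : (a' * n + b') / n = a' := by
    rw [Nat.add_comm, Nat.add_mul_div_right _ _ hn, Nat.div_eq_of_lt hb', Nat.zero_add]
  have h3 : a = a' := by rw [← h1, ← h2, h]
  subst h3
  exact ⟨rfl, by omega⟩

theorem qq_biUnion (P : ℕ → Finset ℕ) (n : ℕ)
    (h : ∀ a < n, ∀ b < n, a ≠ b → Disjoint (P a) (P b)) :
    qq ((range n).biUnion P) = ∏ a ∈ range n, qq (P a) := by
  unfold qq
  rw [Finset.prod_biUnion]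
  intro a ha b hb hab
  rw [Finset.mem_coe, Finset.mem_range] at ha hb
  exact h a ha b hb hab

theorem qq_pos {r : ℕ → ℤ} {P : Finset ℕ} (h : Rts r P) : 0 < qq P :=
  Finset.prod_pos fun p hp => (h p hp).1.pos

theorem log_qq (r : ℕ → ℤ) (P : ℕ → Finset ℕ) (n : ℕ) (hr : ∀ a < n, Rts r (P a))
    (h : ∀ a < n, ∀ b < n, a ≠ b → Disjoint (P a) (P b)) :
    Real.log (qq ((range n).biUnion P)) = ∑ a ∈ range n, Real.log (qq (P a)) := by
  rw [qq_biUnion P n h, Nat.cast_prod, Real.log_prod]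
  intro a ha
  have := qq_pos (hr a (Finset.mem_range.1 ha))
  positivity

/-- groups of `n` consecutive parts are parts for `n s` -/
theorem parts_group {r : ℕ → ℤ} {P : ℕ → Finset ℕ} {m n : ℕ} {e s : ℝ}
    (h : Parts r P (m * n) e s) :
    Parts r (fun a => (range n).biUnion (fun b => P (a * n + b))) m e (n * s) := by
  have hd : ∀ a < m, ∀ b < n, ∀ b' < n, b ≠ b' → Disjoint (P (a * n + b)) (P (a * n + b')) := by
    intro a ha b hb b' hb' hne
    exact h.disj _ (idx_lt ha hb) _ (idx_lt ha hb') (by omega)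
  refine ⟨?_, ?_, ?_, ?_⟩
  · intro a ha p hp
    rw [Finset.mem_biUnion] at hp
    obtain ⟨b, hb, hp⟩ := hp
    exact h.rts _ (idx_lt ha (Finset.mem_range.1 hb)) p hp
  · intro a ha a' ha' hne
    rw [Finset.disjoint_biUnion_left]
    intro b hb
    rw [Finset.disjoint_biUnion_right]
    intro b' hb'
    rw [Finset.mem_range] at hb hb'
    refine h.disj _ (idx_lt ha hb) _ (idx_lt ha' hb') (fun heq => hne (idx_inj hb hb' heq).1)
  · intro a ha
    rw [log_qq r _ n (fun b hb => h.rts _ (idx_lt ha hb)) (fun b hb b' hb' hne =>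
      hd a ha b hb b' hb' hne)]
    calc (1 - e) * (n * s) = ∑ b ∈ range n, (1 - e) * s := by
          rw [Finset.sum_const, Finset.card_range, nsmul_eq_mul]; ring
      _ ≤ _ := Finset.sum_le_sum fun b hb => h.low _ (idx_lt ha (Finset.mem_range.1 hb))
  · intro a ha
    rw [log_qq r _ n (fun b hb => h.rts _ (idx_lt ha hb)) (fun b hb b' hb' hne =>
      hd a ha b hb b' hb' hne)]
    calc ∑ b ∈ range n, Real.log (qq (P (a * n + b))) ≤ ∑ b ∈ range n, s :=
          Finset.sum_le_sum fun b hb => h.up _ (idx_lt ha (Finset.mem_range.1 hb))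
      _ = _ := by rw [Finset.sum_const, Finset.card_range, nsmul_eq_mul]

theorem parts_sub {r : ℕ → ℤ} {P : ℕ → Finset ℕ} {m n : ℕ} {e s : ℝ}
    (h : Parts r P (m * n) e s) {a : ℕ} (ha : a < m) :
    Parts r (fun b => P (a * n + b)) n e s := by
  refine ⟨fun b hb => h.rts _ (idx_lt ha hb), fun b hb b' hb' hne =>
    h.disj _ (idx_lt ha hb) _ (idx_lt ha hb') (by omega), fun b hb => h.low _ (idx_lt ha hb),
    fun b hb => h.up _ (idx_lt ha hb)⟩

/-- the iteration -/
theorem iter {c : ℝ} {B : ℕ} {ε s₀ : ℝ} (hB : 1 ≤ B) (hε : 0 < ε)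
    (hS : ∀ s : ℝ, s₀ ≤ s → ∀ (r : ℕ → ℤ) (P : ℕ → Finset ℕ), Parts r P B (c / 4) s →
      ∀ (L n : ℕ) (w : ℕ → ℤ × ℤ), Real.log L ≤ s → (∀ i < n, w (i + 1) - w i ∈ box L) →
      (∀ a < B, (nres r (P a) w n : ℝ) ≤ Real.exp ((1 - c) * s)) →
      (∃ i ≤ n, ∃ j ≤ n, ∃ m : ℕ, Real.exp (2 * s / ε) ≤ m ∧ w i - w j ∉ box m) →
      (nres r ((range B).biUnion P) w n : ℝ) * Real.exp (s / ε) ≤
        ∏ a ∈ range B, (nres r (P a) w n : ℝ))
    {s : ℝ} (hs : s₀ ≤ s) (hs0 : 0 ≤ s) (r : ℕ → ℤ) (L n : ℕ) (w : ℕ → ℤ × ℤ)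
    (hL : Real.log L ≤ s) (hw : ∀ i < n, w (i + 1) - w i ∈ box L) (k : ℕ) :
    ∀ P : ℕ → Finset ℕ, Parts r P (B ^ k) (c / 4) s →
      (∀ a < B ^ k, (nres r (P a) w n : ℝ) ≤ Real.exp ((1 - c) * s)) →
      (∃ i ≤ n, ∃ j ≤ n, ∃ m : ℕ, Real.exp (2 * (B ^ k * s) / ε) ≤ m ∧ w i - w j ∉ box m) →
      (nres r ((range (B ^ k)).biUnion P) w n : ℝ) ≤
        Real.exp ((1 - c - k / (ε * B)) * (B ^ k * s)) := by
  have hB1 : (1 : ℝ) ≤ B := by exact_mod_cast hB
  have hB0 : (0 : ℝ) < B := by linarith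
  induction k with
  | zero =>
    intro P hP hn _
    have e1 : (range (B ^ 0)).biUnion P = P 0 := by
      rw [pow_zero, Finset.range_one, Finset.singleton_biUnion]
    rw [e1]
    refine (hn 0 (by simp)).trans_eq ?_
    congr 1
    simp
  | succ k ih =>
    intro P hP hn hfar
    have hBk : (1 : ℝ) ≤ (B : ℝ) ^ k := one_le_pow₀ hB1
    have hP' : Parts r P (B * B ^ k) (c / 4) s := by rwa [pow_succ, mul_comm] at hP
    have hfark : ∃ i ≤ n, ∃ j ≤ n, ∃ m : ℕ, Real.exp (2 * (B ^ k * s) / ε) ≤ m ∧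
        w i - w j ∉ box m := by
      obtain ⟨i, hi, j, hj, m, hm, hmem⟩ := hfar
      refine ⟨i, hi, j, hj, m, le_trans ?_ hm, hmem⟩
      apply Real.exp_le_exp.2
      apply div_le_div_of_nonneg_right _ hε.le
      have : (B : ℝ) ^ k * s ≤ (B : ℝ) ^ (k + 1) * s :=
        mul_le_mul_of_nonneg_right (pow_le_pow_right₀ hB1 (by omega)) hs0
      linarith
    have hgrp : ∀ a < B, (nres r ((range (B ^ k)).biUnion (fun b => P (a * B ^ k + b))) w n : ℝ) ≤
        Real.exp ((1 - c - k / (ε * B)) * (B ^ k * s)) := by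
      intro a ha
      refine ih _ (parts_sub hP' ha) (fun b hb => hn _ ?_) hfark
      have := idx_lt ha hb
      rwa [pow_succ, mul_comm (B ^ k) B]
    have hss : s ≤ (B : ℝ) ^ k * s := by nlinarith
    have hkey := hS (B ^ k * s) (hs.trans hss) r
      (fun a => (range (B ^ k)).biUnion (fun b => P (a * B ^ k + b))) (by
        have := parts_group hP'
        simpa using this) L n w (hL.trans hss) hw (by
        intro a ha
        refine (hgrp a ha).trans (Real.exp_le_exp.2 ?_)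
        apply mul_le_mul_of_nonneg_right _ (by positivity)
        have : (0 : ℝ) ≤ k / (ε * B) := by positivity
        linarith) hfark
    rw [← biUnion_mul P B (B ^ k)] at hkey
    have e1 : B * B ^ k = B ^ (k + 1) := by ring
    rw [e1] at hkey
    have hprod : ∏ a ∈ range B,
        (nres r ((range (B ^ k)).biUnion (fun b => P (a * B ^ k + b))) w n : ℝ) ≤
        Real.exp (B * ((1 - c - k / (ε * B)) * (B ^ k * s))) := by
      calc ∏ a ∈ range B, (nres r ((range (B ^ k)).biUnion (fun b => P (a * B ^ k + b))) w n : ℝ)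
          ≤ ∏ a ∈ range B, Real.exp ((1 - c - k / (ε * B)) * (B ^ k * s)) :=
            Finset.prod_le_prod (fun a _ => Nat.cast_nonneg _)
              (fun a ha => hgrp a (Finset.mem_range.1 ha))
        _ = _ := by
            rw [Finset.prod_const, Finset.card_range, ← Real.exp_nat_mul]
    have h1 := hkey.trans hprod
    rw [← le_div_iff₀ (Real.exp_pos _), ← Real.exp_sub] at h1
    refine h1.trans_eq ?_
    congr 1
    push_cast
    field_simp
    ring

end T1

/-- **Module T1** -/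
theorem t1 : SStmt → T1Stmt := by
  intro hS c hc0 hc1
  obtain ⟨B, ε, s₀, hB, hε, hε1, hmain⟩ := hS c hc0 hc1
  have hB1 : (1 : ℝ) ≤ B := by exact_mod_cast hB
  obtain ⟨κ, hκ⟩ := exists_nat_gt (ε * B)
  have hBκ : (1 : ℝ) ≤ (B : ℝ) ^ κ := one_le_pow₀ hB1
  refine ⟨B ^ κ, 2 * B ^ κ / ε, max s₀ 1, Nat.one_le_pow _ _ hB, ?_, ?_⟩
  · rw [le_div_iff₀ hε]; linarith
  intro s hs r P hP L n w hL hw hn i hi j hj m hm
  by_contra hcon
  have hs1 : 1 ≤ s := (le_max_right _ _).trans hs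
  have hit := T1.iter hB hε hmain ((le_max_left _ _).trans hs) (by linarith) r L n w hL hw κ P hP hn
    ⟨i, hi, j, hj, m, by
      refine le_trans (le_of_eq ?_) hm
      congr 1
      ring, hcon⟩
  have h1 : (1 : ℝ) ≤ nres r ((range (B ^ κ)).biUnion P) w n := by
    exact_mod_cast T1.nres_pos _ _ _ _
  have h2 : (1 - c - κ / (ε * B)) * (B ^ κ * s) < 0 := by
    apply mul_neg_of_neg_of_pos _ (by positivity)
    have : 1 < κ / (ε * B) := by
      rw [lt_div_iff₀ (by positivity)]; linarith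
    linarith
  have h3 := Real.exp_lt_one_iff.2 h2
  linarith

end Vale.Agent.P015.M
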