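import Vale.Agent.P015.M.Defs

/-!
# P015, module T2: the tree

If the root of the tree of a walk is poor, the walk is covered by thin sets of times, and by the
no-path hypothesis it has small diameter.
-/

namespace Vale.Agent.P015.M

open Finset hiding box
open Vale.Agent.P006.CLS Vale.Agent.P015.H222
open scoped Pointwise

namespace T2

/-! ## boxes -/

theorem box_add {a b : ℕ} {u v : ℤ × ℤ} (hu : u ∈ box a) (hv : v ∈ box b) :
    u + v ∈ box (a + b) := by
  simp only [box, mem_product, mem_Icc, Prod.fst_add, Prod.snd_add, Nat.cast_add] at *
  omega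

theorem box_neg {a : ℕ} {u : ℤ × ℤ} (hu : u ∈ box a) : -u ∈ box a := by
  simp only [box, mem_product, mem_Icc, Prod.fst_neg, Prod.snd_neg] at *
  omega

theorem box_sub_comm {a : ℕ} {u v : ℤ × ℤ} (hu : u - v ∈ box a) : v - u ∈ box a := by
  have := box_neg hu
  rwa [neg_sub] at this

theorem box_mono {a b : ℕ} (h : a ≤ b) {u : ℤ × ℤ} (hu : u ∈ box a) : u ∈ box b := by
  simp only [box, mem_product, mem_Icc] at *
  omega

theorem box_trans {a b : ℕ} {u v w : ℤ × ℤ} (hu : u - v ∈ box a) (hv : v - w ∈ box b) :
    u - w ∈ box (a + b) := by
  have := box_add hu hv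
  rwa [sub_add_sub_cancel] at this

theorem box_zero {a : ℕ} : (0 : ℤ × ℤ) ∈ box a := by
  simp [box]

/-! ## the elements of a finite set in increasing order -/

theorem exists_enum (F : Finset ℕ) (hF : F.Nonempty) : ∃ (m : ℕ) (τ : ℕ → ℕ),
    (∀ j ≤ m, τ j ∈ F) ∧ (∀ x ∈ F, ∃ j ≤ m, τ j = x) ∧ (∀ j < m, τ j < τ (j + 1)) ∧
    (∀ j < m, ∀ x ∈ F, ¬ (τ j < x ∧ x < τ (j + 1))) := by
  classical
  induction F using Finset.induction_on_max with
  | empty => exact absurd hF (by simp)
  | insert a s ha ih =>
    by_cases hs : s.Nonempty
    · obtain ⟨m, τ, h1, h2, h3, h4⟩ := ih hs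
      refine ⟨m + 1, fun j => if j ≤ m then τ j else a, ?_, ?_, ?_, ?_⟩
      · intro j _
        by_cases hj : j ≤ m
        · simp only [hj, if_true]; exact mem_insert_of_mem (h1 j hj)
        · simp only [hj, if_false]; exact mem_insert_self _ _
      · intro x hx
        rcases mem_insert.1 hx with rfl | hx
        · exact ⟨m + 1, le_rfl, by simp⟩
        · obtain ⟨j, hj, rfl⟩ := h2 x hx
          exact ⟨j, by omega, by simp [hj]⟩
      · intro j hj
        by_cases hj' : j + 1 ≤ m
        · have : j ≤ m := by omega
          simp only [this, hj', if_true]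
          exact h3 j (by omega)
        · have e : j = m := by omega
          subst e
          simp only [le_refl, if_true, hj', if_false]
          exact ha _ (h1 _ le_rfl)
      · intro j hj x hx hlt
        by_cases hj' : j + 1 ≤ m
        · have hjm : j ≤ m := by omega
          simp only [hjm, hj', if_true] at hlt
          rcases mem_insert.1 hx with rfl | hx
          · have := ha _ (h1 (j + 1) hj')
            omega
          · exact h4 j (by omega) x hx hlt
        · have e : j = m := by omega
          subst e
          simp only [le_refl, if_true, hj', if_false] at hlt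
          rcases mem_insert.1 hx with rfl | hx
          · omega
          · obtain ⟨k, hk, rfl⟩ := h2 x hx
            -- `τ` is increasing
            have hmono : ∀ d k, k + d ≤ j → τ k ≤ τ (k + d) := by
              intro d
              induction d with
              | zero => intro k _; exact le_rfl
              | succ d ihd =>
                intro k hk
                have := ihd k (by omega)
                have h5 := h3 (k + d) (by omega)
                have e2 : k + (d + 1) = k + d + 1 := by ring
                rw [e2]
                omega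
            have := hmono (j - k) k (by omega)
            rw [show k + (j - k) = j by omega] at this
            omega
    · rw [not_nonempty_iff_eq_empty] at hs
      subst hs
      refine ⟨0, fun _ => a, ?_, ?_, ?_, ?_⟩
      · intro j _; simp
      · intro x hx
        refine ⟨0, le_rfl, ?_⟩
        simp only [insert_empty_eq, mem_singleton] at hx
        exact hx.symm
      · intro j hj; omega
      · intro j hj; omega

/-! ## nodes -/

section

variable {R : Type} (B n M : ℕ) (key : ℕ → ℕ → ℕ → R) (thr : ℕ → ℝ)

open Classical in
/-- the nodes of level `i` -/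
noncomputable def Nodes : ℕ → Finset (Finset ℕ)
  | 0 => {range (M + 1)}
  | i + 1 => (Nodes i).biUnion (fun v => (range B).biUnion (fun a =>
      (v.image (key i a)).image (fun y => v.filter (fun t => key i a t = y))))

/-- rich nodes of level `i` -/
def RI (i : ℕ) (v : Finset ℕ) : Prop := Rich B key thr (n - i) i v

open Classical in
theorem RI_iff {i : ℕ} (hi : i < n) (v : Finset ℕ) : RI B n key thr i v ↔
    ∃ a < B, thr i ≤ (((v.image (key i a)).filter (fun y =>
      RI B n key thr (i + 1) (v.filter (fun t => key i a t = y)))).card : ℝ) := by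
  unfold RI
  obtain ⟨k, hk⟩ : ∃ k, n - i = k + 1 := ⟨n - i - 1, by omega⟩
  have hk' : n - (i + 1) = k := by omega
  rw [hk, hk']
  rw [Rich]

theorem RI_top (v : Finset ℕ) : RI B n key thr n v ↔ v.Nonempty := by
  unfold RI
  rw [Nat.sub_self, Rich]

theorem Nodes_sub : ∀ (i : ℕ) (v : Finset ℕ), v ∈ Nodes B M key i → v ⊆ range (M + 1)
  | 0, v, hv => by
    rw [Nodes, mem_singleton] at hv
    rw [hv]
  | i + 1, v, hv => by
    classical
    rw [Nodes] at hv
    simp only [mem_biUnion, mem_image] at hv
    obtain ⟨w, hw, a, _, y, _, rfl⟩ := hv
    exact (filter_subset _ _).trans (Nodes_sub i w hw)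

open Classical in
/-- the times where a poor node has only rich children -/
def W (i t : ℕ) : Prop := ∃ v ∈ Nodes B M key i, t ∈ v ∧ ¬ RI B n key thr i v ∧
  ∀ a < B, RI B n key thr (i + 1) (v.filter (fun t' => key i a t' = key i a t))

theorem cover (h : ¬ RI B n key thr 0 (range (M + 1))) {t : ℕ} (ht : t ≤ M) :
    ∃ i < n, W B n M key thr i t := by
  classical
  by_contra hcon
  push Not at hcon
  have key2 : ∀ i ≤ n, ∃ v ∈ Nodes B M key i, t ∈ v ∧ ¬ RI B n key thr i v := by
    intro i
    induction i with
    | zero =>
      intro _
      exact ⟨range (M + 1), by rw [Nodes, mem_singleton], by rw [mem_range]; omega, h⟩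
    | succ i ih =>
      intro hi
      obtain ⟨v, hv, htv, hp⟩ := ih (by omega)
      have h1 := hcon i (by omega)
      unfold W at h1
      push Not at h1
      obtain ⟨a, ha, hpa⟩ := h1 v hv htv hp
      refine ⟨v.filter (fun t' => key i a t' = key i a t), ?_, ?_, hpa⟩
      · rw [Nodes]
        simp only [mem_biUnion, mem_image, mem_range]
        exact ⟨v, hv, a, ha, key i a t, ⟨t, htv, rfl⟩, rfl⟩
      · rw [mem_filter]
        exact ⟨htv, rfl⟩
  obtain ⟨v, _, htv, hp⟩ := key2 n le_rfl
  exact hp ((RI_top B n key thr v).2 ⟨t, htv⟩)

variable {B n M key thr}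

theorem card_Nodes {K : ℕ → ℝ}
    (hK : ∀ i < n, ∀ a < B, (Set.ncard (key i a '' {t | t ≤ M}) : ℝ) ≤ K i) :
    ∀ i ≤ n, ((Nodes B M key i).card : ℝ) ≤ ∏ j ∈ range i, (B * K j) := by
  classical
  intro i
  induction i with
  | zero =>
    intro _
    rw [Nodes, card_singleton]
    simp
  | succ i ih =>
    intro hi
    have h1 := ih (by omega)
    by_cases hB : B = 0
    · subst hB
      rw [Nodes]
      simp only [range_zero, biUnion_empty]
      rw [Finset.prod_range_succ]
      simp only [Nat.cast_zero, zero_mul, mul_zero]
      rw [show ((Nodes 0 M key i).biUnion fun v => (∅ : Finset (Finset ℕ))) = ∅ by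
        ext x; simp]
      simp
    have hK0 : 0 ≤ K i := le_trans (Nat.cast_nonneg _) (hK i (by omega) 0 (by omega))
    rw [Nodes, Finset.prod_range_succ]
    refine le_trans (b := ((Nodes B M key i).card : ℝ) * (B * K i)) ?_
      (mul_le_mul_of_nonneg_right h1 (by positivity))
    have h2 : ∀ v ∈ Nodes B M key i, ((((range B).biUnion (fun a =>
        (v.image (key i a)).image (fun y => v.filter (fun t => key i a t = y)))).card : ℕ) : ℝ)
          ≤ B * K i := by
      intro v hv
      have h3 : (((range B).biUnion (fun a =>
        (v.image (key i a)).image (fun y => v.filter (fun t => key i a t = y)))).card)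
          ≤ ∑ a ∈ range B, (v.image (key i a)).card :=
        card_biUnion_le.trans (sum_le_sum fun a _ => card_image_le)
      have h4 : ∀ a ∈ range B, ((v.image (key i a)).card : ℝ) ≤ K i := by
        intro a ha
        refine le_trans ?_ (hK i (by omega) a (mem_range.1 ha))
        have hfin : (key i a '' {t | t ≤ M}).Finite := (Set.finite_le_nat M).image _
        have hle : Set.ncard ((v.image (key i a) : Finset R) : Set R) ≤
            (key i a '' {t | t ≤ M}).ncard := by
          refine Set.ncard_le_ncard ?_ hfin
          intro y hy
          rw [mem_coe, mem_image] at hy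
          obtain ⟨t, ht, rfl⟩ := hy
          have h6 := mem_range.1 (Nodes_sub B M key i v hv ht)
          exact ⟨t, Nat.lt_succ_iff.1 h6, rfl⟩
        rw [Set.ncard_coe_finset] at hle
        exact_mod_cast hle
      calc ((((range B).biUnion (fun a =>
        (v.image (key i a)).image (fun y => v.filter (fun t => key i a t = y)))).card : ℕ) : ℝ)
          ≤ ((∑ a ∈ range B, (v.image (key i a)).card : ℕ) : ℝ) := by exact_mod_cast h3
        _ = ∑ a ∈ range B, ((v.image (key i a)).card : ℝ) := by push_cast; rfl
        _ ≤ ∑ a ∈ range B, K i := sum_le_sum h4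
        _ = B * K i := by rw [sum_const, card_range, nsmul_eq_mul]
    have h5 := card_biUnion_le (s := Nodes B M key i) (t := fun v => (range B).biUnion (fun a =>
        (v.image (key i a)).image (fun y => v.filter (fun t => key i a t = y))))
    calc ((((Nodes B M key i).biUnion fun v => (range B).biUnion (fun a =>
        (v.image (key i a)).image (fun y => v.filter (fun t => key i a t = y)))).card : ℕ) : ℝ)
        ≤ ((∑ v ∈ Nodes B M key i, ((range B).biUnion (fun a =>
        (v.image (key i a)).image (fun y => v.filter (fun t => key i a t = y)))).card : ℕ) : ℝ) := by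
          exact_mod_cast h5
      _ = ∑ v ∈ Nodes B M key i, ((((range B).biUnion (fun a =>
        (v.image (key i a)).image (fun y => v.filter (fun t => key i a t = y)))).card : ℕ) : ℝ) := by
          push_cast; rfl
      _ ≤ ∑ v ∈ Nodes B M key i, B * K i := sum_le_sum h2
      _ = ((Nodes B M key i).card : ℝ) * (B * K i) := by rw [sum_const, nsmul_eq_mul]

open Classical in
theorem thin {K θ : ℕ → ℝ} (hthr : ∀ i < n, 0 ≤ thr i)
    (hK : ∀ i < n, ∀ a < B, (Set.ncard (key i a '' {t | t ≤ M}) : ℝ) ≤ K i)
    (hθ : ∀ i < n, (∏ j ∈ range i, (B * K j)) * thr i ≤ θ i) {i : ℕ} (hi : i < n) {a : ℕ}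
    (ha : a < B) :
    ((((range (M + 1)).filter (W B n M key thr i)).image (key i a)).card : ℝ) ≤ θ i := by
  refine le_trans ?_ (hθ i hi)
  refine le_trans ?_ (mul_le_mul_of_nonneg_right (card_Nodes hK i hi.le) (hthr i hi))
  have hsub : ((range (M + 1)).filter (W B n M key thr i)).image (key i a) ⊆
      ((Nodes B M key i).filter (fun v => ¬ RI B n key thr i v)).biUnion (fun v =>
        (v.image (key i a)).filter (fun y =>
          RI B n key thr (i + 1) (v.filter (fun t => key i a t = y)))) := by
    intro y hy
    rw [mem_image] at hy
    obtain ⟨t, ht, rfl⟩ := hy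
    rw [mem_filter] at ht
    obtain ⟨v, hv, htv, hp, hr⟩ := ht.2
    rw [mem_biUnion]
    refine ⟨v, mem_filter.2 ⟨hv, hp⟩, ?_⟩
    rw [mem_filter]
    exact ⟨mem_image_of_mem _ htv, hr a ha⟩
  have h1 : ∀ v ∈ (Nodes B M key i).filter (fun v => ¬ RI B n key thr i v),
      (((v.image (key i a)).filter (fun y =>
          RI B n key thr (i + 1) (v.filter (fun t => key i a t = y)))).card : ℝ) ≤ thr i := by
    intro v hv
    by_contra hcon
    push Not at hcon
    exact (mem_filter.1 hv).2 ((RI_iff B n key thr hi v).2 ⟨a, ha, hcon.le⟩)
  calc ((((range (M + 1)).filter (W B n M key thr i)).image (key i a)).card : ℝ)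
      ≤ ((((Nodes B M key i).filter (fun v => ¬ RI B n key thr i v)).biUnion (fun v =>
        (v.image (key i a)).filter (fun y =>
          RI B n key thr (i + 1) (v.filter (fun t => key i a t = y)))) ).card : ℝ) := by
        exact_mod_cast card_le_card hsub
    _ ≤ ((∑ v ∈ (Nodes B M key i).filter (fun v => ¬ RI B n key thr i v),
          ((v.image (key i a)).filter (fun y =>
          RI B n key thr (i + 1) (v.filter (fun t => key i a t = y)))).card : ℕ) : ℝ) := by
        exact_mod_cast card_biUnion_le
    _ = ∑ v ∈ (Nodes B M key i).filter (fun v => ¬ RI B n key thr i v),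
          (((v.image (key i a)).filter (fun y =>
          RI B n key thr (i + 1) (v.filter (fun t => key i a t = y)))).card : ℝ) := by
        push_cast; rfl
    _ ≤ ∑ v ∈ (Nodes B M key i).filter (fun v => ¬ RI B n key thr i v), thr i := sum_le_sum h1
    _ = (((Nodes B M key i).filter (fun v => ¬ RI B n key thr i v)).card : ℝ) * thr i := by
        rw [sum_const, nsmul_eq_mul]
    _ ≤ ((Nodes B M key i).card : ℝ) * thr i := by
        refine mul_le_mul_of_nonneg_right ?_ (hthr i hi)
        exact_mod_cast card_filter_le _ _

end

/-- a walk moves little in one gap -/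
theorem step_le {M D : ℕ} {g : ℕ → ℤ × ℤ} (hg : ∀ t < M, g (t + 1) - g t ∈ box D) {t : ℕ}
    (ht : t < M) : g t - g (t + 1) ∈ box D := box_sub_comm (hg t ht)

end T2

open T2 in
/-- **T2** -/
theorem t2 : T2Stmt := by
  classical
  intro R B n M D key thr θ K g Ls ρs hB hn hthr hg hK hθ hchain hL0 hL hρ hfar
  by_contra hpoor
  have hpoor' : ¬ RI B n key thr 0 (range (M + 1)) := by
    unfold RI; rwa [Nat.sub_zero]
  -- an interval covered by `W 0, …, W i` has small diameter
  have main : ∀ i < n, ∀ s e : ℕ, e ≤ M → (∀ t, s ≤ t → t ≤ e → ∃ j ≤ i, W B n M key thr j t) →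
      ∀ t t', s ≤ t → t ≤ e → s ≤ t' → t' ≤ e → g t - g t' ∈ box (2 * ρs i + 2 * D) := by
    intro i
    induction i with
    | zero =>
      intro hi s e he hW t t' h1 h2 h3 h4
      have hW0 : ∀ t, s ≤ t → t ≤ e → W B n M key thr 0 t := by
        intro t h1 h2
        obtain ⟨j, hj, hw⟩ := hW t h1 h2
        have : j = 0 := by omega
        rwa [this] at hw
      -- the chain `s, s + 1, …, e`
      have hc := hchain 0 hi (e - s) (fun j => s + j) (by intro j hj; omega)
        (by intro j hj; omega)
        (by
          intro j hj
          refine box_mono hL0 ?_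
          have := hg (s + j) (by omega)
          simpa [add_assoc] using this)
        (by
          intro a ha
          refine le_trans ?_ (thin (M := M) (thr := thr) hthr hK hθ hi ha)
          rw [← Set.ncard_coe_finset]
          have : ((fun j => key 0 a (s + j)) '' {j | j ≤ e - s}) ⊆
              ↑(((range (M + 1)).filter (W B n M key thr 0)).image (key 0 a)) := by
            rintro y ⟨j, hj, rfl⟩
            replace hj : j ≤ e - s := hj
            rw [mem_coe]
            refine mem_image_of_mem _ (mem_filter.2 ⟨?_, ?_⟩)
            · rw [mem_range]; omega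
            · exact hW0 (s + j) (by omega) (by omega)
          exact_mod_cast Set.ncard_le_ncard this (Finset.finite_toSet _))
        (t - s) (by omega) (t' - s) (by omega)
      have e1 : s + (t - s) = t := by omega
      have e2 : s + (t' - s) = t' := by omega
      simp only [e1, e2] at hc
      exact box_mono (by omega) hc
    | succ i ih =>
      intro hi s e he hW t t' h1 h2 h3 h4
      have ih' := ih (by omega)
      set F := (Icc s e).filter (W B n M key thr (i + 1)) with hF
      -- intervals without `W (i+1)`
      have hfree : ∀ a b : ℕ, s ≤ a → b ≤ e → (∀ x ∈ F, ¬ (a ≤ x ∧ x ≤ b)) →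
          ∀ x y, a ≤ x → x ≤ b → a ≤ y → y ≤ b → g x - g y ∈ box (2 * ρs i + 2 * D) := by
        intro a b ha hb hfr x y hx1 hx2 hy1 hy2
        refine ih' a b (by omega) ?_ x y hx1 hx2 hy1 hy2
        intro z hz1 hz2
        obtain ⟨j, hj, hw⟩ := hW z (by omega) (by omega)
        refine ⟨j, ?_, hw⟩
        by_contra hj'
        have : j = i + 1 := by omega
        subst this
        exact hfr z (by rw [hF, mem_filter, mem_Icc]; exact ⟨⟨by omega, by omega⟩, hw⟩)
          ⟨hz1, hz2⟩
      have hρi := hρ i hi
      have hLi := hL i hi
      by_cases hne : F.Nonempty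
      · obtain ⟨m, τ, e1, e2, e3, e4⟩ := exists_enum F hne
        have hF' : ∀ x ∈ F, s ≤ x ∧ x ≤ e ∧ W B n M key thr (i + 1) x := by
          intro x hx
          rw [hF, mem_filter, mem_Icc] at hx
          exact ⟨hx.1.1, hx.1.2, hx.2⟩
        -- the jumps of the chain
        have hjump : ∀ j < m, g (τ (j + 1)) - g (τ j) ∈ box (Ls (i + 1)) := by
          intro j hj
          have hlt := e3 j hj
          have hb1 := hF' _ (e1 j hj.le)
          have hb2 := hF' _ (e1 (j + 1) hj)
          by_cases hadj : τ (j + 1) = τ j + 1
          · rw [hadj]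
            exact box_mono (by omega) (hg (τ j) (by omega))
          · have hmid : g (τ (j + 1) - 1) - g (τ j + 1) ∈ box (2 * ρs i + 2 * D) := by
              refine hfree (τ j + 1) (τ (j + 1) - 1) (by omega) (by omega) ?_ _ _ (by omega)
                (by omega) (by omega) (by omega)
              intro x hx hx2
              exact e4 j hj x hx ⟨by omega, by omega⟩
            have hl : g (τ j + 1) - g (τ j) ∈ box D := hg (τ j) (by omega)
            have hr : g (τ (j + 1)) - g (τ (j + 1) - 1) ∈ box D := by
              have := hg (τ (j + 1) - 1) (by omega)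
              rwa [show τ (j + 1) - 1 + 1 = τ (j + 1) by omega] at this
            exact box_mono (by omega) (box_trans (box_trans hr hmid) hl)
        have hc := hchain (i + 1) hi m τ (fun j hj => (hF' _ (e1 j hj)).2.1.trans he) e3 hjump
          (by
            intro a ha
            refine le_trans ?_ (thin (M := M) (thr := thr) hthr hK hθ hi ha)
            rw [← Set.ncard_coe_finset]
            have : ((fun j => key (i + 1) a (τ j)) '' {j | j ≤ m}) ⊆
                ↑(((range (M + 1)).filter (W B n M key thr (i + 1))).image (key (i + 1) a)) := by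
              rintro y ⟨j, hj, rfl⟩
              replace hj : j ≤ m := hj
              have := hF' _ (e1 j hj)
              rw [mem_coe]
              refine mem_image_of_mem _ (mem_filter.2 ⟨?_, this.2.2⟩)
              rw [mem_range]; omega
            exact_mod_cast Set.ncard_le_ncard this (Finset.finite_toSet _))
        -- every time is near the chain
        have hnear : ∀ x, s ≤ x → x ≤ e → ∃ j ≤ m, g x - g (τ j) ∈ box (2 * ρs i + 3 * D) := by
          intro x hx1 hx2
          -- the last element of `F` which is at most `x`
          by_cases hlow : ∃ y ∈ F, y ≤ x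
          · have hne2 : (F.filter (fun y => y ≤ x)).Nonempty := by
              obtain ⟨y, hy, hyx⟩ := hlow
              exact ⟨y, mem_filter.2 ⟨hy, hyx⟩⟩
            set y := (F.filter (fun y => y ≤ x)).max' hne2 with hy
            have hyF := mem_filter.1 ((F.filter (fun y => y ≤ x)).max'_mem hne2)
            rw [← hy] at hyF
            obtain ⟨j, hj, hjy⟩ := e2 y hyF.1
            refine ⟨j, hj, ?_⟩
            rw [hjy]
            by_cases hxy : x = y
            · rw [hxy, sub_self]; exact box_zero
            · have hb := hF' _ hyF.1
              have hmid : g x - g (y + 1) ∈ box (2 * ρs i + 2 * D) := by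
                refine hfree (y + 1) x (by omega) hx2 ?_ _ _ (by omega) le_rfl le_rfl (by omega)
                intro z hz hz2
                have := (F.filter (fun y => y ≤ x)).le_max' z (mem_filter.2 ⟨hz, hz2.2⟩)
                rw [← hy] at this
                omega
              have hl : g (y + 1) - g y ∈ box D := hg y (by omega)
              exact box_mono (by omega) (box_trans hmid hl)
          · push Not at hlow
            set y := F.min' hne with hy
            have hyF := F.min'_mem hne
            rw [← hy] at hyF
            obtain ⟨j, hj, hjy⟩ := e2 y hyF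
            refine ⟨j, hj, ?_⟩
            rw [hjy]
            have hxy := hlow y hyF
            have hb := hF' _ hyF
            have hmid : g x - g (y - 1) ∈ box (2 * ρs i + 2 * D) := by
              refine hfree x (y - 1) hx1 (by omega) ?_ _ _ le_rfl (by omega) (by omega) (by omega)
              intro z hz hz2
              have := F.min'_le z hz
              rw [← hy] at this
              omega
            have hl : g (y - 1) - g y ∈ box D := by
              have := hg (y - 1) (by omega)
              rw [show y - 1 + 1 = y by omega] at this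
              exact box_sub_comm this
            exact box_mono (by omega) (box_trans hmid hl)
        obtain ⟨j, hj, hx⟩ := hnear t h1 h2
        obtain ⟨j', hj', hx'⟩ := hnear t' h3 h4
        have := box_trans (box_trans hx (hc j hj j' hj')) (box_sub_comm hx')
        exact box_mono (by omega) this
      · rw [not_nonempty_iff_eq_empty] at hne
        have := hfree s e le_rfl le_rfl (by rw [hne]; simp) t t' h1 h2 h3 h4
        exact box_mono (by omega) this
  obtain ⟨t, ht, t', ht', hfar⟩ := hfar
  refine hfar (main (n - 1) (by omega) 0 M le_rfl ?_ t t' (by omega) ht (by omega) ht')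
  intro x _ hx
  obtain ⟨i, hi, hw⟩ := cover B n M key thr hpoor' hx
  exact ⟨i, by omega, hw⟩

end Vale.Agent.P015.M
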