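import Vale.Agent.P015.M.Defs4

/-! # P015, module T4: choice of the levels -/

namespace Vale.Agent.P015.M

open Finset hiding box
open Vale.Agent.P006.CLS Vale.Agent.P015.H222 Vale.Agent.P015.R2.H116
open scoped Pointwise

/-- shifted classes -/
noncomputable def shiftT (r : ℕ → ℤ) (v : ℤ × ℤ) (T : ∀ p : ℕ, Finset (ZMod p)) (p : ℕ) :
    Finset (ZMod p) :=
  (T p).map (Equiv.subRight ((lf (r p) v : ℤ) : ZMod p)).toEmbedding

theorem card_shiftT (r : ℕ → ℤ) (v : ℤ × ℤ) (T : ∀ p : ℕ, Finset (ZMod p)) (p : ℕ) :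
    (shiftT r v T p).card = (T p).card := by
  rw [shiftT, Finset.card_map]

theorem mem_shiftT (r : ℕ → ℤ) (v : ℤ × ℤ) (T : ∀ p : ℕ, Finset (ZMod p)) (p : ℕ) (w : ℤ × ℤ) :
    ((lf (r p) w : ℤ) : ZMod p) ∈ shiftT r v T p ↔ ((lf (r p) (w + v) : ℤ) : ZMod p) ∈ T p := by
  have e : ((lf (r p) (w + v) : ℤ) : ZMod p) =
      ((lf (r p) w : ℤ) : ZMod p) + ((lf (r p) v : ℤ) : ZMod p) := by
    simp only [lf, Prod.fst_add, Prod.snd_add]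
    push_cast
    ring
  rw [shiftT, Finset.mem_map_equiv, e]
  simp

theorem GG_congr (r : ℕ → ℤ) (v : ℤ × ℤ) {P : Finset ℕ} {S T : ∀ p : ℕ, Finset (ZMod p)}
    (h : ∀ p ∈ P, S p = T p) (w : ℤ × ℤ) : GG r P (shiftT r v S) w = GG r P T (w + v) := by
  unfold GG
  congr 1
  refine Finset.sum_congr rfl fun p hp => ?_
  rw [card_shiftT, h p hp]
  have := mem_shiftT r v S p w
  rw [h p hp] at this
  by_cases hm : ((lf (r p) (w + v) : ℤ) : ZMod p) ∈ T p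
  · rw [if_pos hm, if_pos (this.2 hm)]
  · rw [if_neg hm, if_neg (fun h' => hm (this.1 h'))]

/-- **T4**: coverage -/
theorem cover (ha : T4aStmt) (hb : T4bStmt) : CoverStmt := by
  classical
  obtain ⟨a, ha⟩ := ha
  obtain ⟨A, hb⟩ := hb
  obtain ⟨k0, hk0⟩ : ∃ k0 : ℕ, k0 = A * a + 1 := ⟨_, rfl⟩
  obtain ⟨k1, hk1⟩ : ∃ k1 : ℕ, k1 = 3 * k0 + 3 := ⟨_, rfl⟩
  obtain ⟨H, hH⟩ : ∃ H : ℕ, H = 4 * k1 + 6 := ⟨_, rfl⟩
  obtain ⟨δ, hδ0, hδ1, hb⟩ := hb H (by omega)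
  refine ⟨2 * H, δ, by omega, hδ0, hδ1, fun D => ?_⟩
  obtain ⟨Λ₀, hΛ₀, hb⟩ := hb D
  refine ⟨max Λ₀ 10, fun Λ hΛ N hN r g hinj hstep hlev => ?_⟩
  have hΛ1 : Λ₀ ≤ Λ := (le_max_left _ _).trans hΛ
  have hΛ10 : (10 : ℝ) ≤ Λ := (le_max_right _ _).trans hΛ
  have hΛone : (1 : ℝ) ≤ Λ := by linarith
  have hΛ0 : (0 : ℝ) < Λ := by linarith
  choose! z P T hz using hlev
  have hk0H : 1 ≤ k0 ∧ k0 < H := by omega
  have hk1H : 1 ≤ k1 ∧ k1 < H := by omega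
  obtain ⟨V, K, v₀, hK, hcv, hsum⟩ := hb Λ hΛ1 N hN r g hinj hstep z P T
    (fun k h1 h2 => hz k h1 (by omega))
  have hA : 1 ≤ A := by
    by_contra h
    have h0 : A = 0 := by omega
    have := hcv.ten
    rw [h0, pow_zero] at this
    norm_num at this
  have hΛA : Λ ≤ Λ ^ A := le_self_pow₀ hΛone (by omega)
  obtain ⟨hz0l, hz0u, hz0⟩ := hz k0 hk0H.1 (by omega)
  obtain ⟨hz1l, hz1u, hz1⟩ := hz k1 hk1H.1 (by omega)
  have hpw : ∀ m n : ℕ, m ≤ n → Λ ^ m ≤ Λ ^ n := fun m n h => pow_le_pow_right₀ hΛone h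
  -- the scales
  have hQ0 : (Λ ^ A) ^ a ≤ (z k0 : ℝ) := by
    rw [← pow_mul]
    exact (hpw _ _ (by omega)).trans hz0l
  have hQ : z k0 ^ 3 ≤ z k1 := by
    have : ((z k0 ^ 3 : ℕ) : ℝ) ≤ (z k1 : ℝ) := by
      rw [Nat.cast_pow]
      calc (z k0 : ℝ) ^ 3 ≤ (Λ ^ (k0 + 1)) ^ 3 := pow_le_pow_left₀ (Nat.cast_nonneg _) hz0u 3
        _ = Λ ^ k1 := by rw [← pow_mul]; congr 1; omega
        _ ≤ z k1 := hz1l
    exact_mod_cast this
  have hQK : z k1 ^ 4 ≤ K := by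
    have : ((z k1 ^ 4 : ℕ) : ℝ) ≤ (K : ℝ) := by
      rw [Nat.cast_pow]
      calc (z k1 : ℝ) ^ 4 ≤ (Λ ^ (k1 + 1)) ^ 4 := pow_le_pow_left₀ (Nat.cast_nonneg _) hz1u 4
        _ = Λ ^ (H - 2) := by rw [← pow_mul]; congr 1; omega
        _ ≤ K := hK
    exact_mod_cast this
  have hz02 : 2 ≤ z k0 := by
    have h1 : Λ ≤ Λ ^ k0 := le_self_pow₀ hΛone (by omega)
    have h2 : (2 : ℝ) ≤ (z k0 : ℝ) := by linarith
    exact_mod_cast h2
  -- the two levels are disjoint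
  have hdisj : ∀ p ∈ P k1, p ∉ P k0 := by
    intro p hp1 hp0
    have h1 := hz1.low p hp1
    have h2 := hz0.up p hp0
    have h3 : z k0 ^ 3 = z k0 * (z k0 * z k0) := by ring
    have h4 : 2 * 2 ≤ z k0 * z k0 := Nat.mul_le_mul hz02 hz02
    have h5 : z k0 * 4 ≤ z k0 * (z k0 * z k0) := Nat.mul_le_mul_left _ (by omega)
    omega
  obtain ⟨S, hS⟩ : ∃ S : ∀ p : ℕ, Finset (ZMod p),
      S = fun p => if p ∈ P k0 then T k0 p else T k1 p := ⟨_, rfl⟩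
  have hS0 : ∀ p ∈ P k0, S p = T k0 p := fun p hp => by rw [hS]; exact if_pos hp
  have hS1 : ∀ p ∈ P k1, S p = T k1 p := fun p hp => by rw [hS]; exact if_neg (hdisj p hp)
  have hmany : ∀ k, (z k : ℝ) ≤ Λ * (P k).card → (z k : ℝ) ≤ Λ ^ A * (P k).card := fun k h =>
    h.trans (mul_le_mul_of_nonneg_right hΛA (Nat.cast_nonneg _))
  refine ha (Λ ^ A) V K (z k0) (z k1) hcv r (P k0) (P k1) (shiftT r v₀ S) hz0.rts hz1.rts
    (fun p hp => ⟨hz0.low p hp, hz0.up p hp⟩) (fun p hp => ⟨hz1.low p hp, hz1.up p hp⟩)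
    (hmany _ hz0.many) (hmany _ hz1.many) ?_ ?_ ?_ ?_ hQ0 hQ hQK
  · intro p hp
    rw [card_shiftT, hS0 p hp]
    exact (hz0.dens p hp).trans (mul_le_mul_of_nonneg_right hΛA (Nat.cast_nonneg _))
  · intro p hp
    rw [card_shiftT, hS1 p hp]
    exact (hz1.dens p hp).trans (mul_le_mul_of_nonneg_right hΛA (Nat.cast_nonneg _))
  · refine le_trans (le_of_eq ?_) (hsum k0 hk0H.1 hk0H.2)
    exact Finset.sum_congr rfl fun w _ => GG_congr r v₀ hS0 w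
  · refine le_trans (le_of_eq ?_) (hsum k1 hk1H.1 hk1H.2)
    exact Finset.sum_congr rfl fun w _ => GG_congr r v₀ hS1 w

end Vale.Agent.P015.M
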