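import Vale.Agent.P015.M.T4aLvl
import Vale.Agent.P015.R2.H731.P2
import Vale.Agent.P015.R2.H116.Coup3

/-! # P015, module T4a: two levels -/

namespace Vale.Agent.P015.M

open Finset hiding box
open Vale.Agent.P006.CLS Vale.Agent.P015.H222 Vale.Agent.P015 Vale.Agent.P015.Cx
  Vale.Agent.P015.R2.H116 Vale.Agent.P015.R2.H731

open scoped ComplexConjugate

theorem GG_nonneg (r : ℕ → ℤ) (P : Finset ℕ) (T : ∀ p : ℕ, Finset (ZMod p)) (w : ℤ × ℤ) :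
    0 ≤ GG r P T w := by
  unfold GG
  refine div_nonneg (Finset.sum_nonneg fun p _ => ?_) (Nat.cast_nonneg _)
  split_ifs
  · positivity
  · exact le_rfl

theorem GG_le {r : ℕ → ℤ} {P : Finset ℕ} {T : ∀ p : ℕ, Finset (ZMod p)} {Λ : ℝ} (hΛ : 0 < Λ)
    (hP : Rts r P) (hT : ∀ p ∈ P, (p : ℝ) ≤ Λ * (T p).card) (w : ℤ × ℤ) :
    GG r P T w ≤ Λ := by
  unfold GG
  rcases P.eq_empty_or_nonempty with h | h
  · subst h
    simp [hΛ.le]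
  · have hc : (0 : ℝ) < P.card := by exact_mod_cast h.card_pos
    rw [div_le_iff₀ hc]
    calc _ ≤ ∑ p ∈ P, Λ := by
          refine Finset.sum_le_sum fun p hp => ?_
          have h1 := T_pos hP T hT hΛ hp
          split_ifs
          · rw [div_le_iff₀ h1]; exact hT p hp
          · exact hΛ.le
      _ = Λ * P.card := by rw [Finset.sum_const, nsmul_eq_mul]; ring

/-- frequencies at the two levels -/
theorem two_levels {Λ : ℝ} {W : Finset (ℤ × ℤ)} {K Q0 Q : ℕ} (hcv : Cv W K Λ) {r : ℕ → ℤ}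
    {P0 P : Finset ℕ} {T : ∀ p : ℕ, Finset (ZMod p)} (hR0 : Rts r P0) (hR : Rts r P)
    (hP0 : ∀ p ∈ P0, Q0 ≤ 2 * p ∧ p ≤ Q0) (hP : ∀ p ∈ P, Q ≤ 2 * p ∧ p ≤ Q)
    (hP0c : (Q0 : ℝ) ≤ Λ * P0.card) (hPc : (Q : ℝ) ≤ Λ * P.card)
    (hT0 : ∀ p ∈ P0, (p : ℝ) ≤ Λ * (T p).card) (hT : ∀ p ∈ P, (p : ℝ) ≤ Λ * (T p).card)
    (hG0 : ∑ w ∈ W, GG r P0 T w ≤ W.card / 4) (hG : ∑ w ∈ W, GG r P T w ≤ W.card / 4)
    {A : ℕ} (hA : A = 5 * 90 * 90 + 1) (hΛAQ0 : Λ ^ A ≤ Q0) (hQQ : Q0 ^ 3 ≤ Q) (hQK : Q ^ 4 ≤ K) :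
    ∃ P0' ⊆ P0, ∃ P' ⊆ P, ∃ c0 c1 : ℕ → ℕ, (P0.card : ℝ) ≤ (Λ ^ (5 * 90)) ^ 90 * P0'.card ∧
      (P.card : ℝ) ≤ (Λ ^ (5 * 90)) ^ 90 * P'.card ∧ (∀ p ∈ P0', c0 p ∈ Icc 1 (p - 1)) ∧
      (∀ p ∈ P', c1 p ∈ Icc 1 (p - 1)) ∧ 2 * Q0 < Q ∧
      ∀ ρ ∈ P', (W.card : ℝ) * P0'.card ≤ (Λ ^ (5 * 90)) ^ 90 * ∑ p ∈ P0',
        ‖hg W (fx ⟨ρ, c1 ρ⟩ - fx ⟨p, c0 p⟩) (fy r ⟨ρ, c1 ρ⟩ - fy r ⟨p, c0 p⟩)‖ := by
  classical
  have hΛ10 := hcv.ten
  have hC0Λ := hcv.c0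
  have hΛ1 : (1 : ℝ) ≤ Λ := by linarith
  have hΛ0 : (0 : ℝ) < Λ := by linarith
  have hpw : ∀ m n : ℕ, m ≤ n → Λ ^ m ≤ Λ ^ n := fun m n h => pow_le_pow_right₀ hΛ1 h
  have hQ0ge : (10 : ℝ) ≤ Q0 := by
    refine hΛ10.trans (le_trans ?_ hΛAQ0)
    exact le_self_pow₀ hΛ1 (by omega)
  have hQ0ge' : 10 ≤ Q0 := by exact_mod_cast hQ0ge
  have hQ0Q' : 2 * Q0 < Q := by
    have h1 : Q0 * (10 * 10) ≤ Q0 * (Q0 * Q0) := Nat.mul_le_mul_left _ (Nat.mul_le_mul hQ0ge' hQ0ge')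
    have h2 : Q0 ^ 3 = Q0 * (Q0 * Q0) := by ring
    omega
  have hQ0Q : Q0 ≤ Q := by omega
  have hQK2 : 16 * Q ^ 2 ≤ K := by
    have h1 : 10 ≤ Q := hQ0ge'.trans hQ0Q
    have h2 : 10 * 10 ≤ Q * Q := Nat.mul_le_mul h1 h1
    have h3 : Q ^ 4 = Q ^ 2 * (Q * Q) := by ring
    have h4 : Q ^ 2 * 16 ≤ Q ^ 2 * (Q * Q) := Nat.mul_le_mul_left _ (by omega)
    omega
  have hK0 : 16 * Q0 ^ 2 ≤ K := by
    have : Q0 ^ 2 ≤ Q ^ 2 := Nat.pow_le_pow_left hQ0Q 2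
    omega
  have hΛ4 : (10 : ℝ) ^ 4 ≤ Λ ^ 4 := pow_le_pow_left₀ (by norm_num) hΛ10 4
  obtain ⟨X, hXdef⟩ : ∃ X : ℝ, X = Λ ^ 5 := ⟨_, rfl⟩
  have hX : 4 * C1 ≤ X := by
    rw [C1, hXdef]
    calc 4 * (1020 * C0) ≤ 4 * (1020 * Λ) := by gcongr
      _ ≤ Λ ^ 4 * Λ := by nlinarith
      _ = _ := by ring
  have hΛX : Λ ≤ X := by rw [hXdef]; exact le_self_pow₀ hΛ1 (by norm_num)
  have hX1 : 1 ≤ X := hΛ1.trans hΛX
  have hX0 : 0 < X := by linarith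
  have hX90 : X ≤ X ^ 90 := le_self_pow₀ hX1 (by norm_num)
  have hWne : W.Nonempty := by
    rw [Finset.nonempty_iff_ne_empty]
    intro h
    have h1 := hcv.size
    rw [h, Finset.card_empty, Nat.cast_zero, mul_zero] at h1
    have h2 : (1 : ℝ) ≤ K := by
      have h3 : 1 ≤ K := by
        have : 1 ≤ Q ^ 2 := Nat.one_le_pow _ _ (by omega)
        omega
      exact_mod_cast h3
    linarith
  have hn : (0 : ℝ) < W.card := by exact_mod_cast hWne.card_pos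
  -- first application, at the lower level
  set f : ℤ × ℤ → ℂ := fun w => (((1 - GG r P T w) / Λ : ℝ) : ℂ) with hf
  have hf1 : ∀ w ∈ W, ‖f w‖ ≤ 1 := by
    intro w _
    have h1 := GG_nonneg r P T w
    have h2 := GG_le hΛ0 hR hT w
    simp only [hf]
    rw [Complex.norm_real, Real.norm_eq_abs, abs_div, abs_of_pos hΛ0, div_le_one hΛ0, abs_le]
    constructor <;> linarith
  have hprod : (W.card : ℝ) / 2 ≤ ∑ w ∈ W, (1 - GG r P T w) * (1 - GG r P0 T w) := by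
    have h1 : ∀ w ∈ W, 1 - GG r P T w - GG r P0 T w ≤ (1 - GG r P T w) * (1 - GG r P0 T w) := by
      intro w _
      nlinarith [mul_nonneg (GG_nonneg r P T w) (GG_nonneg r P0 T w)]
    refine le_trans ?_ (Finset.sum_le_sum h1)
    rw [Finset.sum_sub_distrib, Finset.sum_sub_distrib, Finset.sum_const, nsmul_eq_mul, mul_one]
    linarith
  have hfs : (W.card : ℝ) ≤ X * ‖∑ w ∈ W, f w * (1 - (GG r P0 T w : ℂ))‖ := by
    have h1 : ∑ w ∈ W, f w * (1 - (GG r P0 T w : ℂ)) =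
        (((∑ w ∈ W, (1 - GG r P T w) * (1 - GG r P0 T w)) / Λ : ℝ) : ℂ) := by
      rw [Finset.sum_div]
      push_cast
      refine Finset.sum_congr rfl fun w _ => ?_
      simp only [hf]
      push_cast
      ring
    rw [h1, Complex.norm_real, Real.norm_eq_abs]
    have h2 : (W.card : ℝ) / (2 * Λ) ≤
        (∑ w ∈ W, (1 - GG r P T w) * (1 - GG r P0 T w)) / Λ := by
      rw [div_le_div_iff₀ (by positivity) hΛ0]
      nlinarith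
    have h3 : 2 * Λ ≤ X := by
      rw [hXdef]
      calc 2 * Λ ≤ Λ ^ 4 * Λ := by nlinarith
        _ = _ := by ring
    calc (W.card : ℝ) = (2 * Λ) * ((W.card : ℝ) / (2 * Λ)) := by field_simp
      _ ≤ X * |(∑ w ∈ W, (1 - GG r P T w) * (1 - GG r P0 T w)) / Λ| :=
          mul_le_mul h3 (h2.trans (le_abs_self _)) (by positivity) hX0.le
  have hdens : ∀ (Y : ℝ) (q : ℕ), Λ ≤ Y → 16 * q ^ 2 ≤ K → ∀ M : ℕ, 1 ≤ M → M ≤ 2 * q ^ 2 →
      ∀ z, ((W.filter (fun w => w - z ∈ box M)).card : ℝ) ≤ Y * M := by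
    intro Y q hY hq M hM1 hM z
    exact (hcv.up z M hM1 (by omega)).trans (mul_le_mul_of_nonneg_right hY (Nat.cast_nonneg _))
  have hconn : ∀ (Y : ℝ) (q : ℕ), Λ ≤ Y → 16 * q ^ 2 ≤ K → ∀ M : ℕ, M ≤ q ^ 2 → ∀ w ∈ W,
      (M : ℝ) ≤ Y * ((W.filter (fun u => u - w ∈ box M)).card : ℝ) := by
    intro Y q hY hq M hM w hw
    exact (hcv.low w hw M (by omega)).trans (mul_le_mul_of_nonneg_right hY (Nat.cast_nonneg _))
  have hXQ0 : 4 * X ^ 26 ≤ (Q0 : ℝ) := by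
    refine le_trans ?_ hΛAQ0
    calc 4 * X ^ 26 ≤ Λ * X ^ 26 := by gcongr; linarith
      _ = Λ ^ 131 := by rw [hXdef]; ring
      _ ≤ Λ ^ A := hpw _ _ (by omega)
  obtain ⟨P0', hP0's, hP0'c, hc0⟩ := level hX hR0 (fun p hp => (hP0 p hp).2) hXQ0
    (hP0c.trans (mul_le_mul_of_nonneg_right hΛX (Nat.cast_nonneg _))) T
    (fun p hp => (hT0 p hp).trans (mul_le_mul_of_nonneg_right hΛX (Nat.cast_nonneg _))) hWne
    (hdens X Q0 hΛX hK0) (hconn X Q0 hΛX hK0) f hf1 hfs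
  choose! c0 hc0m hc0b using hc0
  have hQ0pos : (0 : ℝ) < Q0 := by linarith
  have hP0pos : (0 : ℝ) < P0.card := by
    by_contra h
    have h1 : (P0.card : ℝ) ≤ 0 := not_lt.mp h
    nlinarith
  have hn0 : (0 : ℝ) < P0'.card := by
    by_contra h
    have h1 : (P0'.card : ℝ) ≤ 0 := not_lt.mp h
    have h2 : (0 : ℝ) < X ^ 90 := by positivity
    nlinarith
  have hP0'pos : 0 < P0'.card := by exact_mod_cast hn0
  set S : ℕ → ℂ := fun p => H222.hh r W f ⟨p, c0 p⟩ with hS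
  set ε : ℕ → ℂ := fun p => conj (S p) / ‖S p‖ with hε
  have hε1 : ∀ p, ‖ε p‖ ≤ 1 := by
    intro p
    simp only [hε]
    rw [norm_div, Complex.norm_conj, Complex.norm_real, norm_norm]
    exact div_self_le_one _
  have hεS : ∀ p, ε p * S p = ‖S p‖ := by
    intro p
    simp only [hε]
    rcases eq_or_ne (S p) 0 with h | h
    · simp [h]
    · have h1 : (‖S p‖ : ℂ) ≠ 0 := by
        rw [Ne, Complex.ofReal_eq_zero, norm_eq_zero]; exact h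
      rw [div_mul_eq_mul_div, div_eq_iff h1, ← sq, mul_comm, Complex.mul_conj,
        Complex.normSq_eq_norm_sq]
      push_cast
      rfl
  set F : ℤ × ℤ → ℂ := fun w => (1 / (P0'.card : ℂ)) * ∑ p ∈ P0',
    ε p * e2 (fx ⟨p, c0 p⟩) (fy r ⟨p, c0 p⟩) w with hF
  have hF1 : ∀ w, ‖F w‖ ≤ 1 := by
    intro w
    simp only [hF]
    rw [norm_mul, norm_div, norm_one, Complex.norm_natCast, one_div, inv_mul_le_iff₀ hn0, mul_one]
    refine (norm_sum_le _ _).trans ?_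
    calc ∑ p ∈ P0', ‖ε p * e2 (fx ⟨p, c0 p⟩) (fy r ⟨p, c0 p⟩) w‖ ≤ ∑ p ∈ P0', (1 : ℝ) := by
          refine Finset.sum_le_sum fun p hp => ?_
          rw [norm_mul, norm_e2, mul_one]
          exact hε1 p
      _ = P0'.card := by simp
  have hSdef : ∀ p, S p = ∑ w ∈ W, f w * e2 (fx ⟨p, c0 p⟩) (fy r ⟨p, c0 p⟩) w := fun p => rfl
  have hFsum : ∑ w ∈ W, f w * F w = ((1 / (P0'.card : ℝ) * ∑ p ∈ P0', ‖S p‖ : ℝ) : ℂ) := by
    have h1 : ∀ w, f w * F w = (1 / (P0'.card : ℂ)) * ∑ p ∈ P0',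
        ε p * (f w * e2 (fx ⟨p, c0 p⟩) (fy r ⟨p, c0 p⟩) w) := by
      intro w
      simp only [hF, Finset.mul_sum]
      refine Finset.sum_congr rfl fun p _ => ?_
      ring
    simp_rw [h1]
    rw [← Finset.mul_sum, Finset.sum_comm]
    push_cast
    congr 1
    refine Finset.sum_congr rfl fun p _ => ?_
    rw [← Finset.mul_sum, ← hSdef]
    exact hεS p
  have hFlow : (W.card : ℝ) ≤ X ^ 90 * (1 / (P0'.card : ℝ) * ∑ p ∈ P0', ‖S p‖) := by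
    have h1 : (P0'.card : ℝ) * W.card ≤ X ^ 90 * ∑ p ∈ P0', ‖S p‖ := by
      rw [Finset.mul_sum, ← nsmul_eq_mul]
      exact Finset.card_nsmul_le_sum P0' _ _ fun p hp => hc0b p hp
    have e1 : X ^ 90 * (1 / (P0'.card : ℝ) * ∑ p ∈ P0', ‖S p‖) =
        (X ^ 90 * ∑ p ∈ P0', ‖S p‖) / P0'.card := by ring
    rw [e1, le_div_iff₀ hn0]
    linarith
  -- second application, at the upper level
  obtain ⟨Y, hYdef⟩ : ∃ Y : ℝ, Y = X ^ 90 := ⟨_, rfl⟩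
  have hXY : X ≤ Y := hYdef ▸ hX90
  have hΛY : Λ ≤ Y := hΛX.trans hXY
  have hYΛ : Y = Λ ^ (5 * 90) := by rw [hYdef, hXdef, ← pow_mul]
  have hY1 : 1 ≤ Y := hX1.trans hXY
  have hfs2 : (W.card : ℝ) ≤ Y * ‖∑ w ∈ W, conj (F w) * (1 - (GG r P T w : ℂ))‖ := by
    have h1 : ∑ w ∈ W, conj (F w) * (1 - (GG r P T w : ℂ)) = conj ((Λ : ℂ) * ∑ w ∈ W, f w * F w) := by
      rw [Finset.mul_sum, map_sum]
      refine Finset.sum_congr rfl fun w _ => ?_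
      have h2 : (Λ : ℂ) * (f w * F w) = ((1 - GG r P T w : ℝ) : ℂ) * F w := by
        have h3 : (Λ : ℂ) ≠ 0 := by exact_mod_cast hΛ0.ne'
        simp only [hf]
        push_cast
        field_simp
      rw [h2, map_mul (starRingEnd ℂ) (((1 - GG r P T w : ℝ) : ℂ)) (F w), Complex.conj_ofReal,
        mul_comm]
      push_cast
      rfl
    rw [h1, Complex.norm_conj, norm_mul, hFsum, Complex.norm_real, Complex.norm_real,
      Real.norm_eq_abs, Real.norm_eq_abs, abs_of_pos hΛ0]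
    have h4 : 0 ≤ 1 / (P0'.card : ℝ) * ∑ p ∈ P0', ‖S p‖ :=
      mul_nonneg (by positivity) (Finset.sum_nonneg fun _ _ => norm_nonneg _)
    rw [abs_of_nonneg h4, hYdef]
    refine hFlow.trans (mul_le_mul_of_nonneg_left ?_ (by positivity))
    nlinarith
  have hYQ : 4 * Y ^ 26 ≤ (Q : ℝ) := by
    have h1 : (Q0 : ℝ) ≤ Q := by exact_mod_cast hQ0Q
    refine le_trans ?_ (hΛAQ0.trans h1)
    calc 4 * Y ^ 26 ≤ Y ^ 26 * Λ := by
          rw [mul_comm]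
          exact mul_le_mul_of_nonneg_left (by linarith) (by positivity)
      _ = Λ ^ (5 * 90 * 26 + 1) := by rw [hYΛ, ← pow_mul, ← pow_succ]
      _ ≤ Λ ^ A := hpw _ _ (by omega)
  obtain ⟨P', hP's, hP'c, hc1⟩ := level (X := Y) (hX.trans hXY) hR (fun p hp => (hP p hp).2) hYQ
    (hPc.trans (mul_le_mul_of_nonneg_right hΛY (Nat.cast_nonneg _))) T
    (fun p hp => (hT p hp).trans (mul_le_mul_of_nonneg_right hΛY (Nat.cast_nonneg _))) hWne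
    (hdens Y Q hΛY hQK2) (hconn Y Q hΛY hQK2) (fun w => conj (F w))
    (fun w _ => by rw [Complex.norm_conj]; exact hF1 w) hfs2
  choose! c1 hc1m hc1b using hc1
  have hρ : ∀ ρ ∈ P', (W.card : ℝ) * P0'.card ≤ Y ^ 90 * ∑ p ∈ P0',
      ‖hg W (fx ⟨ρ, c1 ρ⟩ - fx ⟨p, c0 p⟩) (fy r ⟨ρ, c1 ρ⟩ - fy r ⟨p, c0 p⟩)‖ := by
    intro ρ hρ
    have h1 := hc1b ρ hρ
    have h2 := norm_hg_sum_conj W P0' (fun p => fx ⟨p, c0 p⟩) (fun p => fy r ⟨p, c0 p⟩) ε hε1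
      (fx ⟨ρ, c1 ρ⟩) (fy r ⟨ρ, c1 ρ⟩)
    have h3 := h1.trans (mul_le_mul_of_nonneg_left h2 (by positivity))
    have e1 : Y ^ 90 * (1 / (P0'.card : ℝ) * ∑ p ∈ P0',
        ‖hg W (fx ⟨ρ, c1 ρ⟩ - fx ⟨p, c0 p⟩) (fy r ⟨ρ, c1 ρ⟩ - fy r ⟨p, c0 p⟩)‖) =
        (Y ^ 90 * ∑ p ∈ P0',
        ‖hg W (fx ⟨ρ, c1 ρ⟩ - fx ⟨p, c0 p⟩) (fy r ⟨ρ, c1 ρ⟩ - fy r ⟨p, c0 p⟩)‖) / P0'.card := by
      ring
    rw [e1, le_div_iff₀ hn0] at h3
    exact h3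
  have hX90Y : X ^ 90 ≤ Y ^ 90 := pow_le_pow_left₀ hX0.le hXY 90
  rw [← hYΛ]
  exact ⟨P0', hP0's, P', hP's, c0, c1,
    hP0'c.trans (mul_le_mul_of_nonneg_right hX90Y (Nat.cast_nonneg _)), hP'c, hc0m, hc1m, hQ0Q', hρ⟩

theorem t4a : T4aStmt := by
  classical
  obtain ⟨ac, hcoup⟩ := coupling
  obtain ⟨A, hA⟩ : ∃ A : ℕ, A = 5 * 90 * 90 + 1 := ⟨_, rfl⟩
  refine ⟨A * (ac + 1), fun Λ W K Q0 Q hcv r P0 P T hR0 hR hP0 hP hP0c hPc hT0 hT hG0 hG hΛQ0 hQQ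
    hQK => ?_⟩
  have hΛ10 := hcv.ten
  have hΛ1 : (1 : ℝ) ≤ Λ := by linarith
  have hΛ0 : (0 : ℝ) < Λ := by linarith
  have hpw : ∀ m n : ℕ, m ≤ n → Λ ^ m ≤ Λ ^ n := fun m n h => pow_le_pow_right₀ hΛ1 h
  have hAA : A ≤ A * (ac + 1) := Nat.le_mul_of_pos_right _ (by omega)
  have hΛAQ0 : Λ ^ A ≤ Q0 := (hpw _ _ hAA).trans hΛQ0
  obtain ⟨P0', hP0's, P', hP's, c0, c1, hP0'c, hP'c, hc0m, hc1m, hQ0Q', hρ⟩ := two_levels hcv hR0 hR
    hP0 hP hP0c hPc hT0 hT hG0 hG hA hΛAQ0 hQQ hQK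
  obtain ⟨Y, hYΛ⟩ : ∃ Y : ℝ, Y = Λ ^ (5 * 90) := ⟨_, rfl⟩
  rw [← hYΛ] at hP0'c hP'c hρ
  -- Gaussian primes
  set cc : ℕ → ℕ := fun p => if p ∈ P0' then c0 p else c1 p with hcc
  have hdisj : ∀ p ∈ P', p ∉ P0' := by
    intro p hp hp0
    have h1 := (hP p (hP's hp)).1
    have h2 := (hP0 p (hP0's hp0)).2
    omega
  have hcc0 : ∀ p ∈ P0', cc p = c0 p := fun p hp => if_pos hp
  have hcc1 : ∀ p ∈ P', cc p = c1 p := fun p hp => if_neg (hdisj p hp)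
  have hbr : ∀ p ∈ P0' ∪ P', ∃ πα : GaussianInt × GaussianInt, Prime πα.1 ∧ πα.1.norm = p ∧
      ¬ πα.1 ∣ πα.2 ∧ GaussianInt.toComplex πα.2 / GaussianInt.toComplex πα.1 =
        ((cc p : ℤ) : ℂ) * (1 - Complex.I * r p) / p := by
    intro p hp
    have hrts : p.Prime ∧ (p : ℤ) ∣ r p ^ 2 + 1 := by
      rcases Finset.mem_union.1 hp with h | h
      · exact hR0 p (hP0's h)
      · exact hR p (hP's h)
    have hcp : cc p ∈ Icc 1 (p - 1) := by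
      rcases Finset.mem_union.1 hp with h | h
      · rw [hcc0 p h]; exact hc0m p h
      · rw [hcc1 p h]; exact hc1m p h
    rw [Finset.mem_Icc] at hcp
    obtain ⟨π, α, h1, h2, h3, h4⟩ := bridge hrts.1 hrts.2 (c := (cc p : ℤ)) (by
      intro hd
      have h5 : p ∣ cc p := by exact_mod_cast hd
      have := Nat.le_of_dvd (by omega) h5
      have := hrts.1.pos
      omega)
    exact ⟨(π, α), h1, h2, h3, h4⟩
  choose! πα hπp hπn hπd hπc using hbr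
  set al : GaussianInt → GaussianInt := fun z => (πα z.norm.toNat).2 with hal
  have hal1 : ∀ p ∈ P0' ∪ P', al (πα p).1 = (πα p).2 := by
    intro p hp
    simp only [hal]
    rw [hπn p hp, Int.toNat_natCast]
  have hinj : Set.InjOn (fun p => (πα p).1) (P0' ∪ P' : Finset ℕ) := by
    intro p hp q hq hpq
    have h1 := hπn p hp
    have h2 := hπn q hq
    simp only at hpq
    rw [hpq, h2] at h1
    exact_mod_cast h1.symm
  have hsub0 : P0' ⊆ P0' ∪ P' := Finset.subset_union_left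
  have hsub1 : P' ⊆ P0' ∪ P' := Finset.subset_union_right
  have hinj0 : Set.InjOn (fun p => (πα p).1) P0' := hinj.mono (by exact_mod_cast hsub0)
  have hinj1 : Set.InjOn (fun p => (πα p).1) P' := hinj.mono (by exact_mod_cast hsub1)
  have hth : ∀ p ∈ P0' ∪ P', (th al (πα p).1).re = fx ⟨p, cc p⟩ ∧
      -(th al (πα p).1).im = fy r ⟨p, cc p⟩ := by
    intro p hp
    have h1 := th_coord (c := (cc p : ℤ)) (r := r p) (p := p) (th al (πα p).1) (by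
      rw [Vale.Agent.P015.R2.H116.th, hal1 p hp]; exact hπc p hp)
    simp only [fx, fy]
    push_cast at h1
    exact h1
  have hlvl : ∀ (q : ℕ) (R R' : Finset ℕ), R' ⊆ R → R' ⊆ P0' ∪ P' →
      (∀ p ∈ R, q ≤ 2 * p ∧ p ≤ q) → (q : ℝ) ≤ Λ * R.card → (R.card : ℝ) ≤ Y ^ 90 * R'.card →
      Lvl (Λ ^ A) q (R'.image (fun p => (πα p).1)) al := by
    intro q R R' hRR hRU hq hqc hRc
    refine ⟨?_, ?_, ?_, ?_, ?_, ?_⟩
    · intro π hπ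
      obtain ⟨p, hp, rfl⟩ := Finset.mem_image.1 hπ
      exact hπp p (hRU hp)
    · intro π hπ
      obtain ⟨p, hp, rfl⟩ := Finset.mem_image.1 hπ
      rw [hπn p (hRU hp)]
      exact_mod_cast (hq p (hRR hp)).1
    · intro π hπ
      obtain ⟨p, hp, rfl⟩ := Finset.mem_image.1 hπ
      rw [hπn p (hRU hp)]
      exact_mod_cast (hq p (hRR hp)).2
    · intro π hπ π' hπ' h
      obtain ⟨p, hp, rfl⟩ := Finset.mem_image.1 hπ
      obtain ⟨p', hp', rfl⟩ := Finset.mem_image.1 hπ'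
      rw [hπn p (hRU hp), hπn p' (hRU hp')] at h
      have : p = p' := by exact_mod_cast h
      rw [this]
    · intro π hπ
      obtain ⟨p, hp, rfl⟩ := Finset.mem_image.1 hπ
      rw [hal1 p (hRU hp)]
      exact hπd p (hRU hp)
    · rw [Finset.card_image_of_injOn (hinj.mono (by exact_mod_cast hRU))]
      have h2 : Λ * Y ^ 90 ≤ Λ ^ A := by
        calc Λ * Y ^ 90 = Λ ^ (5 * 90 * 90 + 1) := by
              rw [mul_comm, hYΛ, ← pow_mul, ← pow_succ]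
          _ ≤ Λ ^ A := hpw _ _ (by omega)
      calc (q : ℝ) ≤ Λ * R.card := hqc
        _ ≤ Λ * (Y ^ 90 * R'.card) := mul_le_mul_of_nonneg_left hRc hΛ0.le
        _ = (Λ * Y ^ 90) * R'.card := by ring
        _ ≤ Λ ^ A * R'.card := mul_le_mul_of_nonneg_right h2 (Nat.cast_nonneg _)
  refine hcoup (Λ ^ A) W K Q0 Q (cv_mono hcv (le_self_pow₀ hΛ1 (by omega)))
    (P0'.image (fun p => (πα p).1)) (P'.image (fun p => (πα p).1)) al
    (hlvl Q0 P0 P0' hP0's hsub0 hP0 hP0c hP0'c)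
    (hlvl Q P P' hP's hsub1 hP hPc hP'c) ?_ hQQ hQK ?_
  · rw [← pow_mul]
    exact (hpw _ _ (Nat.mul_le_mul_left _ (by omega))).trans hΛQ0
  rw [Finset.card_image_of_injOn hinj0, Finset.card_image_of_injOn hinj1, Finset.sum_image hinj0]
  have hterm : ∀ p ∈ P0', ∀ ρ ∈ P', ‖hc W (th al (πα ρ).1 - th al (πα p).1)‖ =
      ‖hg W (fx ⟨ρ, c1 ρ⟩ - fx ⟨p, c0 p⟩) (fy r ⟨ρ, c1 ρ⟩ - fy r ⟨p, c0 p⟩)‖ := by
    intro p hp ρ hρ
    obtain ⟨h1, h2⟩ := hth p (hsub0 hp)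
    obtain ⟨h3, h4⟩ := hth ρ (hsub1 hρ)
    rw [hcc0 p hp] at h1 h2
    rw [hcc1 ρ hρ] at h3 h4
    rw [hc, Complex.sub_re, Complex.sub_im, h1, h3, ← h2, ← h4]
    congr 2
    ring
  calc (W.card : ℝ) * P0'.card * P'.card = ∑ ρ ∈ P', (W.card : ℝ) * P0'.card := by
        rw [Finset.sum_const, nsmul_eq_mul]; ring
    _ ≤ ∑ ρ ∈ P', Y ^ 90 * ∑ p ∈ P0',
        ‖hg W (fx ⟨ρ, c1 ρ⟩ - fx ⟨p, c0 p⟩) (fy r ⟨ρ, c1 ρ⟩ - fy r ⟨p, c0 p⟩)‖ :=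
        Finset.sum_le_sum hρ
    _ = Y ^ 90 * ∑ p ∈ P0', ∑ ρ ∈ P'.image (fun p => (πα p).1),
        ‖hc W (th al ρ - th al (πα p).1)‖ := by
        rw [← Finset.mul_sum, Finset.sum_comm]
        congr 1
        refine Finset.sum_congr rfl fun p hp => ?_
        rw [Finset.sum_image hinj1]
        exact Finset.sum_congr rfl fun ρ hρ => (hterm p hp ρ hρ).symm
    _ ≤ _ := by
        refine mul_le_mul_of_nonneg_right ?_ ?_
        · calc Y ^ 90 = Λ ^ (5 * 90 * 90) := by rw [hYΛ, ← pow_mul]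
            _ ≤ Λ ^ A := hpw _ _ (by omega)
        · exact Finset.sum_nonneg fun _ _ => Finset.sum_nonneg fun _ _ => norm_nonneg _

end Vale.Agent.P015.M
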