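import Vale.Agent.P015.M.Defs4

/-! # P015, module T4b: upper regularity from the cell bound -/

namespace Vale.Agent.P015.M

open Finset hiding box
open Vale.Agent.P006.CLS Vale.Agent.P015.H222
open scoped Pointwise

/-- an interval of length `2 m` meets the cells of three consecutive indices -/
theorem ediv_close {S m : ℕ} (hS : 0 < S) (hm : m ≤ S) {x z : ℤ} (h : |x - z| ≤ m) :
    z / (S : ℤ) - 1 ≤ x / (S : ℤ) ∧ x / (S : ℤ) ≤ z / (S : ℤ) + 1 := by
  have hS' : (0 : ℤ) < S := by exact_mod_cast hS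
  have hm' : (m : ℤ) ≤ S := by exact_mod_cast hm
  rw [abs_le] at h
  constructor
  · rw [Int.le_ediv_iff_mul_le hS']
    have h1 := Int.ediv_mul_le z hS'.ne'
    nlinarith
  · have h1 : x / (S : ℤ) ≤ (z + S) / (S : ℤ) := Int.ediv_le_ediv hS' (by linarith)
    rwa [Int.add_ediv_of_dvd_right (dvd_refl _), Int.ediv_self hS'.ne'] at h1

/-- the points of a box of size `m ≤ S` lie in nine cells of side `S` -/
theorem card_box_le_cells {S m : ℕ} (hS : 0 < S) (hm : m ≤ S) (V : Finset (ℤ × ℤ)) (n : ℕ)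
    (hcell : ∀ b, (V.filter (fun w => Vale.Agent.P015.H222.cell S w = b)).card ≤ n) (z₀ : ℤ × ℤ) :
    (V.filter (fun w => w - z₀ ∈ box m)).card ≤ 9 * n := by
  classical
  set E : Finset (ℤ × ℤ) := Finset.Icc (-1 : ℤ) 1 ×ˢ Finset.Icc (-1 : ℤ) 1 with hE
  have hEc : E.card = 9 := by rw [hE]; rfl
  have hsub : V.filter (fun w => w - z₀ ∈ box m) ⊆
      E.biUnion (fun e => V.filter (fun w => Vale.Agent.P015.H222.cell S w =
        Vale.Agent.P015.H222.cell S z₀ + e)) := by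
    intro w hw
    rw [Finset.mem_filter, mem_box] at hw
    obtain ⟨hwV, hw2⟩ := hw
    simp only [Prod.fst_sub, Prod.snd_sub] at hw2
    rw [Finset.mem_biUnion]
    have h1 := ediv_close hS hm (x := w.1) (z := z₀.1) (abs_le.mpr hw2.1)
    have h2 := ediv_close hS hm (x := w.2) (z := z₀.2) (abs_le.mpr hw2.2)
    refine ⟨Vale.Agent.P015.H222.cell S w - Vale.Agent.P015.H222.cell S z₀, ?_, ?_⟩
    · rw [hE, Finset.mem_product, Finset.mem_Icc, Finset.mem_Icc]
      simp only [Vale.Agent.P015.H222.cell, Prod.fst_sub, Prod.snd_sub]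
      omega
    · rw [Finset.mem_filter]
      exact ⟨hwV, by abel⟩
  refine (Finset.card_le_card hsub).trans (Finset.card_biUnion_le.trans ?_)
  calc ∑ e ∈ E, (V.filter (fun w => Vale.Agent.P015.H222.cell S w =
        Vale.Agent.P015.H222.cell S z₀ + e)).card ≤ ∑ _e ∈ E, n :=
        Finset.sum_le_sum fun e _ => hcell _
    _ = 9 * n := by rw [Finset.sum_const, hEc, smul_eq_mul]

/-- **upper regularity from the cell bounds at the levels `z k`** -/
theorem up_of_cells {Λ : ℝ} {H K : ℕ} (z : ℕ → ℕ) (V : Finset (ℤ × ℤ)) (B : ℝ) (hΛ : 1 ≤ Λ)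
    (hB : 0 ≤ B) (hz : ∀ k : ℕ, 1 ≤ k → k < H → Λ ^ k ≤ z k ∧ (z k : ℝ) ≤ Λ ^ (k + 1))
    (hcell : ∀ k : ℕ, 1 ≤ k → k < H → ∀ b : ℤ × ℤ,
      ((V.filter (fun w => Vale.Agent.P015.H222.cell (z k) w = b)).card : ℝ) ≤ B * z k)
    (hK : (K : ℝ) ≤ Λ ^ (H - 1)) (z₀ : ℤ × ℤ) (m : ℕ) (hm1 : 1 ≤ m) (hmK : m ≤ K) :
    ((V.filter (fun w => w - z₀ ∈ box m)).card : ℝ) ≤ 9 * (B * Λ ^ 2 + Λ) * m := by
  classical
  have hΛ0 : 0 < Λ := by linarith
  have hm0 : (0 : ℝ) < m := by exact_mod_cast hm1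
  have hm1' : (1 : ℝ) ≤ m := by exact_mod_cast hm1
  rcases le_or_gt (m : ℝ) Λ with hmΛ | hmΛ
  · -- trivial bound
    have h1 : (V.filter (fun w => w - z₀ ∈ box m)).card ≤ (box m).card := by
      refine Finset.card_le_card_of_injOn (fun w => w - z₀) ?_ ?_
      · intro w hw
        exact (Finset.mem_filter.mp hw).2
      · intro u _ v _ huv
        exact sub_left_injective huv
    have h2 : ((box m).card : ℝ) ≤ 9 * m ^ 2 := by
      have h3 : (box m).card = (2 * m + 1) ^ 2 := by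
        rw [box, Finset.card_product, Int.card_Icc, sq]
        congr 1 <;> omega
      rw [h3]
      push_cast
      nlinarith
    calc ((V.filter (fun w => w - z₀ ∈ box m)).card : ℝ) ≤ (box m).card := by exact_mod_cast h1
      _ ≤ 9 * m ^ 2 := h2
      _ ≤ 9 * Λ * m := by nlinarith
      _ ≤ 9 * (B * Λ ^ 2 + Λ) * m := by
        have : 0 ≤ B * Λ ^ 2 := by positivity
        nlinarith
  · -- choose the level
    have hex : ∃ k : ℕ, (m : ℝ) ≤ Λ ^ k := by
      refine ⟨H - 1, le_trans ?_ hK⟩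
      exact_mod_cast hmK
    set k := Nat.find hex with hk
    have hk1 : (m : ℝ) ≤ Λ ^ k := Nat.find_spec hex
    have hk0 : 2 ≤ k := by
      by_contra hcon
      have h2 : k ≤ 1 := by omega
      have h3 : Λ ^ k ≤ Λ ^ 1 := pow_le_pow_right₀ hΛ h2
      rw [pow_one] at h3
      linarith
    have hkH : k ≤ H - 1 := Nat.find_min' hex (le_trans (by exact_mod_cast hmK) hK)
    have hk2 : Λ ^ (k - 1) < m := by
      have := Nat.find_min hex (show k - 1 < k by omega)
      exact not_le.mp this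
    obtain ⟨hz1, hz2⟩ := hz k (by omega) (by omega)
    have hmz : m ≤ z k := by
      have : (m : ℝ) ≤ z k := hk1.trans hz1
      exact_mod_cast this
    have hz0 : 0 < z k := by omega
    have hn : ∀ b, (V.filter (fun w => Vale.Agent.P015.H222.cell (z k) w = b)).card ≤
        ⌊B * z k⌋₊ := fun b => Nat.le_floor (hcell k (by omega) (by omega) b)
    have h4 := card_box_le_cells hz0 hmz V _ hn z₀
    have h5 : ((⌊B * z k⌋₊ : ℕ) : ℝ) ≤ B * z k := Nat.floor_le (by positivity)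
    have h6 : (z k : ℝ) ≤ Λ ^ 2 * m := by
      calc (z k : ℝ) ≤ Λ ^ (k + 1) := hz2
        _ = Λ ^ 2 * Λ ^ (k - 1) := by rw [← pow_add]; congr 1; omega
        _ ≤ Λ ^ 2 * m := by gcongr
    calc ((V.filter (fun w => w - z₀ ∈ box m)).card : ℝ) ≤ 9 * ((⌊B * z k⌋₊ : ℕ) : ℝ) := by
          exact_mod_cast h4
      _ ≤ 9 * (B * z k) := by gcongr
      _ ≤ 9 * (B * (Λ ^ 2 * m)) := by gcongr
      _ ≤ 9 * (B * Λ ^ 2 + Λ) * m := by nlinarith [mul_pos hΛ0 hm0]

open Classical in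
/-- the cell bound for a shifted set -/
theorem cell_of_small (hc : T4cStmt) {r : ℕ → ℤ} {P : Finset ℕ} {T : ∀ p : ℕ, Finset (ZMod p)}
    {z : ℕ} {Λ : ℝ} (hP : Rts r P) (hPz : ∀ p ∈ P, p ≤ z) (hz : 1 ≤ z) (hΛ : 1 ≤ Λ)
    (hmany : (z : ℝ) ≤ Λ * P.card) (hT : ∀ p ∈ P, (p : ℝ) ≤ Λ * (T p).card)
    (W : Finset (ℤ × ℤ)) (v₀ b : ℤ × ℤ)
    (hG : ∑ w ∈ W.filter (fun w => Vale.Agent.P015.H222.cell z w = b), GG r P T (w + v₀) ≤
      ((W.filter (fun w => Vale.Agent.P015.H222.cell z w = b)).card : ℝ) / 2) :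
    ((W.filter (fun w => Vale.Agent.P015.H222.cell z w = b)).card : ℝ) ≤
      36 * C0 * Λ ^ 3 * z := by
  set U := W.filter (fun w => Vale.Agent.P015.H222.cell z w = b) with hU
  have hinj : Set.InjOn (fun w : ℤ × ℤ => w + v₀) U := fun u _ v _ h => add_right_cancel h
  have h1 := hc r P T z Λ hP hPz hz hΛ hmany hT (U.image (fun w => w + v₀))
    (corner z b + v₀) (by
      intro w hw
      obtain ⟨u, hu, rfl⟩ := Finset.mem_image.mp hw
      have hb := cell_bounds (show 0 < z by omega) (Finset.mem_filter.mp hu).2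
      rw [mem_box]
      simp only [corner, Prod.fst_sub, Prod.snd_sub, Prod.fst_add, Prod.snd_add]
      omega)
  rw [Finset.sum_image hinj, Finset.card_image_of_injOn hinj] at h1
  exact h1 hG

end Vale.Agent.P015.M
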