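import Vale.Agent.P015.M.T4b1
import Vale.Agent.P015.M.T4bUp

/-! # P015, module T4b: assembly of the regularisation -/

namespace Vale.Agent.P015.M

open Finset hiding box
open Vale.Agent.P006.CLS Vale.Agent.P015.H222 Vale.Agent.P015.R2.H116
open scoped Pointwise

theorem GG_nonneg (r : ℕ → ℤ) (P : Finset ℕ) (T : ∀ p : ℕ, Finset (ZMod p)) (w : ℤ × ℤ) :
    0 ≤ GG r P T w := by
  classical
  unfold GG
  refine div_nonneg (Finset.sum_nonneg fun p _ => ?_) (Nat.cast_nonneg _)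
  split_ifs
  · positivity
  · exact le_rfl

/-- mean of `GG` along a walk at a bad level -/
theorem sum_GG_le {r : ℕ → ℤ} {g : ℕ → ℤ × ℤ} {N : ℕ} {Λ δ : ℝ} {z : ℕ} {P : Finset ℕ}
    {T : ∀ p : ℕ, Finset (ZMod p)} (hΛ : 0 < Λ) (hδ : 0 ≤ δ) (h : Bad r g N Λ δ z P T) :
    ∑ t ∈ range (N + 1), GG r P T (g t) ≤ δ * N := by
  classical
  have h1 : ∑ t ∈ range (N + 1), GG r P T (g t)
      = (∑ p ∈ P, ((p : ℝ) / (T p).card) * (((range (N + 1)).filter
        (fun t => ((lf (r p) (g t) : ℤ) : ZMod p) ∈ T p)).card : ℝ)) / P.card := by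
    simp only [GG]
    rw [← Finset.sum_div, Finset.sum_comm]
    congr 1
    refine Finset.sum_congr rfl fun p _ => ?_
    rw [← Finset.sum_filter, Finset.sum_const, nsmul_eq_mul]
    rw [mul_comm]
  rw [h1]
  have h2 : ∀ p ∈ P, ((p : ℝ) / (T p).card) * (((range (N + 1)).filter
        (fun t => ((lf (r p) (g t) : ℤ) : ZMod p) ∈ T p)).card : ℝ) ≤ δ * N := by
    intro p hp
    have h3 := T_pos h.rts T h.dens hΛ hp
    have h4 := h.few p hp
    rw [div_mul_eq_mul_div, div_le_iff₀ h3]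
    calc (p : ℝ) * (((range (N + 1)).filter
        (fun t => ((lf (r p) (g t) : ℤ) : ZMod p) ∈ T p)).card : ℝ)
        = (((range (N + 1)).filter
        (fun t => ((lf (r p) (g t) : ℤ) : ZMod p) ∈ T p)).card : ℝ) * p := by ring
      _ ≤ δ * (T p).card * N := h4
      _ = _ := by ring
  have h5 := Finset.sum_le_sum h2
  rw [Finset.sum_const, nsmul_eq_mul] at h5
  rcases Nat.eq_zero_or_pos P.card with h0 | h0
  · rw [h0]; simp only [Nat.cast_zero, div_zero]; positivity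
  · have h6 : (0 : ℝ) < P.card := by exact_mod_cast h0
    rw [div_le_iff₀ h6]
    linarith

theorem log2_le {H : ℕ} {K : ℕ} {Λ : ℝ} (hΛ : 1 ≤ Λ) (hK : (K : ℝ) ≤ Λ ^ H) :
    ((Nat.log 2 K : ℕ) : ℝ) ≤ 2 * H * Λ := by
  rcases Nat.eq_zero_or_pos K with h0 | h0
  · rw [h0]; simp only [Nat.log_zero_right, Nat.cast_zero]; positivity
  · have h1 : ((2 : ℝ)) ^ (Nat.log 2 K) ≤ Λ ^ H := by
      refine le_trans ?_ hK
      exact_mod_cast Nat.pow_log_le_self 2 h0.ne'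
    have h2 := Real.log_le_log (by positivity) h1
    rw [Real.log_pow, Real.log_pow] at h2
    have h3 : (1 : ℝ) / 2 ≤ Real.log 2 := by
      have := Real.log_two_gt_d9
      linarith
    have h4 : Real.log Λ ≤ Λ := (Real.log_le_sub_one_of_pos (by linarith)).trans (by linarith)
    have h5 : ((Nat.log 2 K : ℕ) : ℝ) * (1 / 2) ≤ H * Λ := by
      calc ((Nat.log 2 K : ℕ) : ℝ) * (1 / 2) ≤ ((Nat.log 2 K : ℕ) : ℝ) * Real.log 2 := by gcongr
        _ ≤ H * Real.log Λ := h2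
        _ ≤ _ := by gcongr
    linarith

/-- regularisation of a piece -/
theorem reg_piece (hc : T4cStmt) (he : T4eStmt) {H D K N : ℕ} {Λ δ : ℝ} {r : ℕ → ℤ}
    {g : ℕ → ℤ × ℤ} {z : ℕ → ℕ} {P : ℕ → Finset ℕ} {T : ℕ → ∀ p : ℕ, Finset (ZMod p)}
    (hH : 3 ≤ H) (hD1 : 1 ≤ D) (hΛD : 10000 * ((D : ℝ) * H) ≤ Λ) (hΛC : C0 ≤ Λ)
    (hΛbig : (10000 : ℝ) ≤ Λ)
    (hlev : ∀ k : ℕ, 1 ≤ k → k < H → Λ ^ k ≤ z k ∧ (z k : ℝ) ≤ Λ ^ (k + 1) ∧
      Bad r g N Λ δ (z k) (P k) (T k))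
    (hKH : (K : ℝ) ≤ Λ ^ (H - 1)) (W : Finset (ℤ × ℤ)) (v₀ : ℤ × ℤ)
    (hsub : ∀ w ∈ W, w ∈ box K)
    (hsumall : ∑ k ∈ Ico 1 H, ∑ w ∈ W, GG r (P k) (T k) (w + v₀) ≤ W.card / 8)
    (hlow : ∀ w ∈ W, ∀ m : ℕ, 8 * m ≤ K →
      (m : ℝ) ≤ D * ((W.filter (fun u => u - w ∈ box m)).card : ℝ))
    (hKW : (K : ℝ) ≤ 2 * D * W.card) :
    ∃ V : Finset (ℤ × ℤ), Cv V K (Λ ^ 8) ∧
      ∀ k : ℕ, 1 ≤ k → k < H → ∑ w ∈ V, GG r (P k) (T k) (w + v₀) ≤ V.card / 4 := by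
  classical
  have hH' : (3 : ℝ) ≤ H := by exact_mod_cast hH
  have hC0 := one_le_C0
  have hD1' : (1 : ℝ) ≤ D := by exact_mod_cast hD1
  have hΛD' : 10000 * (D : ℝ) ≤ Λ := by
    have : (D : ℝ) * 1 ≤ D * H := by gcongr; linarith
    linarith
  have hΛ1 : (1 : ℝ) ≤ Λ := by linarith
  have hΛ0 : (0 : ℝ) < Λ := by linarith
  have hpw : ∀ m n : ℕ, m ≤ n → Λ ^ m ≤ Λ ^ n := fun m n h => pow_le_pow_right₀ hΛ1 h
  have hsumk : ∀ k, 1 ≤ k → k < H → ∑ w ∈ W, GG r (P k) (T k) (w + v₀) ≤ W.card / 8 := by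
    intro k h1 h2
    refine le_trans ?_ hsumall
    exact Finset.single_le_sum (f := fun k => ∑ w ∈ W, GG r (P k) (T k) (w + v₀))
      (fun k _ => Finset.sum_nonneg fun w _ => GG_nonneg _ _ _ _) (Finset.mem_Ico.mpr ⟨h1, h2⟩)
  -- deletion of the bad cells
  set bad : ℕ → Finset (ℤ × ℤ) := fun k => W.filter (fun w =>
    ((W.filter (fun u => H222.cell (z k) u = H222.cell (z k) w)).card : ℝ) / 2 <
      ∑ u ∈ W.filter (fun u => H222.cell (z k) u = H222.cell (z k) w),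
        GG r (P k) (T k) (u + v₀)) with hbad
  set V₁ : Finset (ℤ × ℤ) := W \ (Ico 1 H).biUnion bad with hV₁
  have hV₁W : V₁ ⊆ W := Finset.sdiff_subset
  have hbadc : (((Ico 1 H).biUnion bad).card : ℝ) ≤ W.card / 4 := by
    calc (((Ico 1 H).biUnion bad).card : ℝ) ≤ ∑ k ∈ Ico 1 H, ((bad k).card : ℝ) := by
          exact_mod_cast Finset.card_biUnion_le
      _ ≤ ∑ k ∈ Ico 1 H, 2 * ∑ w ∈ W, GG r (P k) (T k) (w + v₀) :=
          Finset.sum_le_sum fun k _ => card_bad_le W (fun w => GG r (P k) (T k) (w + v₀))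
            (fun w _ => GG_nonneg _ _ _ _) (H222.cell (z k))
      _ = 2 * ∑ k ∈ Ico 1 H, ∑ w ∈ W, GG r (P k) (T k) (w + v₀) := by rw [Finset.mul_sum]
      _ ≤ W.card / 4 := by linarith
  have hV₁c : (3 / 4 : ℝ) * W.card ≤ V₁.card := by
    have h1 : W.card ≤ V₁.card + ((Ico 1 H).biUnion bad).card := by
      rw [hV₁]
      have := Finset.le_card_sdiff ((Ico 1 H).biUnion bad) W
      omega
    have h2 : (W.card : ℝ) ≤ V₁.card + (((Ico 1 H).biUnion bad).card : ℝ) := by exact_mod_cast h1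
    linarith
  obtain ⟨V, hVV₁, hVlow, hVc⟩ := he D K D (Λ ^ 8) W V₁ hD1 hV₁W (by positivity) (by positivity) hlow
  have hVW : V ⊆ W := hVV₁.trans hV₁W
  have hloss : 100 * (D : ℝ) * (Nat.log 2 K + 1) * W.card / Λ ^ 8 ≤ W.card / 10 := by
    have h1 := log2_le (H := H - 1) hΛ1 hKH
    have h2 : ((H - 1 : ℕ) : ℝ) ≤ H := by exact_mod_cast (by omega : H - 1 ≤ H)
    have h3 : ((Nat.log 2 K : ℕ) : ℝ) + 1 ≤ 3 * (H * Λ) := by
      have h4 : 2 * ((H - 1 : ℕ) : ℝ) * Λ ≤ 2 * (H : ℝ) * Λ := by gcongr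
      have h5 : (1 : ℝ) ≤ H * Λ := by nlinarith
      linarith
    have h6 : 1000 * (D : ℝ) * (Nat.log 2 K + 1) ≤ Λ ^ 8 := by
      calc 1000 * (D : ℝ) * (Nat.log 2 K + 1) ≤ 1000 * (D : ℝ) * (3 * (H * Λ)) := by gcongr
        _ = (3000 * ((D : ℝ) * H)) * Λ := by ring
        _ ≤ Λ * Λ := by
            refine mul_le_mul_of_nonneg_right ?_ hΛ0.le
            linarith
        _ = Λ ^ 2 := by ring
        _ ≤ Λ ^ 8 := hpw 2 8 (by omega)
    rw [div_le_iff₀ (by positivity)]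
    calc 100 * (D : ℝ) * (Nat.log 2 K + 1) * W.card
        = (W.card / 10) * (1000 * (D : ℝ) * (Nat.log 2 K + 1)) := by ring
      _ ≤ _ := by gcongr
  have hVc' : (13 / 20 : ℝ) * W.card ≤ V.card := by linarith
  refine ⟨V, ?_, ?_⟩
  · constructor
    · linarith [hpw 1 8 (by omega), pow_one Λ]
    · linarith [hpw 1 8 (by omega), pow_one Λ]
    · intro w hw
      exact hsub w (hVW hw)
    · have h1 : 4 * (D : ℝ) ≤ Λ ^ 8 := by linarith [hpw 1 8 (by omega), pow_one Λ]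
      calc (K : ℝ) ≤ 2 * D * W.card := hKW
        _ ≤ 4 * D * V.card := by nlinarith
        _ ≤ Λ ^ 8 * V.card := by gcongr
    · intro z₀ m hm1 hmK
      have hcell : ∀ k : ℕ, 1 ≤ k → k < H → ∀ b : ℤ × ℤ,
          ((V.filter (fun w => H222.cell (z k) w = b)).card : ℝ) ≤ (36 * C0 * Λ ^ 3) * z k := by
        intro k h1 h2 b
        obtain ⟨hz1, hz2, hB⟩ := hlev k h1 h2
        have hz3 : (1 : ℝ) ≤ z k := (one_le_pow₀ hΛ1).trans hz1
        have hz4 : 1 ≤ z k := by exact_mod_cast hz3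
        rcases (V.filter (fun w => H222.cell (z k) w = b)).eq_empty_or_nonempty with h | h
        · rw [h]; simp only [Finset.card_empty, Nat.cast_zero]; positivity
        · obtain ⟨v, hv⟩ := h
          rw [Finset.mem_filter] at hv
          have h3 : v ∉ bad k := by
            intro h4
            have h5 := hVV₁ hv.1
            rw [hV₁, Finset.mem_sdiff] at h5
            exact h5.2 (Finset.mem_biUnion.mpr ⟨k, Finset.mem_Ico.mpr ⟨h1, h2⟩, h4⟩)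
          have h6 : ∑ u ∈ W.filter (fun u => H222.cell (z k) u = b), GG r (P k) (T k) (u + v₀)
              ≤ ((W.filter (fun u => H222.cell (z k) u = b)).card : ℝ) / 2 := by
            by_contra h7
            apply h3
            rw [hbad, Finset.mem_filter, hv.2]
            exact ⟨hVW hv.1, not_le.mp h7⟩
          have h8 := cell_of_small hc hB.rts hB.up hz4 hΛ1 hB.many hB.dens W v₀ b h6
          refine le_trans ?_ h8
          exact_mod_cast Finset.card_le_card (Finset.filter_subset_filter _ hVW)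
      refine (up_of_cells z V (36 * C0 * Λ ^ 3) hΛ1 (by positivity)
        (fun k h1 h2 => ⟨(hlev k h1 h2).1, (hlev k h1 h2).2.1⟩) hcell hKH z₀ m hm1 hmK).trans ?_
      have h1 : 9 * (36 * C0 * Λ ^ 3 * Λ ^ 2 + Λ) ≤ Λ ^ 8 := by
        calc 9 * (36 * C0 * Λ ^ 3 * Λ ^ 2 + Λ) ≤ 9 * (36 * Λ * Λ ^ 3 * Λ ^ 2 + Λ) := by gcongr
          _ = 324 * Λ ^ 6 + 9 * Λ := by ring
          _ ≤ 324 * Λ ^ 6 + 9 * Λ ^ 6 := by
              have := hpw 1 6 (by omega)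
              rw [pow_one] at this
              linarith
          _ = 333 * Λ ^ 6 := by ring
          _ ≤ Λ * Λ ^ 6 := by gcongr; linarith
          _ = Λ ^ 7 := by ring
          _ ≤ Λ ^ 8 := hpw 7 8 (by omega)
      gcongr
    · exact hVlow
  · intro k h1 h2
    have h3 : ∑ w ∈ V, GG r (P k) (T k) (w + v₀) ≤ ∑ w ∈ W, GG r (P k) (T k) (w + v₀) :=
      Finset.sum_le_sum_of_subset_of_nonneg hVW fun w _ _ => GG_nonneg _ _ _ _
    have h4 := hsumk k h1 h2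
    linarith

/-- **T4b** -/
theorem t4b (hc : T4cStmt) (hd : T4dStmt) (he : T4eStmt) : T4bStmt := by
  classical
  refine ⟨8, fun H hH => ?_⟩
  have hH' : (3 : ℝ) ≤ H := by exact_mod_cast hH
  have hC0 := one_le_C0
  refine ⟨1 / (32 * H), by positivity, by
    rw [div_le_one (by positivity)]; linarith, fun D₀ => ?_⟩
  obtain ⟨D, hD⟩ : ∃ D : ℕ, D = D₀ + 1 := ⟨_, rfl⟩
  have hD1 : 1 ≤ D := by omega
  have hD1' : (1 : ℝ) ≤ D := by exact_mod_cast hD1
  refine ⟨10000 * D * H + C0, by nlinarith [mul_nonneg (by positivity : (0:ℝ) ≤ 10000 * D) (by positivity : (0:ℝ) ≤ (H:ℝ))], fun Λ hΛ N hN r g hinj hstep₀ z P T hlev => ?_⟩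
  have hDH : (1 : ℝ) ≤ D * H := by nlinarith
  have hΛD : 10000 * ((D : ℝ) * H) ≤ Λ := by nlinarith
  have hΛC : C0 ≤ Λ := by nlinarith
  have hΛbig : (10000 : ℝ) ≤ Λ := by nlinarith
  have hΛD' : 10000 * (D : ℝ) ≤ Λ := by nlinarith
  have hΛ1 : (1 : ℝ) ≤ Λ := by linarith
  have hΛ0 : (0 : ℝ) < Λ := by linarith
  have hstep : ∀ t < N, g (t + 1) - g t ∈ box D := fun t ht => box_mono (by omega) (hstep₀ t ht)
  have hpw : ∀ m n : ℕ, m ≤ n → Λ ^ m ≤ Λ ^ n := fun m n h => pow_le_pow_right₀ hΛ1 h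
  -- the scale
  obtain ⟨K, hK⟩ : ∃ K : ℕ, K = ⌈Λ ^ (H - 2)⌉₊ := ⟨_, rfl⟩
  have hK1 : Λ ^ (H - 2) ≤ K := by rw [hK]; exact Nat.le_ceil _
  have hK2 : (K : ℝ) ≤ Λ ^ (H - 2) + 1 := by rw [hK]; exact (Nat.ceil_lt_add_one (by positivity)).le
  have hK3 : Λ ≤ K := by
    refine le_trans ?_ hK1
    have := hpw 1 (H - 2) (by omega)
    rwa [pow_one] at this
  have hK4 : 4 * (K : ℝ) ≤ Λ ^ (H - 1) := by
    have h1 : Λ ^ (H - 1) = Λ * Λ ^ (H - 2) := by
      rw [← pow_succ']; congr 1; omega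
    have h2 : (1 : ℝ) ≤ Λ ^ (H - 2) := one_le_pow₀ hΛ1
    rw [h1]; nlinarith
  have hKH : (K : ℝ) ≤ Λ ^ (H - 1) := by
    have : (0 : ℝ) ≤ K := Nat.cast_nonneg _
    linarith
  have hKD : 8 * D ≤ K := by
    have : (8 : ℝ) * D ≤ K := by linarith
    exact_mod_cast this
  -- the functions
  set F : ℕ → ℝ := fun t => ∑ k ∈ Ico 1 H, GG r (P k) (T k) (g t) with hF
  have hF0 : ∀ t, 0 ≤ F t := fun t => Finset.sum_nonneg fun k _ => GG_nonneg _ _ _ _
  have hFs : ∑ t ∈ range (N + 1), F t ≤ (1 / 32) * N := by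
    rw [hF, Finset.sum_comm]
    calc ∑ k ∈ Ico 1 H, ∑ t ∈ range (N + 1), GG r (P k) (T k) (g t)
        ≤ ∑ k ∈ Ico 1 H, 1 / (32 * (H : ℝ)) * N := Finset.sum_le_sum fun k hk => by
          rw [Finset.mem_Ico] at hk
          exact sum_GG_le hΛ0 (by positivity) (hlev k hk.1 hk.2).2.2
      _ = ((H - 1 : ℕ) : ℝ) * (1 / (32 * (H : ℝ)) * N) := by
          rw [Finset.sum_const, Nat.card_Ico, nsmul_eq_mul]
      _ ≤ (H : ℝ) * (1 / (32 * (H : ℝ)) * N) := by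
          gcongr
          omega
      _ = (1 / 32) * N := by
          have : (H : ℝ) ≠ 0 := by positivity
          field_simp
  have hKN : 2 * (2 * K + 1) ^ 2 ≤ N := by
    have h1 : (2 * (2 * (K : ℝ) + 1) ^ 2) ≤ N := by
      refine le_trans ?_ hN
      have h2 : Λ ^ (2 * H) = Λ ^ 2 * (Λ ^ (H - 1)) ^ 2 := by
        rw [← pow_mul, ← pow_add]; congr 1; omega
      rw [h2]
      have h3 : (0 : ℝ) ≤ K := Nat.cast_nonneg _
      have h4 : 2 * (K : ℝ) + 1 ≤ Λ ^ (H - 1) := by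
        have : (1 : ℝ) ≤ K := by linarith
        linarith
      calc 2 * (2 * (K : ℝ) + 1) ^ 2 ≤ 2 * (Λ ^ (H - 1)) ^ 2 := by gcongr
        _ ≤ Λ ^ 2 * (Λ ^ (H - 1)) ^ 2 := by
          have : (2 : ℝ) ≤ Λ ^ 2 := by nlinarith
          gcongr
    exact_mod_cast h1
  obtain ⟨s, e, hse, heN, hin, hout, hsum⟩ := hd D K N (1 / 32) (1 / 8) F g hD1 (by omega) hinj
    hstep hF0 hFs (by norm_num) (by norm_num) hKN
  -- the piece
  set v₀ : ℤ × ℤ := g s with hv₀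
  set W : Finset (ℤ × ℤ) := (Ico s e).image (fun t => g t - v₀) with hW
  have hinjW : Set.InjOn (fun t => g t - v₀) (Ico s e) := by
    intro a ha b hb hab
    simp only [Finset.coe_Ico, Set.mem_Ico] at ha hb
    have h3 : g a = g b := by
      have := congrArg (fun x => x + v₀) hab
      simpa using this
    exact hinj a (by omega) b (by omega) h3
  have hWc : W.card = e - s := by
    rw [hW, Finset.card_image_of_injOn hinjW, Nat.card_Ico]
  have hWc' : (W.card : ℝ) = ((e - s : ℕ) : ℝ) := by rw [hWc]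
  have hWpos : (0 : ℝ) < W.card := by
    rw [hWc']
    exact_mod_cast (by omega : 0 < e - s)
  have hsumW : ∀ k, ∑ w ∈ W, GG r (P k) (T k) (w + v₀) = ∑ t ∈ Ico s e, GG r (P k) (T k) (g t) := by
    intro k
    rw [hW, Finset.sum_image (fun a ha b hb h => hinjW ha hb h)]
    refine Finset.sum_congr rfl fun t _ => ?_
    rw [sub_add_cancel]
  have hsumall : ∑ k ∈ Ico 1 H, ∑ w ∈ W, GG r (P k) (T k) (w + v₀) ≤ W.card / 8 := by
    simp only [hsumW]
    rw [Finset.sum_comm, hWc']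
    refine hsum.trans (le_of_eq ?_)
    ring
  -- peeling
  have hstep' : ∀ t, s ≤ t → t < e → g (t + 1) - g t ∈ box D := fun t _ h2 => hstep t (by omega)
  have hlow := low_piece hD1 hstep' (fun a _ ha b _ hb h => hinj a (by omega) b (by omega) h)
    hKD hse hout v₀ hW
  have hKW : (K : ℝ) ≤ 2 * D * W.card := by
    have h1 := long_piece hstep' hse hout
    have h2 : (K : ℝ) ≤ ((e - s : ℕ) : ℝ) * D + D := by exact_mod_cast h1
    rw [← hWc'] at h2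
    have h3 : (1 : ℝ) ≤ W.card := by exact_mod_cast (Nat.cast_pos.mp hWpos)
    nlinarith
  obtain ⟨V, hV1, hV2⟩ := reg_piece hc he hH hD1 hΛD hΛC hΛbig hlev hKH W v₀ (by
    intro w hw
    obtain ⟨t, ht, rfl⟩ := Finset.mem_image.mp hw
    rw [Finset.mem_Ico] at ht
    exact box_mono (Nat.sub_le _ _) (hin t ht.1 ht.2)) hsumall hlow hKW
  exact ⟨V, K, v₀, hK1, hV1, hV2⟩

end Vale.Agent.P015.M
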