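import Vale.Agent.P015.M.Defs4

/-! # P015, module T4c: the large sieve in a cell of side `z` -/

namespace Vale.Agent.P015.M

open Finset hiding box
open Vale.Agent.P001 Vale.Agent.P006.CLS Vale.Agent.P015.H222
open scoped ComplexConjugate Pointwise

/-- orthogonality without a hypothesis on the set -/
theorem tau_orth_gen {p : ℕ} (hp : 0 < p) (T : Finset (ZMod p)) (r : ℕ → ℤ) (W : Finset (ℤ × ℤ))
    (f : ℤ × ℤ → ℂ) [DecidablePred (fun w : ℤ × ℤ => ((lf (r p) w : ℤ) : ZMod p) ∈ T)] :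
    ∑ a ∈ range p, tau p T a * hh r W f ⟨p, a⟩
      = p * ∑ w ∈ W, if ((lf (r p) w : ℤ) : ZMod p) ∈ T then f w else 0 := by
  classical
  have : NeZero p := ⟨hp.ne'⟩
  have h1 : ∀ a : ℕ, tau p T a * hh r W f ⟨p, a⟩
      = ∑ w ∈ W, ∑ t ∈ T, f w * ee (((lf (r p) w - (t.val : ℤ) : ℤ) : ℝ) * ((a : ℝ) / p)) := by
    intro a
    rw [hh_eq, tau, Finset.sum_mul_sum, Finset.sum_comm]
    refine Finset.sum_congr rfl (fun w _ => Finset.sum_congr rfl (fun t _ => ?_))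
    have e : (((lf (r p) w - (t.val : ℤ) : ℤ) : ℝ) * ((a : ℝ) / p))
        = -(((t.val : ℤ) : ℝ) * ((a : ℝ) / p)) + ((lf (r p) w : ℤ) : ℝ) * ((a : ℝ) / p) := by
      push_cast; ring
    rw [e, ee_add]
    ring
  simp_rw [h1]
  rw [Finset.sum_comm, Finset.mul_sum]
  refine Finset.sum_congr rfl (fun w _ => ?_)
  rw [Finset.sum_comm]
  have h2 : ∀ t : ZMod p, (p : ℤ) ∣ lf (r p) w - (t.val : ℤ) ↔ t = ((lf (r p) w : ℤ) : ZMod p) := by
    intro t
    rw [← ZMod.intCast_zmod_eq_zero_iff_dvd]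
    push_cast
    rw [ZMod.natCast_zmod_val, sub_eq_zero, eq_comm]
  have h3 : ∀ t ∈ T, ∑ a ∈ range p, f w * ee (((lf (r p) w - (t.val : ℤ) : ℤ) : ℝ) * ((a : ℝ) / p))
      = if t = ((lf (r p) w : ℤ) : ZMod p) then f w * p else 0 := by
    intro t _
    rw [← Finset.mul_sum, orth p hp]
    by_cases h : t = ((lf (r p) w : ℤ) : ZMod p)
    · rw [if_pos ((h2 t).mpr h), if_pos h]
    · rw [if_neg (fun h' => h ((h2 t).mp h')), if_neg h, mul_zero]
  rw [Finset.sum_congr rfl h3, Finset.sum_ite_eq']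
  split_ifs
  · ring
  · ring

/-- the mean defect of `GG` in frequencies -/
theorem sum_one_sub_GG {r : ℕ → ℤ} {P : Finset ℕ} (T : ∀ p : ℕ, Finset (ZMod p))
    (hP : Rts r P) (hT : ∀ p ∈ P, (T p).Nonempty) (hP0 : P.Nonempty) (W : Finset (ℤ × ℤ))
    (f : ℤ × ℤ → ℂ) :
    (P.card : ℂ) * ∑ w ∈ W, f w * (1 - (GG r P T w : ℂ))
      = -∑ θ ∈ R1 P, (tau θ.1 (T θ.1) θ.2 / (T θ.1).card) * hh r W f θ := by
  classical
  have hPc : (P.card : ℂ) ≠ 0 := by exact_mod_cast hP0.card_pos.ne'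
  have h1 : ∀ p ∈ P, ∑ a ∈ Icc 1 (p - 1), (tau p (T p) a / (T p).card) * hh r W f ⟨p, a⟩
      = -∑ w ∈ W, f w * (1 - if ((lf (r p) w : ℤ) : ZMod p) ∈ T p then ((p : ℂ) / (T p).card) else 0) := by
    intro p hp
    have hpp := (hP p hp).1.pos
    have hTc : ((T p).card : ℂ) ≠ 0 := by exact_mod_cast (hT p hp).card_pos.ne'
    have h0 := tau_orth_gen hpp (T p) r W f
    have hrange : range p = insert 0 (Icc 1 (p - 1)) := by
      ext a
      simp only [Finset.mem_range, Finset.mem_insert, Finset.mem_Icc]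
      omega
    rw [hrange, Finset.sum_insert (by simp), tau_zero] at h0
    have hh0 : hh r W f ⟨p, 0⟩ = ∑ w ∈ W, f w := by
      rw [hh_eq]
      refine Finset.sum_congr rfl (fun w _ => ?_)
      simp [ee_zero]
    rw [hh0] at h0
    have h2 : ∑ a ∈ Icc 1 (p - 1), (tau p (T p) a / (T p).card) * hh r W f ⟨p, a⟩
        = (∑ a ∈ Icc 1 (p - 1), tau p (T p) a * hh r W f ⟨p, a⟩) / (T p).card := by
      rw [Finset.sum_div]
      refine Finset.sum_congr rfl (fun a _ => by ring)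
    rw [h2, div_eq_iff hTc]
    have h3 : ∑ w ∈ W, f w * (1 - if ((lf (r p) w : ℤ) : ZMod p) ∈ T p then
        ((p : ℂ) / (T p).card) else 0) = ∑ w ∈ W, f w - (p / (T p).card) * ∑ w ∈ W,
          if ((lf (r p) w : ℤ) : ZMod p) ∈ T p then f w else 0 := by
      rw [Finset.mul_sum, ← Finset.sum_sub_distrib]
      refine Finset.sum_congr rfl (fun w _ => ?_)
      split_ifs <;> ring
    rw [h3]
    have h4 : (T p).card * ((p / (T p).card : ℂ) * ∑ w ∈ W,
        (if ((lf (r p) w : ℤ) : ZMod p) ∈ T p then f w else 0)) = p * ∑ w ∈ W,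
        (if ((lf (r p) w : ℤ) : ZMod p) ∈ T p then f w else 0) := by
      field_simp
    linear_combination h0 - h4
  rw [R1, Finset.sum_sigma, Finset.sum_congr rfl h1, Finset.sum_neg_distrib, neg_neg,
    Finset.sum_comm, Finset.mul_sum]
  refine Finset.sum_congr rfl (fun w _ => ?_)
  rw [← Finset.mul_sum, Finset.sum_sub_distrib, Finset.sum_const, nsmul_eq_mul, mul_one, GG]
  push_cast
  have h5 : ∀ p ∈ P, ((if ((lf (r p) w : ℤ) : ZMod p) ∈ T p then ((p : ℝ) / (T p).card) else 0 : ℝ) : ℂ)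
      = if ((lf (r p) w : ℤ) : ZMod p) ∈ T p then ((p : ℂ) / (T p).card) else 0 := by
    intro p _
    split_ifs <;> push_cast <;> rfl
  rw [Finset.sum_congr rfl h5]
  field_simp

/-- **T4c** -/
theorem t4c : T4cStmt := by
  classical
  intro r P T z Λ hP hz hz1 hΛ hPc hT W n₀ hW hG
  have hC0 := one_le_C0
  have hΛ0 : 0 < Λ := by linarith
  have hz0 : (1 : ℝ) ≤ z := by exact_mod_cast hz1
  have hPpos : (0 : ℝ) < P.card := by
    by_contra h
    have h1 : (P.card : ℝ) ≤ 0 := not_lt.mp h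
    nlinarith
  have hP0 : P.Nonempty := by
    rw [← Finset.card_pos]; exact_mod_cast hPpos
  have hTn : ∀ p ∈ P, (T p).Nonempty := by
    intro p hp
    have := T_pos hP T hT hΛ0 hp
    rw [← Finset.card_pos]; exact_mod_cast this
  rcases W.eq_empty_or_nonempty with hW0 | hW0
  · subst hW0
    simp only [Finset.card_empty, Nat.cast_zero]
    positivity
  have hWp : (0 : ℝ) < W.card := by exact_mod_cast hW0.card_pos
  -- large sieve
  have hls := primal_ls (R1 P) fx (fy r) (δ := 1 / (2 * z)) (by positivity)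
    (by rw [div_le_one (by positivity)]; linarith) (sep_R1 hP hz hz1) z n₀ W hW (fun _ => 1)
  have hls' : ∑ θ ∈ R1 P, ‖hh r W (fun _ => 1) θ‖ ^ 2 ≤ 9 * C0 * (z : ℝ) ^ 2 * W.card := by
    refine le_trans (le_of_eq ?_) (hls.trans (le_of_eq ?_))
    · rfl
    · rw [one_div_one_div]
      simp only [norm_one, one_pow, Finset.sum_const, nsmul_eq_mul, mul_one]
      ring
  have hgT := sum_gT_sq hΛ0 hP hz T hT
  have h1 := sum_one_sub_GG T hP hTn hP0 W (fun _ => 1)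
  have h2 : (P.card : ℝ) * (W.card / 2) ≤ ∑ θ ∈ R1 P, gT T θ * ‖hh r W (fun _ => 1) θ‖ := by
    have h3 : (P.card : ℝ) * (W.card / 2) ≤ ‖(P.card : ℂ) * ∑ w ∈ W, (1 : ℂ) * (1 - (GG r P T w : ℂ))‖ := by
      rw [norm_mul, Complex.norm_natCast]
      refine mul_le_mul_of_nonneg_left ?_ hPpos.le
      have h4 : ∑ w ∈ W, (1 : ℂ) * (1 - (GG r P T w : ℂ)) = ((W.card - ∑ w ∈ W, GG r P T w : ℝ) : ℂ) := by
        simp only [one_mul]
        rw [Finset.sum_sub_distrib]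
        push_cast
        simp
      rw [h4, Complex.norm_real, Real.norm_eq_abs]
      refine le_trans ?_ (le_abs_self _)
      linarith
    rw [h1, norm_neg] at h3
    refine h3.trans ((norm_sum_le _ _).trans (Finset.sum_le_sum (fun θ _ => ?_)))
    rw [norm_mul, norm_div, Complex.norm_natCast, gT]
  have h5 : ((P.card : ℝ) * (W.card / 2)) ^ 2 ≤ (Λ * z) * (9 * C0 * (z : ℝ) ^ 2 * W.card) := by
    calc ((P.card : ℝ) * (W.card / 2)) ^ 2
        ≤ (∑ θ ∈ R1 P, gT T θ * ‖hh r W (fun _ => 1) θ‖) ^ 2 :=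
          pow_le_pow_left₀ (by positivity) h2 2
      _ ≤ (∑ θ ∈ R1 P, gT T θ ^ 2) * ∑ θ ∈ R1 P, ‖hh r W (fun _ => 1) θ‖ ^ 2 :=
          Finset.sum_mul_sq_le_sq_mul_sq _ _ _
      _ ≤ _ := mul_le_mul hgT hls' (Finset.sum_nonneg (fun _ _ => by positivity)) (by positivity)
  have h6 : (z : ℝ) ^ 2 * W.card ≤ Λ ^ 2 * (P.card ^ 2 * W.card) := by
    have h7 : (z : ℝ) ^ 2 ≤ (Λ * P.card) ^ 2 := pow_le_pow_left₀ (by positivity) hPc 2
    calc (z : ℝ) ^ 2 * W.card ≤ (Λ * P.card) ^ 2 * W.card := by gcongr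
      _ = _ := by ring
  -- conclusion
  have h8 : ((z : ℝ) ^ 2 * W.card) * W.card ≤ ((z : ℝ) ^ 2 * W.card) * (36 * C0 * Λ ^ 3 * z) := by
    calc ((z : ℝ) ^ 2 * W.card) * W.card ≤ (Λ ^ 2 * (P.card ^ 2 * W.card)) * W.card := by gcongr
      _ = 4 * Λ ^ 2 * ((P.card : ℝ) * (W.card / 2)) ^ 2 := by ring
      _ ≤ 4 * Λ ^ 2 * ((Λ * z) * (9 * C0 * (z : ℝ) ^ 2 * W.card)) := by gcongr
      _ = _ := by ring
  exact le_of_mul_le_mul_left h8 (by positivity)

end Vale.Agent.P015.M
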