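import Vale.Agent.P015.M.Defs4

/-! # P015, the moat theorem: module T4d (piece selection) -/

namespace Vale.Agent.P015.M

open Finset hiding box
open Vale.Agent.P006.CLS Vale.Agent.P015.H222

namespace T4dA

theorem card_box' (L : ℕ) : (box L).card = (2 * L + 1) ^ 2 := by
  have h : (Finset.Icc (-(L : ℤ)) L).card = 2 * L + 1 := by
    rw [Int.card_Icc]; omega
  rw [box, Finset.card_product, h, sq]

/-- an injective walk leaves the box -/
theorem exit_exists {K N : ℕ} {g : ℕ → ℤ × ℤ} (hg : ∀ a ≤ N, ∀ b ≤ N, g a = g b → a = b)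
    {s : ℕ} (hs : s + (2 * K + 1) ^ 2 ≤ N) : ∃ t, s ≤ t ∧ t ≤ N ∧ g t - g s ∉ box K := by
  by_contra hcon
  push Not at hcon
  have h1 : (Finset.Icc s N).card ≤ (box K).card := by
    apply Finset.card_le_card_of_injOn (fun t => g t - g s)
    · intro t ht
      rw [Finset.mem_coe, Finset.mem_Icc] at ht
      exact hcon t ht.1 ht.2
    · intro t ht t' ht' htt
      rw [Finset.mem_coe, Finset.mem_Icc] at ht ht'
      have : g t = g t' := by simpa using htt
      exact hg t ht.2 t' ht'.2 this
  rw [card_box', Nat.card_Icc] at h1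
  omega

end T4dA

open T4dA

/-- **T4d** -/
theorem t4d : T4dStmt := by
  intro D K N δ ε F g hD hK hinj hstep hF hsum hε hδ hN
  by_contra hcon
  push Not at hcon
  -- the set of good starting times
  have hex : ∃ s ≤ N, ε * (s : ℝ) ≤ ∑ t ∈ range s, F t ∧
      ∀ s' ≤ N, ε * (s' : ℝ) ≤ ∑ t ∈ range s', F t → s' ≤ s := by
    have hfin : ((Finset.range (N + 1)).filter
        (fun s : ℕ => ε * (s : ℝ) ≤ ∑ t ∈ range s, F t)).Nonempty :=
      ⟨0, by simp⟩
    obtain ⟨s, hs, hmax⟩ := Finset.exists_max_image _ (fun s => s) hfin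
    rw [Finset.mem_filter, Finset.mem_range] at hs
    refine ⟨s, by omega, hs.2, fun s' hs' h => hmax s' ?_⟩
    rw [Finset.mem_filter, Finset.mem_range]
    exact ⟨by omega, h⟩
  obtain ⟨s, hsN, hs, hmax⟩ := hex
  have hs2 : N < s + (2 * K + 1) ^ 2 := by
    by_contra hlt
    push Not at hlt
    have hlt' : s + (2 * (K - D) + 1) ^ 2 ≤ N := by
      have : (2 * (K - D) + 1) ^ 2 ≤ (2 * K + 1) ^ 2 := Nat.pow_le_pow_left (by omega) 2
      omega
    have hE := exit_exists (K := K - D) hinj hlt'
    have hE' : ∃ t, s ≤ t ∧ t ≤ N ∧ g t - g s ∉ box (K - D) := hE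
    obtain ⟨he1, he2, he3⟩ := Nat.find_spec hE'
    set e := Nat.find hE' with he
    have hmin : ∀ t, s ≤ t → t < e → g t - g s ∈ box (K - D) := by
      intro t h1 h2
      by_contra h3
      have := Nat.find_min hE' h2
      exact this ⟨h1, by omega, h3⟩
    have hse : s < e := by
      rcases Nat.lt_or_ge s e with h | h
      · exact h
      · exfalso
        have : e = s := le_antisymm h he1
        rw [this, sub_self] at he3
        exact he3 (by rw [mem_box]; simp)
    have h4 := hcon s e hse he2 hmin he3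
    have h5 : ε * (e : ℝ) ≤ ∑ t ∈ range e, F t := by
      rw [← Finset.sum_range_add_sum_Ico _ (le_of_lt hse)]
      have h6 : ((e - s : ℕ) : ℝ) = (e : ℝ) - s := by
        rw [Nat.cast_sub (le_of_lt hse)]
      rw [h6] at h4
      nlinarith
    have := hmax e he2 h5
    omega
  have h7 : ∑ t ∈ range s, F t ≤ ∑ t ∈ range (N + 1), F t :=
    Finset.sum_le_sum_of_subset_of_nonneg (Finset.range_subset_range.2 (by omega))
      (fun t _ _ => hF t)
  have h8 : N ≤ 2 * s := by omega
  have h9 : (N : ℝ) ≤ 2 * s := by exact_mod_cast h8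
  have h10 : (0 : ℝ) < N := by
    have : 0 < N := by
      have : 0 < (2 * K + 1) ^ 2 := by positivity
      omega
    exact_mod_cast this
  nlinarith

end Vale.Agent.P015.M
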