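import Vale.Agent.P015.M.Defs4

/-! # P015, the moat theorem: module T4e (peeling) -/

namespace Vale.Agent.P015.M

open Finset hiding box
open Vale.Agent.P006.CLS Vale.Agent.P015.H222 Vale.Agent.P015.R2.H116

namespace T4eA

/-- grid cell of side `s` -/
def gcell (s : ℕ) (w : ℤ × ℤ) : ℤ × ℤ := (w.1 / s, w.2 / s)

/-- the scales `2 ^ j` -/
def scales (K : ℕ) : Finset ℕ := (range (Nat.log 2 K + 1)).filter (fun j => 8 * 2 ^ j ≤ K)

/-- every cell that meets `V` contains many points of `V` -/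
def Thick (K : ℕ) (Λ : ℝ) (V : Finset (ℤ × ℤ)) : Prop := ∀ j ∈ scales K, ∀ w ∈ V,
  (2 : ℝ) ^ j ≤ Λ * ((V.filter (fun u => gcell (2 ^ j) u = gcell (2 ^ j) w)).card : ℝ)

/-- the potential -/
noncomputable def pot (K : ℕ) (Λ : ℝ) (V : Finset (ℤ × ℤ)) : ℝ :=
  ∑ j ∈ scales K, (2 : ℝ) ^ j / Λ * ((V.image (gcell (2 ^ j))).card : ℝ)

theorem pot_nonneg {K : ℕ} {Λ : ℝ} (hΛ : 0 < Λ) (V : Finset (ℤ × ℤ)) : 0 ≤ pot K Λ V := by
  unfold pot
  refine Finset.sum_nonneg fun j _ => ?_
  have h1 : (0 : ℝ) ≤ (2 : ℝ) ^ j / Λ := by positivity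
  exact mul_nonneg h1 (Nat.cast_nonneg _)

theorem peel {K : ℕ} {Λ : ℝ} (hΛ : 0 < Λ) : ∀ (n : ℕ) (V₁ : Finset (ℤ × ℤ)), V₁.card = n →
    ∃ V ⊆ V₁, Thick K Λ V ∧ (V₁.card : ℝ) ≤ V.card + pot K Λ V₁ := by
  classical
  intro n
  induction n using Nat.strong_induction_on with
  | _ n ih =>
    intro V₁ hn
    by_cases hth : Thick K Λ V₁
    · exact ⟨V₁, Subset.rfl, hth, by have := pot_nonneg (K := K) hΛ V₁; linarith⟩
    unfold Thick at hth
    push Not at hth
    obtain ⟨j, hj, w, hw, hlt⟩ := hth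
    set C := V₁.filter (fun u => gcell (2 ^ j) u = gcell (2 ^ j) w) with hC
    set V₂ := V₁.filter (fun u => ¬ gcell (2 ^ j) u = gcell (2 ^ j) w) with hV₂
    have hsum : C.card + V₂.card = V₁.card := Finset.card_filter_add_card_filter_not _
    have hwC : w ∈ C := by rw [hC, Finset.mem_filter]; exact ⟨hw, rfl⟩
    have hCpos : 0 < C.card := Finset.card_pos.2 ⟨w, hwC⟩
    obtain ⟨V, hV, hV1, hV2⟩ := ih V₂.card (by omega) V₂ rfl
    refine ⟨V, hV.trans (Finset.filter_subset _ _), hV1, ?_⟩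
    have himg : ∀ i, ((V₂.image (gcell (2 ^ i))).card : ℝ) ≤ ((V₁.image (gcell (2 ^ i))).card : ℝ) := by
      intro i
      exact_mod_cast Finset.card_le_card (Finset.image_subset_image (Finset.filter_subset _ _))
    have himgj : ((V₂.image (gcell (2 ^ j))).card : ℝ) + 1 ≤
        ((V₁.image (gcell (2 ^ j))).card : ℝ) := by
      have h1 : V₂.image (gcell (2 ^ j)) ⊆ (V₁.image (gcell (2 ^ j))).erase (gcell (2 ^ j) w) := by
        intro κ hκ
        rw [Finset.mem_image] at hκ
        obtain ⟨u, hu, rfl⟩ := hκ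
        rw [hV₂, Finset.mem_filter] at hu
        rw [Finset.mem_erase]
        exact ⟨hu.2, Finset.mem_image_of_mem _ hu.1⟩
      have h2 := Finset.card_le_card h1
      rw [Finset.card_erase_of_mem (Finset.mem_image_of_mem _ hw)] at h2
      have h3 : 0 < (V₁.image (gcell (2 ^ j))).card :=
        Finset.card_pos.2 ⟨_, Finset.mem_image_of_mem _ hw⟩
      have h4 : (V₂.image (gcell (2 ^ j))).card + 1 ≤ (V₁.image (gcell (2 ^ j))).card := by omega
      exact_mod_cast h4
    have hpot : pot K Λ V₂ + (2 : ℝ) ^ j / Λ ≤ pot K Λ V₁ := by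
      unfold pot
      rw [← Finset.add_sum_erase _ _ hj, ← Finset.add_sum_erase _ _ hj]
      have h1 : ∑ x ∈ (scales K).erase j, (2 : ℝ) ^ x / Λ * ((V₂.image (gcell (2 ^ x))).card : ℝ) ≤
          ∑ x ∈ (scales K).erase j, (2 : ℝ) ^ x / Λ * ((V₁.image (gcell (2 ^ x))).card : ℝ) := by
        apply Finset.sum_le_sum
        intro i _
        exact mul_le_mul_of_nonneg_left (himg i) (by positivity)
      have h2 : (0 : ℝ) < (2 : ℝ) ^ j / Λ := by positivity
      have h3 := mul_le_mul_of_nonneg_left himgj (le_of_lt h2)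
      linarith
    have hCr : (C.card : ℝ) ≤ (2 : ℝ) ^ j / Λ := by
      rw [le_div_iff₀ hΛ]
      linarith
    have hs : (V₁.card : ℝ) = C.card + V₂.card := by exact_mod_cast hsum.symm
    linarith

theorem cells_count {s : ℕ} (hs : 1 ≤ s) {c : ℝ} {W : Finset (ℤ × ℤ)}
    (h : ∀ w ∈ W, (s : ℝ) ≤ c * ((W.filter (fun u => u - w ∈ box s)).card : ℝ)) (hc : 0 < c) :
    (s : ℝ) * ((W.image (gcell s)).card : ℝ) ≤ 9 * c * W.card := by
  classical
  -- the neighbourhood of a cell
  have h1 : ∀ κ ∈ W.image (gcell s), (s : ℝ) ≤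
      c * ((W.filter (fun u => gcell s u - κ ∈ box 1)).card : ℝ) := by
    intro κ hκ
    rw [Finset.mem_image] at hκ
    obtain ⟨w, hw, rfl⟩ := hκ
    refine (h w hw).trans ?_
    apply mul_le_mul_of_nonneg_left _ (le_of_lt hc)
    have : (W.filter (fun u => u - w ∈ box s)) ⊆
        (W.filter (fun u => gcell s u - gcell s w ∈ box 1)) := by
      intro u hu
      rw [Finset.mem_filter, mem_box] at hu ⊢
      obtain ⟨hu0, ⟨hu1, hu2⟩, hu3, hu4⟩ := hu
      refine ⟨hu0, ?_⟩
      have hs0 : (0 : ℤ) < s := by exact_mod_cast hs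
      have key : ∀ a b : ℤ, -(s : ℤ) ≤ a - b → a - b ≤ s →
          -1 ≤ a / s - b / s ∧ a / s - b / s ≤ 1 := by
        intro a b h1 h2
        have e1 : (b + s) / (s : ℤ) = b / s + 1 := by
          rw [Int.add_ediv_of_dvd_right (dvd_refl _), Int.ediv_self (ne_of_gt hs0)]
        have e2 : (b - s) / (s : ℤ) = b / s - 1 := by
          have := Int.add_mul_ediv_right b (-1) (ne_of_gt hs0)
          have e3 : b + -1 * (s : ℤ) = b - s := by ring
          rw [e3] at this
          rw [this]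
          ring
        have h3 : a / s ≤ (b + s) / s := Int.ediv_le_ediv hs0 (by linarith)
        have h4 : (b - s) / s ≤ a / s := Int.ediv_le_ediv hs0 (by linarith)
        constructor <;> linarith
      simp only [gcell, Prod.fst_sub, Prod.snd_sub] at *
      exact ⟨by simpa using key _ _ hu1 hu2, by simpa using key _ _ hu3 hu4⟩
    exact_mod_cast Finset.card_le_card this
  have h2 : ((s : ℝ) * ((W.image (gcell s)).card : ℝ)) ≤
      ∑ κ ∈ W.image (gcell s), c * ((W.filter (fun u => gcell s u - κ ∈ box 1)).card : ℝ) := by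
    have := Finset.sum_le_sum h1
    rw [Finset.sum_const, nsmul_eq_mul] at this
    linarith
  refine h2.trans ?_
  rw [← Finset.mul_sum]
  have h3 : (∑ κ ∈ W.image (gcell s), (W.filter (fun u => gcell s u - κ ∈ box 1)).card) ≤
      W.card * 9 := by
    have e : ∀ κ, (W.filter (fun u => gcell s u - κ ∈ box 1)).card =
        ∑ u ∈ W, if gcell s u - κ ∈ box 1 then 1 else 0 := by
      intro κ; rw [Finset.card_filter]
    simp only [e]
    rw [Finset.sum_comm]
    apply Finset.sum_le_card_nsmul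
    intro u _
    rw [← Finset.card_filter]
    have h9 : (box 1).card = 9 := by decide +kernel
    rw [← h9]
    apply Finset.card_le_card_of_injOn (fun κ => gcell s u - κ)
    · intro κ hκ
      rw [Finset.mem_coe, Finset.mem_filter] at hκ
      exact hκ.2
    · intro κ _ κ' _ hh
      simpa using hh
  have h4 : ((∑ κ ∈ W.image (gcell s), (W.filter (fun u => gcell s u - κ ∈ box 1)).card : ℕ) : ℝ) ≤
      W.card * 9 := by exact_mod_cast h3
  push_cast at h4
  nlinarith

end T4eA

open T4eA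

/-- **T4e** -/
theorem t4e : T4eStmt := by
  classical
  intro D K c Λ W V₁ _ hV₁ hc hΛ hW
  have hΛ2 : 0 < Λ / 2 := by positivity
  obtain ⟨V, hV, hth, hcard⟩ := peel (K := K) hΛ2 V₁.card V₁ rfl
  refine ⟨V, hV, ?_, ?_⟩
  · intro w hw m hm
    rcases Nat.eq_zero_or_pos m with rfl | hm0
    · simp only [Nat.cast_zero]
      positivity
    set j := Nat.log 2 m with hj
    have hj1 : 2 ^ j ≤ m := Nat.pow_log_le_self 2 (by omega)
    have hj2 : m < 2 ^ (j + 1) := Nat.lt_pow_succ_log_self (by norm_num) m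
    have hjs : j ∈ scales K := by
      rw [scales, Finset.mem_filter, Finset.mem_range]
      refine ⟨?_, by omega⟩
      have : j ≤ Nat.log 2 K := Nat.log_mono_right (by omega)
      omega
    have h1 := hth j hjs w hw
    have h2 : (V.filter (fun u => gcell (2 ^ j) u = gcell (2 ^ j) w)) ⊆
        (V.filter (fun u => u - w ∈ box m)) := by
      intro u hu
      rw [Finset.mem_filter] at hu ⊢
      refine ⟨hu.1, ?_⟩
      have h3 := hu.2
      simp only [gcell, Prod.mk.injEq] at h3
      have hs0 : (0 : ℤ) < ((2 ^ j : ℕ) : ℤ) := by positivity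
      have key : ∀ a b : ℤ, a / ((2 ^ j : ℕ) : ℤ) = b / ((2 ^ j : ℕ) : ℤ) →
          -(m : ℤ) ≤ a - b ∧ a - b ≤ m := by
        intro a b hab
        have e1 := Int.emod_add_mul_ediv a ((2 ^ j : ℕ) : ℤ)
        have e2 := Int.emod_add_mul_ediv b ((2 ^ j : ℕ) : ℤ)
        have e3 := Int.emod_nonneg a (ne_of_gt hs0)
        have e4 := Int.emod_nonneg b (ne_of_gt hs0)
        have e5 := Int.emod_lt_of_pos a hs0
        have e6 := Int.emod_lt_of_pos b hs0
        rw [hab] at e1
        have e7 : ((2 ^ j : ℕ) : ℤ) ≤ m := by exact_mod_cast hj1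
        constructor <;> linarith
      rw [mem_box, Prod.fst_sub, Prod.snd_sub]
      exact ⟨key _ _ h3.1, key _ _ h3.2⟩
    have h3 : ((V.filter (fun u => gcell (2 ^ j) u = gcell (2 ^ j) w)).card : ℝ) ≤
        ((V.filter (fun u => u - w ∈ box m)).card : ℝ) := by
      exact_mod_cast Finset.card_le_card h2
    have h4 : (m : ℝ) ≤ 2 * 2 ^ j := by
      have : m ≤ 2 * 2 ^ j := by rw [pow_succ] at hj2; omega
      exact_mod_cast this
    have h5 := mul_le_mul_of_nonneg_left h3 (le_of_lt hΛ)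
    nlinarith
  · refine hcard.trans ?_
    have hpot : pot K (Λ / 2) V₁ ≤ 100 * c * (Nat.log 2 K + 1) * W.card / Λ := by
      unfold pot
      have h1 : ∀ j ∈ scales K, (2 : ℝ) ^ j / (Λ / 2) * ((V₁.image (gcell (2 ^ j))).card : ℝ) ≤
          18 * c * W.card / Λ := by
        intro j hj
        rw [scales, Finset.mem_filter, Finset.mem_range] at hj
        have h2 : ((V₁.image (gcell (2 ^ j))).card : ℝ) ≤ ((W.image (gcell (2 ^ j))).card : ℝ) := by
          exact_mod_cast Finset.card_le_card (Finset.image_subset_image hV₁)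
        have h3 := cells_count (s := 2 ^ j) Nat.one_le_two_pow
          (fun w hw => hW w hw (2 ^ j) hj.2) hc
        push_cast at h3
        have h4 : (2 : ℝ) ^ j / (Λ / 2) * ((V₁.image (gcell (2 ^ j))).card : ℝ) =
            2 * ((2 : ℝ) ^ j * ((V₁.image (gcell (2 ^ j))).card : ℝ)) / Λ := by
          field_simp
        rw [h4]
        apply div_le_div_of_nonneg_right _ (le_of_lt hΛ)
        have h5 : (2 : ℝ) ^ j * ((V₁.image (gcell (2 ^ j))).card : ℝ) ≤
            (2 : ℝ) ^ j * ((W.image (gcell (2 ^ j))).card : ℝ) :=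
          mul_le_mul_of_nonneg_left h2 (by positivity)
        linarith
      have h6 := Finset.sum_le_card_nsmul _ _ _ h1
      refine h6.trans ?_
      rw [nsmul_eq_mul]
      have h7 : (scales K).card ≤ Nat.log 2 K + 1 := by
        refine (Finset.card_filter_le _ _).trans ?_
        rw [Finset.card_range]
      have h8 : ((scales K).card : ℝ) ≤ Nat.log 2 K + 1 := by exact_mod_cast h7
      have h9 : (0 : ℝ) ≤ 18 * c * W.card / Λ := by positivity
      calc ((scales K).card : ℝ) * (18 * c * W.card / Λ)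
          ≤ (Nat.log 2 K + 1) * (18 * c * W.card / Λ) := mul_le_mul_of_nonneg_right h8 h9
        _ ≤ 100 * c * (Nat.log 2 K + 1) * W.card / Λ := by
          rw [mul_div_assoc', div_le_div_iff_of_pos_right hΛ]
          have h10 : (0 : ℝ) ≤ c * W.card * (Nat.log 2 K + 1) := by positivity
          nlinarith
    linarith

end Vale.Agent.P015.M
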