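import Vale.Agent.P015.M.FIN
import Vale.Agent.P015.M.T1
import Vale.Agent.P015.M.T2
import Vale.Agent.P015.M.ED
import Vale.Agent.P015.M.SA
import Vale.Agent.P015.M.PS
import Vale.Agent.P015.M.T4
import Vale.Agent.P015.M.T4a
import Vale.Agent.P015.M.T4b
import Vale.Agent.P015.M.T4c
import Vale.Agent.P015.M.T4d
import Vale.Agent.P015.M.T4e
import Vale.Agent.P015.M.LB
import Vale.Agent.P015.M.LA
import Vale.Agent.P015.M.ST
import Vale.Agent.P015.M.SS
import Vale.Agent.P015.M.END

namespace Vale.Agent.P015.M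

theorem goalC : GoalStmt :=
  FIN.goal_of (t1 (ss lb la stage)) t2 ed sa ps (cover t4a (t4b t4c t4d t4e))

end Vale.Agent.P015.M
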