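import Vale.Agent.P015.R2.H222.Level3
import Vale.Agent.P015.R2.H116.Defs

/-!
# P015, the moat theorem: definitions and statements of the modules

`box L` is the square `[-L, L]²` of `ℤ × ℤ`, `lf s w = w.1 + s * w.2`,
`Rts r P` says that `r p` is a root of `-1` modulo the prime `p` for all `p ∈ P`.
-/

namespace Vale.Agent.P015.M

open Finset hiding box
open Vale.Agent.P006.CLS Vale.Agent.P015.H222
open scoped Pointwise

/-! ## residues -/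

/-- the residues of `w` modulo the primes of `P` (the value of the linear form) -/
noncomputable def res (r : ℕ → ℤ) (P : Finset ℕ) : ℤ × ℤ →+ (∀ p : ℕ, ZMod p) where
  toFun w p := if p ∈ P then ((lf (r p) w : ℤ) : ZMod p) else 0
  map_zero' := by
    ext p
    simp [lf]
  map_add' u v := by
    ext p
    simp only [lf, Prod.fst_add, Prod.snd_add, Pi.add_apply]
    split_ifs
    · push_cast; ring
    · simp

theorem res_apply (r : ℕ → ℤ) (P : Finset ℕ) (w : ℤ × ℤ) (p : ℕ) :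
    res r P w p = if p ∈ P then ((lf (r p) w : ℤ) : ZMod p) else 0 := rfl

/-- the product of the primes of a part -/
def qq (P : Finset ℕ) : ℕ := ∏ p ∈ P, p

/-- the number of residues of the points `w i`, `i ≤ n` -/
noncomputable def nres (r : ℕ → ℤ) (P : Finset ℕ) (w : ℕ → ℤ × ℤ) (n : ℕ) : ℕ := by
  classical
  exact ((range (n + 1)).image (fun i => res r P (w i))).card

/-- the parts `P a`, `a < B`: disjoint sets of primes with roots, with product `exp (~ s)` -/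
structure Parts (r : ℕ → ℤ) (P : ℕ → Finset ℕ) (B : ℕ) (e s : ℝ) : Prop where
  rts : ∀ a < B, Rts r (P a)
  disj : ∀ a < B, ∀ b < B, a ≠ b → Disjoint (P a) (P b)
  low : ∀ a < B, (1 - e) * s ≤ Real.log (qq (P a))
  up : ∀ a < B, Real.log (qq (P a)) ≤ s

/-! ## chains and components -/

/-- reachable from `0` by steps in `box L` through points of `S` -/
def Reach (L : ℕ) (S : Set (ℤ × ℤ)) (v : ℤ × ℤ) : Prop :=
  Relation.ReflTransGen (fun x y => y ∈ S ∧ y - x ∈ box L) 0 v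

/-- the `L`-component of `0` in `S ∩ box ρ` -/
noncomputable def comp (L ρ : ℕ) (S : Set (ℤ × ℤ)) : Finset (ℤ × ℤ) := by
  classical
  exact (box ρ).filter (fun v => Reach L (S ∩ (box ρ : Finset (ℤ × ℤ))) v)

/-- a finite set that contains `0` and is connected by steps in `box L` -/
structure Conn (L : ℕ) (A : Finset (ℤ × ℤ)) : Prop where
  zero : (0 : ℤ × ℤ) ∈ A
  reach : ∀ v ∈ A, Reach L (A : Set (ℤ × ℤ)) v

/-! ## module LB (crossing) -/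

/-- **Lemma B** -/
def LBStmt : Prop := ∀ (L : ℕ) (A : Finset (ℤ × ℤ)), Conn L A → ∀ a ∈ A, ∀ b ∈ A,
  |a.1 * b.2 - a.2 * b.1| ≤ (4 * L + 1) ^ 2 * ((A - A).card : ℤ)

/-! ## module LA (non-alignment) -/

/-- **Lemma A**: `2 J` parts; among them there are `J` parts whose kernel misses the nonzero
vectors of `R` -/
def LAStmt : Prop := ∀ (r : ℕ → ℤ) (J : ℕ) (P : ℕ → Finset ℕ), 1 ≤ J →
  (∀ a < 2 * J, Rts r (P a)) → (∀ a < 2 * J, ∀ b < 2 * J, a ≠ b → Disjoint (P a) (P b)) →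
  ∀ (R : Set (ℤ × ℤ)) (h Δ : ℕ),
  (∀ V ∈ R, V ∈ box h) → (∀ V ∈ R, ∀ V' ∈ R, |V.1 * V'.2 - V.2 * V'.1| ≤ (Δ : ℤ)) →
  (∀ T ⊆ range (2 * J), T.card = J - 1 → Δ < ∏ a ∈ T, qq (P a)) →
  (∀ T ⊆ range (2 * J), T.card = J → 2 * h < ∏ a ∈ T, qq (P a)) →
  ∃ T ⊆ range (2 * J), T.card = J ∧ ∀ V ∈ R, (∀ a ∈ T, res r (P a) V = 0) → V = 0

/-! ## systems -/

/-- a homomorphism from the plane to an abelian group, and a finite set of classes -/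
structure Sys where
  G : Type
  [grp : AddCommGroup G]
  φ : ℤ × ℤ →+ G
  E : Finset G

attribute [instance] Sys.grp

/-- the points that may be added to `x` -/
def Sys.web (S : Sys) (x : S.G) : Set (ℤ × ℤ) := {w | x + S.φ w ∈ S.E}

/-- the component of `0` of the web of `x` in `box ρ` -/
noncomputable def Sys.A (S : Sys) (L ρ : ℕ) (x : S.G) : Finset (ℤ × ℤ) := comp L ρ (S.web x)

/-- the component reaches outside `box ρ'` -/
def Sys.Long (S : Sys) (L ρ' ρ : ℕ) (x : S.G) : Prop := ∃ w ∈ S.A L ρ x, w ∉ box ρ'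

/-- product of systems -/
noncomputable def Sys.prod {n : ℕ} (S : Fin n → Sys) : Sys where
  G := ∀ i, (S i).G
  φ := AddMonoidHom.pi (fun i => (S i).φ)
  E := Fintype.piFinset (fun i => (S i).E)

/-- most classes have short or small components -/
def Sys.Small (S : Sys) (L ρ' ρ : ℕ) (M η : ℝ) : Prop := by
  classical
  exact ((S.E.filter (fun x => S.Long L ρ' ρ x ∧ M < ((S.A L ρ x).card : ℝ))).card : ℝ) ≤
    η * S.E.card

/-- a long connected set in the web of `x ∈ E` with at most `M` differences has at most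
`m` points -/
def Sys.Cap (S : Sys) (L ρ' ρ : ℕ) (M m : ℝ) : Prop := ∀ x ∈ S.E, ∀ A : Finset (ℤ × ℤ),
  Conn L A → A ⊆ box ρ → (∃ w ∈ A, w ∉ box ρ') → (∀ w ∈ A, x + S.φ w ∈ S.E) →
  ((A - A).card : ℝ) ≤ M → (A.card : ℝ) ≤ m

/-! ## module ST (stage lemma) -/

open Classical in
/-- **Stage lemma** -/
def StageStmt : Prop := ∀ (n : ℕ) (S : Fin n → Sys) (L ρ ρ' ρ'' : ℕ) (M η τ : ℝ), 0 < τ →
  0 ≤ M → 0 ≤ η → 2 * ρ'' ≤ ρ' → 1 ≤ n → (∀ i, (S i).Small L ρ'' (2 * ρ) M η) →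
  (((Sys.prod S).E.filter (fun x => (Sys.prod S).Long L ρ' ρ x ∧
    M / τ < (((Sys.prod S).A L ρ x - (Sys.prod S).A L ρ x).card : ℝ))).card : ℝ) ≤
    (((box ρ).card : ℝ) * n * η + ((box ρ).card : ℝ) * (box (2 * ρ)).card * τ ^ n) *
      (Sys.prod S).E.card

/-! ## module S and T1 -/

/-- **(S)**: one group of `B` parts saves `exp (s / ε)` -/
def SStmt : Prop := ∀ c : ℝ, 0 < c → c < 1 → ∃ (B : ℕ) (ε s₀ : ℝ), 1 ≤ B ∧ 0 < ε ∧ ε ≤ 1 ∧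
  ∀ s : ℝ, s₀ ≤ s → ∀ (r : ℕ → ℤ) (P : ℕ → Finset ℕ), Parts r P B (c / 4) s →
  ∀ (L n : ℕ) (w : ℕ → ℤ × ℤ), Real.log L ≤ s → (∀ i < n, w (i + 1) - w i ∈ box L) →
  (∀ a < B, (nres r (P a) w n : ℝ) ≤ Real.exp ((1 - c) * s)) →
  (∃ i ≤ n, ∃ j ≤ n, ∃ m : ℕ, Real.exp (2 * s / ε) ≤ m ∧ w i - w j ∉ box m) →
  (nres r ((range B).biUnion P) w n : ℝ) * Real.exp (s / ε) ≤ ∏ a ∈ range B, (nres r (P a) w n : ℝ)

/-- **T1**: the no-path theorem -/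
def T1Stmt : Prop := ∀ c : ℝ, 0 < c → c < 1 → ∃ (B : ℕ) (ρ s₀ : ℝ), 1 ≤ B ∧ 1 ≤ ρ ∧
  ∀ s : ℝ, s₀ ≤ s → ∀ (r : ℕ → ℤ) (P : ℕ → Finset ℕ), Parts r P B (c / 4) s →
  ∀ (L n : ℕ) (w : ℕ → ℤ × ℤ), Real.log L ≤ s → (∀ i < n, w (i + 1) - w i ∈ box L) →
  (∀ a < B, (nres r (P a) w n : ℝ) ≤ Real.exp ((1 - c) * s)) →
  ∀ i ≤ n, ∀ j ≤ n, ∀ m : ℕ, Real.exp (ρ * s) ≤ m → w i - w j ∈ box m

/-! ## module T2 (tree) -/

/-- rich sets of times: `n` levels remain, the next one is level `i`; `key i a t` is the class of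
the time `t` for the part `a < B` of level `i`, `thr i` the threshold -/
def Rich {R : Type} (B : ℕ) (key : ℕ → ℕ → ℕ → R) (thr : ℕ → ℝ) : ℕ → ℕ → Finset ℕ → Prop
  | 0, _, v => v.Nonempty
  | n + 1, i, v => by
    classical
    exact ∃ a < B, thr i ≤ (((v.image (key i a)).filter (fun y =>
      Rich B key thr n (i + 1) (v.filter (fun t => key i a t = y)))).card : ℝ)

/-- **T2**: if thin sets of times have no long chains, a long walk is rich -/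
def T2Stmt : Prop := ∀ (R : Type) (B n M D : ℕ) (key : ℕ → ℕ → ℕ → R) (thr θ K : ℕ → ℝ)
  (g : ℕ → ℤ × ℤ) (Ls ρs : ℕ → ℕ), 1 ≤ B → 1 ≤ n → (∀ i < n, 0 ≤ thr i) →
  (∀ t < M, g (t + 1) - g t ∈ box D) →
  -- number of classes of a part of level `i`
  (∀ i < n, ∀ a < B, (Set.ncard (key i a '' {t | t ≤ M}) : ℝ) ≤ K i) →
  -- thin sets: `θ i` bounds (number of nodes above level `i`) times the threshold
  (∀ i < n, (∏ j ∈ range i, (B * K j)) * thr i ≤ θ i) →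
  -- thin chains of times are short
  (∀ i < n, ∀ (m : ℕ) (τ : ℕ → ℕ), (∀ j ≤ m, τ j ≤ M) → (∀ j < m, τ j < τ (j + 1)) →
    (∀ j < m, g (τ (j + 1)) - g (τ j) ∈ box (Ls i)) →
    (∀ a < B, (Set.ncard ((fun j => key i a (τ j)) '' {j | j ≤ m}) : ℝ) ≤ θ i) →
    ∀ j ≤ m, ∀ j' ≤ m, g (τ j) - g (τ j') ∈ box (ρs i)) →
  -- compatibility of the scales
  D ≤ Ls 0 → (∀ i, i + 1 < n → 2 * ρs i + 4 * D ≤ Ls (i + 1)) →
  (∀ i, i + 1 < n → 4 * ρs i + 4 * D ≤ ρs (i + 1)) →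
  (∃ t ≤ M, ∃ t' ≤ M, g t - g t' ∉ box (2 * ρs (n - 1) + 2 * D)) →
  Rich B key thr n 0 (range (M + 1))

/-! ## module ED (entropy decrement) -/

/-- average of `F` over `b` independent samples `d u`, `u ∈ U` uniform -/
noncomputable def Avg {U X : Type} [Fintype U] (d : U → X) (b : ℕ) (F : (Fin b → X) → ℝ) : ℝ :=
  (∑ u : Fin b → U, F (fun i => d (u i))) / (Fintype.card U : ℝ) ^ b

/-- **ED**: entropy decrement on the tree -/
def EDStmt : Prop := ∀ (U X R : Type) [Fintype U] [Nonempty U] [Fintype X] (d : ℕ → U → X)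
  (B n : ℕ) (key : ℕ → ℕ → ℕ → R) (thr : ℕ → ℝ) (b : ℕ → ℕ)
  (cnt : ∀ i : ℕ, ℕ → (Fin (b i) → X) → ℝ) (f : ℕ → ℕ → ℝ) (v : Finset ℕ),
  1 ≤ n → (∀ i < n, 1 ≤ thr i) → (∀ i < n, 0 < b i) → (∀ i, i + 1 < n → b i ∣ b (i + 1)) →
  -- `cnt i a x` bounds the number of classes compatible with the data `x`
  (∀ i < n, ∀ a < B, ∀ x : Fin (b i) → X, (∃ t ∈ v, ∃ u : Fin (b i) → U, ∀ j, x j = d t (u j)) →
    (Set.ncard {y | ∃ t ∈ v, key i a t = y ∧ ∃ u : Fin (b i) → U, ∀ j, x j = d t (u j)} : ℝ) ≤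
      cnt i a x) →
  (∀ i < n, ∀ a < B, ∀ t ∈ v,
    f i t * b i ≤ Real.log (thr i) - Avg (d t) (b i) (fun x => Real.log (cnt i a x))) →
  Rich B key thr n 0 v → ∃ t ∈ v, ∑ i ∈ range n, f i t ≤ Real.log (Fintype.card X)

/-! ## module SA (sampling) -/

/-- the number of classes modulo `p` of the points `g (u j + i)`, `i ≤ ℓ`, of the blocks with
starting times `u j` -/
noncomputable def hit {N ℓ b : ℕ} (r : ℕ → ℤ) (p : ℕ) (g : ℕ → ℤ × ℤ)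
    (u : Fin b → Fin (N - ℓ + 1)) : ℕ := by
  classical
  exact ((Finset.univ ×ˢ range (ℓ + 1)).image
    (fun x : Fin b × ℕ => ((lf (r p) (g ((u x.1 : ℕ) + x.2)) : ℤ) : ZMod p))).card

/-- **SA**: either the samples leave on average few classes, or there are many classes that are
rarely visited -/
def SAStmt : Prop := ∀ (r : ℕ → ℤ) (p D ℓ N b : ℕ) (Λ δ : ℝ) (g : ℕ → ℤ × ℤ),
  p.Prime → (p : ℤ) ∣ r p ^ 2 + 1 → (∀ a ≤ N, ∀ b ≤ N, g a = g b → a = b) →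
  (∀ t < N, g (t + 1) - g t ∈ box D) → 1 ≤ ℓ → 2 * (ℓ * D) ^ 2 < p → 2 ≤ Λ → 0 < δ → δ ≤ 1 →
  2 * ℓ ≤ N → 4 * Real.log Λ * p ≤ δ * (b * ℓ) → 4 * ℓ * Λ ≤ δ * N →
  (∀ u : Fin b → Fin (N - ℓ + 1), hit r p g u < p) →
  (∑ u : Fin b → Fin (N - ℓ + 1), Real.log ((p : ℝ) - hit r p g u)) /
      (Fintype.card (Fin (N - ℓ + 1)) : ℝ) ^ b ≤ Real.log p - Real.log Λ + Real.log 2 ∨
  ∃ T : Finset (ZMod p), (p : ℝ) ≤ Λ * T.card ∧
    (((range (N + 1)).filter (fun t => ((lf (r p) (g t) : ℤ) : ZMod p) ∈ T)).card : ℝ) * p ≤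
      δ * T.card * N

/-! ## module T4 (coverage) -/

/-- at the level `z` the walk `g 0, …, g N` visits the classes `T p`, `p ∈ P`, rarely -/
structure Bad (r : ℕ → ℤ) (g : ℕ → ℤ × ℤ) (N : ℕ) (Λ δ : ℝ) (z : ℕ) (P : Finset ℕ)
    (T : ∀ p : ℕ, Finset (ZMod p)) : Prop where
  rts : Rts r P
  low : ∀ p ∈ P, z ≤ 2 * p
  up : ∀ p ∈ P, p ≤ z
  many : (z : ℝ) ≤ Λ * P.card
  dens : ∀ p ∈ P, (p : ℝ) ≤ Λ * (T p).card
  few : ∀ p ∈ P, (((range (N + 1)).filter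
    (fun t => ((lf (r p) (g t) : ℤ) : ZMod p) ∈ T p)).card : ℝ) * p ≤ δ * (T p).card * N

/-- **T4** -/
def CoverStmt : Prop := ∃ (H : ℕ) (δ : ℝ), 2 ≤ H ∧ 0 < δ ∧ δ ≤ 1 ∧ ∀ D : ℕ, ∃ Λ₀ : ℝ, ∀ Λ : ℝ,
  Λ₀ ≤ Λ → ∀ N : ℕ, Λ ^ H ≤ N → ∀ (r : ℕ → ℤ) (g : ℕ → ℤ × ℤ),
  (∀ a ≤ N, ∀ b ≤ N, g a = g b → a = b) → (∀ t < N, g (t + 1) - g t ∈ box D) →
  (∀ k : ℕ, 1 ≤ k → k < H → ∃ (z : ℕ) (P : Finset ℕ) (T : ∀ p : ℕ, Finset (ZMod p)),
    Λ ^ k ≤ z ∧ (z : ℝ) ≤ Λ ^ (k + 1) ∧ Bad r g N Λ δ z P T) → False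

/-! ## module PS (supply of primes) -/

/-- **PS**: `B` disjoint sets of `k ~ κ z / log z` primes in `[z / 2, z]` -/
def PSStmt : Prop := ∀ (r : ℕ → ℤ), (∀ p : ℕ, p.Prime → p % 4 = 1 → (p : ℤ) ∣ r p ^ 2 + 1) →
  ∀ B : ℕ, 1 ≤ B → ∃ κ : ℝ, 0 < κ ∧ κ ≤ 1 / 2 ∧ ∃ z₀ : ℕ, ∀ z : ℕ, z₀ ≤ z →
  ∃ (P : ℕ → Finset ℕ) (k : ℕ), (∀ a < B, Rts r (P a) ∧ (P a).card = k ∧
    ∀ p ∈ P a, p % 4 = 1 ∧ z ≤ 2 * p ∧ p ≤ z) ∧
    (∀ a < B, ∀ b < B, a ≠ b → Disjoint (P a) (P b)) ∧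
    κ * z ≤ k * Real.log z ∧ k * Real.log z ≤ 2 * κ * z

/-! ## the goal -/

/-- no infinite injective walk misses a class modulo every prime `1 mod 4` -/
def GoalStmt : Prop := ∀ (r : ℕ → ℤ), (∀ p : ℕ, p.Prime → p % 4 = 1 → (p : ℤ) ∣ r p ^ 2 + 1) →
  ∀ (D : ℕ) (g : ℕ → ℤ × ℤ), Function.Injective g → (∀ t, g (t + 1) - g t ∈ box D) →
  (∀ p : ℕ, p.Prime → p % 4 = 1 → ∃ c : ZMod p, ∀ t, ((lf (r p) (g t) : ℤ) : ZMod p) ≠ c) → False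

end Vale.Agent.P015.M
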