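import Vale.Agent.P015.M.Defs

/-! # P015, the moat theorem: module T4 (coverage), statements of its parts -/

namespace Vale.Agent.P015.M

open Finset hiding box
open Vale.Agent.P006.CLS Vale.Agent.P015.H222 Vale.Agent.P015.R2.H116
open scoped Pointwise

open Classical in
/-- the mean over `p ∈ P` of the normalised indicator of the classes `T p`;
its mean over equidistributed points is `1` -/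
noncomputable def GG (r : ℕ → ℤ) (P : Finset ℕ) (T : ∀ p : ℕ, Finset (ZMod p)) (w : ℤ × ℤ) : ℝ :=
  (∑ p ∈ P, if ((lf (r p) w : ℤ) : ZMod p) ∈ T p then (p : ℝ) / (T p).card else 0) / P.card

/-- **T4a**: two levels; uses `coupling` -/
def T4aStmt : Prop := ∃ a : ℕ, ∀ (Λ : ℝ) (V : Finset (ℤ × ℤ)) (K Q0 Q : ℕ), Cv V K Λ →
  ∀ (r : ℕ → ℤ) (P0 P : Finset ℕ) (T : ∀ p : ℕ, Finset (ZMod p)), Rts r P0 → Rts r P →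
  (∀ p ∈ P0, Q0 ≤ 2 * p ∧ p ≤ Q0) → (∀ p ∈ P, Q ≤ 2 * p ∧ p ≤ Q) →
  (Q0 : ℝ) ≤ Λ * P0.card → (Q : ℝ) ≤ Λ * P.card →
  (∀ p ∈ P0, (p : ℝ) ≤ Λ * (T p).card) → (∀ p ∈ P, (p : ℝ) ≤ Λ * (T p).card) →
  ∑ w ∈ V, GG r P0 T w ≤ V.card / 4 → ∑ w ∈ V, GG r P T w ≤ V.card / 4 →
  Λ ^ a ≤ Q0 → Q0 ^ 3 ≤ Q → Q ^ 4 ≤ K → False

/-- **T4c**: large sieve in a cell of side `z`: few points when `GG` is small on average -/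
def T4cStmt : Prop := ∀ (r : ℕ → ℤ) (P : Finset ℕ) (T : ∀ p : ℕ, Finset (ZMod p)) (z : ℕ) (Λ : ℝ),
  Rts r P → (∀ p ∈ P, p ≤ z) → 1 ≤ z → 1 ≤ Λ → (z : ℝ) ≤ Λ * P.card →
  (∀ p ∈ P, (p : ℝ) ≤ Λ * (T p).card) →
  ∀ (W : Finset (ℤ × ℤ)) (n₀ : ℤ × ℤ), (∀ w ∈ W, w - n₀ ∈ box z) →
  ∑ w ∈ W, GG r P T w ≤ W.card / 2 → (W.card : ℝ) ≤ 36 * C0 * Λ ^ 3 * z

/-- **T4d**: a piece of the walk on which finitely many functions `F k ≥ 0` with small mean have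
small mean -/
def T4dStmt : Prop := ∀ (D K N : ℕ) (δ ε : ℝ) (F : ℕ → ℝ) (g : ℕ → ℤ × ℤ), 1 ≤ D → D < K →
  (∀ a ≤ N, ∀ b ≤ N, g a = g b → a = b) → (∀ t < N, g (t + 1) - g t ∈ box D) →
  (∀ t, 0 ≤ F t) → ∑ t ∈ range (N + 1), F t ≤ δ * N → 0 < ε → 2 * δ < ε →
  2 * (2 * K + 1) ^ 2 ≤ N →
  ∃ s e : ℕ, s < e ∧ e ≤ N ∧ (∀ t, s ≤ t → t < e → g t - g s ∈ box (K - D)) ∧
    g e - g s ∉ box (K - D) ∧ ∑ t ∈ Ico s e, F t ≤ ε * (e - s : ℕ)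

/-- **T4e**: peeling -/
def T4eStmt : Prop := ∀ (D : ℕ) (K : ℕ) (c Λ : ℝ) (W V₁ : Finset (ℤ × ℤ)), 1 ≤ D → V₁ ⊆ W →
  0 < c → 0 < Λ → (∀ w ∈ W, ∀ m : ℕ, 8 * m ≤ K →
    (m : ℝ) ≤ c * ((W.filter (fun u => u - w ∈ box m)).card : ℝ)) →
  ∃ V ⊆ V₁, (∀ w ∈ V, ∀ m : ℕ, 8 * m ≤ K →
    (m : ℝ) ≤ Λ * ((V.filter (fun u => u - w ∈ box m)).card : ℝ)) ∧
    (V₁.card : ℝ) ≤ V.card + 100 * c * (Nat.log 2 K + 1) * W.card / Λ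

/-- **T4b**: regularisation. `V + v₀` is a part of the walk -/
def T4bStmt : Prop := ∃ A : ℕ, ∀ H : ℕ, 3 ≤ H → ∃ δ : ℝ, 0 < δ ∧ δ ≤ 1 ∧ ∀ D : ℕ, ∃ Λ₀ : ℝ,
  1 ≤ Λ₀ ∧ ∀ Λ : ℝ, Λ₀ ≤ Λ → ∀ N : ℕ, Λ ^ (2 * H) ≤ N → ∀ (r : ℕ → ℤ) (g : ℕ → ℤ × ℤ),
  (∀ a ≤ N, ∀ b ≤ N, g a = g b → a = b) → (∀ t < N, g (t + 1) - g t ∈ box D) →
  ∀ (z : ℕ → ℕ) (P : ℕ → Finset ℕ) (T : ℕ → ∀ p : ℕ, Finset (ZMod p)),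
  (∀ k : ℕ, 1 ≤ k → k < H → Λ ^ k ≤ z k ∧ (z k : ℝ) ≤ Λ ^ (k + 1) ∧
    Bad r g N Λ δ (z k) (P k) (T k)) →
  ∃ (V : Finset (ℤ × ℤ)) (K : ℕ) (v₀ : ℤ × ℤ), Λ ^ (H - 2) ≤ K ∧ Cv V K (Λ ^ A) ∧
    ∀ k : ℕ, 1 ≤ k → k < H → ∑ w ∈ V, GG r (P k) (T k) (w + v₀) ≤ V.card / 4

end Vale.Agent.P015.M
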