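import Vale.Agent.P015.M.Defs

/-! # P015, the moat theorem: subadditivity of the entropy of iid samples (for module ED) -/

namespace Vale.Agent.P015.M.ED

open Finset hiding box

theorem sum_pi {Z : Type} [Fintype Z] {k : ℕ} (f : Fin k → Z → ℝ) :
    ∑ z : Fin k → Z, ∏ i, f i (z i) = ∏ i, ∑ y, f i y := by
  classical
  rw [Finset.prod_univ_sum, Fintype.piFinset_univ]

section mix

variable {Z : Type} [Fintype Z] (L : ℕ → Z → ℝ) (v : Finset ℕ) (ν : ℕ → ℝ)

/-- mixture of the laws of `k` independent samples -/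
noncomputable def mix (k : ℕ) (z : Fin k → Z) : ℝ := ∑ t ∈ v, ν t * ∏ i, L t (z i)

variable {L v ν}

omit [Fintype Z] in
theorem mix_nonneg (hL : ∀ t y, 0 ≤ L t y) (hν : ∀ t, 0 ≤ ν t) (k : ℕ) (z : Fin k → Z) :
    0 ≤ mix L v ν k z :=
  Finset.sum_nonneg fun t _ => mul_nonneg (hν t) (Finset.prod_nonneg fun _ _ => hL t _)

theorem mix_sum (hL1 : ∀ t ∈ v, ∑ y, L t y = 1) (k : ℕ) :
    ∑ z, mix L v ν k z = ∑ t ∈ v, ν t := by
  unfold mix
  rw [Finset.sum_comm]
  refine Finset.sum_congr rfl fun t ht => ?_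
  rw [← Finset.mul_sum, sum_pi (fun _ => L t)]
  simp [hL1 t ht]

theorem mix_marg (hL1 : ∀ t ∈ v, ∑ y, L t y = 1) (k : ℕ) (i : Fin k) (φ : Z → ℝ) :
    ∑ z, mix L v ν k z * φ (z i) = ∑ y, (∑ t ∈ v, ν t * L t y) * φ y := by
  classical
  unfold mix
  simp only [Finset.sum_mul]
  rw [Finset.sum_comm]
  rw [Finset.sum_comm (s := (univ : Finset Z))]
  refine Finset.sum_congr rfl fun t ht => ?_
  have h1 : ∀ z : Fin k → Z, ν t * (∏ j, L t (z j)) * φ (z i) =
      ν t * ∏ j, (L t (z j) * (if j = i then φ (z j) else 1)) := by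
    intro z
    rw [Finset.prod_mul_distrib]
    have h2 : ∏ j, (if j = i then φ (z j) else 1) = φ (z i) := by
      rw [Finset.prod_ite_eq' univ i]
      simp
    rw [h2]
    ring
  rw [Finset.sum_congr rfl (fun z _ => h1 z), ← Finset.mul_sum,
    sum_pi (fun j y => L t y * (if j = i then φ y else 1))]
  have h3 : ∀ j : Fin k, ∑ y, L t y * (if j = i then φ y else 1) =
      if j = i then ∑ y, L t y * φ y else 1 := by
    intro j
    by_cases h : j = i
    · simp [h]
    · simp [h, hL1 t ht]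
  rw [Finset.prod_congr rfl (fun j _ => h3 j), Finset.prod_ite_eq' univ i]
  simp only [Finset.mem_univ, if_true, Finset.mul_sum]
  refine Finset.sum_congr rfl fun y _ => ?_
  ring

/-- subadditivity -/
theorem mix_ent (hL : ∀ t y, 0 ≤ L t y) (hν : ∀ t, 0 ≤ ν t) (hL1 : ∀ t ∈ v, ∑ y, L t y = 1)
    (hν1 : ∑ t ∈ v, ν t = 1) (k : ℕ) :
    ∑ z, Real.negMulLog (mix L v ν k z) ≤
      k * ∑ y, Real.negMulLog (∑ t ∈ v, ν t * L t y) := by
  classical
  set Q : Z → ℝ := fun y => ∑ t ∈ v, ν t * L t y with hQ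
  have hQ0 : ∀ y, 0 ≤ Q y := fun y => Finset.sum_nonneg fun t _ => mul_nonneg (hν t) (hL t y)
  have hQ1 : ∑ y, Q y = 1 := by
    rw [hQ]
    simp only
    rw [Finset.sum_comm, ← hν1]
    refine Finset.sum_congr rfl fun t ht => ?_
    rw [← Finset.mul_sum, hL1 t ht, mul_one]
  have h1 : ∀ z : Fin k → Z, Real.negMulLog (mix L v ν k z) ≤
      ∑ i, (mix L v ν k z * (- Real.log (Q (z i)))) + ((∏ i, Q (z i)) - mix L v ν k z) := by
    intro z
    have hP0 := mix_nonneg (v := v) hL hν k z
    rcases hP0.eq_or_lt with h0 | h0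
    · rw [← h0]
      simp only [Real.negMulLog_zero, zero_mul, Finset.sum_const_zero, sub_zero, zero_add]
      exact Finset.prod_nonneg fun i _ => hQ0 _
    · have h2 : ∀ i, 0 < Q (z i) := by
        intro i
        by_contra h3
        have h4 : Q (z i) = 0 := le_antisymm (not_lt.mp h3) (hQ0 _)
        have h5 : ∀ t ∈ v, ν t * L t (z i) = 0 :=
          (Finset.sum_eq_zero_iff_of_nonneg
            (fun t _ => mul_nonneg (hν t) (hL t (z i)))).mp h4
        have h6 : mix L v ν k z = 0 := by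
          unfold mix
          refine Finset.sum_eq_zero fun t ht => ?_
          rcases mul_eq_zero.mp (h5 t ht) with h7 | h7
          · rw [h7, zero_mul]
          · rw [Finset.prod_eq_zero (Finset.mem_univ i) h7, mul_zero]
        linarith
      have h3 : 0 < ∏ i, Q (z i) := Finset.prod_pos fun i _ => h2 i
      have h4 := Real.log_le_sub_one_of_pos (div_pos h3 h0)
      rw [Real.log_div h3.ne' h0.ne', Real.log_prod (fun i _ => (h2 i).ne')] at h4
      have h5 := mul_le_mul_of_nonneg_left h4 h0.le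
      have h6 : mix L v ν k z * ((∏ i, Q (z i)) / mix L v ν k z - 1) =
          (∏ i, Q (z i)) - mix L v ν k z := by
        field_simp
      have h7 : ∑ i, (mix L v ν k z * (- Real.log (Q (z i)))) =
          - (mix L v ν k z * ∑ i, Real.log (Q (z i))) := by
        rw [Finset.mul_sum, ← Finset.sum_neg_distrib]
        refine Finset.sum_congr rfl fun i _ => ?_
        ring
      rw [h7, Real.negMulLog]
      rw [h6] at h5
      linarith
  calc _ ≤ ∑ z : Fin k → Z, (∑ i, (mix L v ν k z * (- Real.log (Q (z i)))) +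
        ((∏ i, Q (z i)) - mix L v ν k z)) := Finset.sum_le_sum fun z _ => h1 z
    _ = ∑ i : Fin k, ∑ z : Fin k → Z, (mix L v ν k z * (- Real.log (Q (z i)))) := by
        rw [Finset.sum_add_distrib, Finset.sum_sub_distrib, mix_sum hL1, hν1,
          sum_pi (fun _ => Q)]
        rw [Finset.sum_comm]
        simp [hQ1]
    _ = ∑ _i : Fin k, ∑ y, Real.negMulLog (Q y) := by
        refine Finset.sum_congr rfl fun i _ => ?_
        rw [mix_marg hL1 k i (fun y => - Real.log (Q y))]
        refine Finset.sum_congr rfl fun y _ => ?_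
        rw [Real.negMulLog]
        ring
    _ = _ := by
        rw [Finset.sum_const, Finset.card_univ, Fintype.card_fin, nsmul_eq_mul]

/-- entropy and cardinality -/
theorem ent_le_card {Q : Z → ℝ} (hQ0 : ∀ y, 0 ≤ Q y) (hQ1 : ∑ y, Q y = 1) :
    ∑ y, Real.negMulLog (Q y) ≤ Real.log (Fintype.card Z) := by
  classical
  have hne : Nonempty Z := by
    by_contra h
    rw [not_nonempty_iff] at h
    simp at hQ1
  have hc : (0 : ℝ) < Fintype.card Z := by exact_mod_cast Fintype.card_pos
  have h1 : ∀ y, Real.negMulLog (Q y) ≤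
      Q y * Real.log (Fintype.card Z) + (1 / (Fintype.card Z : ℝ) - Q y) := by
    intro y
    rcases (hQ0 y).eq_or_lt with h0 | h0
    · rw [← h0]
      simp
    · have h2 : 0 < 1 / ((Fintype.card Z : ℝ) * Q y) := by positivity
      have h3 := Real.log_le_sub_one_of_pos h2
      rw [Real.log_div one_ne_zero (by positivity), Real.log_one,
        Real.log_mul hc.ne' h0.ne'] at h3
      have h4 := mul_le_mul_of_nonneg_left h3 h0.le
      have h5 : Q y * (1 / ((Fintype.card Z : ℝ) * Q y) - 1) = 1 / (Fintype.card Z : ℝ) - Q y := by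
        field_simp
      rw [h5] at h4
      rw [Real.negMulLog]
      linarith
  calc _ ≤ ∑ y, (Q y * Real.log (Fintype.card Z) + (1 / (Fintype.card Z : ℝ) - Q y)) :=
        Finset.sum_le_sum fun y _ => h1 y
    _ = Real.log (Fintype.card Z) := by
        rw [Finset.sum_add_distrib, ← Finset.sum_mul, Finset.sum_sub_distrib, hQ1,
          Finset.sum_const, Finset.card_univ, nsmul_eq_mul, mul_one_div_cancel hc.ne']
        ring

end mix

section block

variable {U X : Type} [Fintype U] [Fintype X]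

/-- the law of one sample -/
noncomputable def q (d : U → X) (x : X) : ℝ := by
  classical
  exact ((univ.filter (fun u => d u = x)).card : ℝ) / Fintype.card U

/-- the law of `b` samples at a random time -/
noncomputable def law (d : ℕ → U → X) (v : Finset ℕ) (ν : ℕ → ℝ) (b : ℕ) (x : Fin b → X) : ℝ :=
  ∑ t ∈ v, ν t * ∏ j, q (d t) (x j)

/-- its entropy -/
noncomputable def ent (d : ℕ → U → X) (v : Finset ℕ) (ν : ℕ → ℝ) (b : ℕ) : ℝ :=
  ∑ x : Fin b → X, Real.negMulLog (law d v ν b x)

omit [Fintype X] in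
theorem q_nonneg (d : U → X) (x : X) : 0 ≤ q d x := by
  unfold q
  positivity

theorem q_sum [Nonempty U] (d : U → X) : ∑ x, q d x = 1 := by
  classical
  have hc : (0 : ℝ) < Fintype.card U := by exact_mod_cast Fintype.card_pos
  unfold q
  rw [← Finset.sum_div, div_eq_one_iff_eq hc.ne', ← Nat.cast_sum]
  congr 1
  rw [← Finset.card_eq_sum_card_fiberwise (f := d) (s := univ) (t := univ) (by simp),
    Finset.card_univ]

omit [Fintype X] in
theorem law_nonneg {d : ℕ → U → X} {v : Finset ℕ} {ν : ℕ → ℝ} (hν : ∀ t, 0 ≤ ν t) {b : ℕ}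
    (x : Fin b → X) : 0 ≤ law d v ν b x :=
  Finset.sum_nonneg fun t _ => mul_nonneg (hν t) (Finset.prod_nonneg fun _ _ => q_nonneg _ _)

theorem law_sum [Nonempty U] {d : ℕ → U → X} {v : Finset ℕ} {ν : ℕ → ℝ} (b : ℕ) :
    ∑ x, law d v ν b x = ∑ t ∈ v, ν t :=
  mix_sum (L := fun t => q (d t)) (fun t _ => q_sum (d t)) b

theorem law_le_one [Nonempty U] {d : ℕ → U → X} {v : Finset ℕ} {ν : ℕ → ℝ} (hν : ∀ t, 0 ≤ ν t)
    (hν1 : ∑ t ∈ v, ν t = 1) {b : ℕ} (x : Fin b → X) : law d v ν b x ≤ 1 := by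
  rw [← hν1, ← law_sum (d := d) (v := v) (ν := ν) b]
  exact Finset.single_le_sum (f := law d v ν b) (fun y _ => law_nonneg hν y) (Finset.mem_univ x)

theorem ent_nonneg [Nonempty U] {d : ℕ → U → X} {v : Finset ℕ} {ν : ℕ → ℝ} (hν : ∀ t, 0 ≤ ν t)
    (hν1 : ∑ t ∈ v, ν t = 1) (b : ℕ) : 0 ≤ ent d v ν b :=
  Finset.sum_nonneg fun x _ => Real.negMulLog_nonneg (law_nonneg hν x) (law_le_one hν hν1 x)

/-- groups of blocks -/
def grp (X : Type) (k b : ℕ) : (Fin (k * b) → X) ≃ (Fin k → Fin b → X) where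
  toFun x i j := x (finProdFinEquiv (i, j))
  invFun z n := z (finProdFinEquiv.symm n).1 (finProdFinEquiv.symm n).2
  left_inv x := by
    funext n
    show x (finProdFinEquiv ((finProdFinEquiv.symm n).1, (finProdFinEquiv.symm n).2)) = x n
    rw [Prod.mk.eta, Equiv.apply_symm_apply]
  right_inv z := by
    funext i j
    show z (finProdFinEquiv.symm (finProdFinEquiv (i, j))).1
      (finProdFinEquiv.symm (finProdFinEquiv (i, j))).2 = z i j
    rw [Equiv.symm_apply_apply]

omit [Fintype X] in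
theorem prod_grp {k b : ℕ} (f : X → ℝ) (x : Fin (k * b) → X) :
    ∏ n, f (x n) = ∏ i, ∏ j, f (grp X k b x i j) := by
  rw [← Fintype.prod_prod_type' (f := fun i j => f (grp X k b x i j))]
  exact (Fintype.prod_equiv finProdFinEquiv _ _ fun y => rfl).symm

/-- **subadditivity** -/
theorem ent_mul [Nonempty U] {d : ℕ → U → X} {v : Finset ℕ} {ν : ℕ → ℝ} (hν : ∀ t, 0 ≤ ν t)
    (hν1 : ∑ t ∈ v, ν t = 1) (k b : ℕ) : ent d v ν (k * b) ≤ k * ent d v ν b := by
  classical
  have h1 := mix_ent (Z := Fin b → X) (L := fun t y => ∏ j, q (d t) (y j)) (v := v) (ν := ν)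
    (fun t y => Finset.prod_nonneg fun _ _ => q_nonneg _ _) hν
    (fun t _ => by
      rw [sum_pi (fun _ => q (d t))]
      simp [q_sum]) hν1 k
  refine le_trans (le_of_eq ?_) h1
  unfold ent
  refine Fintype.sum_equiv (grp X k b) _ _ fun x => ?_
  congr 1
  unfold law mix
  refine Finset.sum_congr rfl fun t _ => ?_
  rw [prod_grp (q (d t)) x]

theorem ent_le [Nonempty U] {d : ℕ → U → X} {v : Finset ℕ} {ν : ℕ → ℝ} (hν : ∀ t, 0 ≤ ν t)
    (hν1 : ∑ t ∈ v, ν t = 1) (b : ℕ) : ent d v ν b ≤ b * Real.log (Fintype.card X) := by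
  classical
  have h1 := mix_ent (Z := X) (L := fun t => q (d t)) (v := v) (ν := ν)
    (fun t y => q_nonneg _ _) hν (fun t _ => q_sum _) hν1 b
  refine h1.trans ?_
  refine mul_le_mul_of_nonneg_left (ent_le_card ?_ ?_) (by positivity)
  · exact fun y => Finset.sum_nonneg fun t _ => mul_nonneg (hν t) (q_nonneg _ _)
  · rw [Finset.sum_comm, ← hν1]
    refine Finset.sum_congr rfl fun t _ => ?_
    rw [← Finset.mul_sum, q_sum, mul_one]

theorem avg_eq [Nonempty U] (d : U → X) (b : ℕ) (F : (Fin b → X) → ℝ) :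
    Avg d b F = ∑ x : Fin b → X, (∏ j, q d (x j)) * F x := by
  classical
  have hc : (0 : ℝ) < Fintype.card U := by exact_mod_cast Fintype.card_pos
  have hcb : (Fintype.card U : ℝ) ^ b ≠ 0 := (pow_pos hc b).ne'
  have h1 : ∀ x : Fin b → X, (∏ j, q d (x j)) * F x * (Fintype.card U : ℝ) ^ b =
      ∑ u ∈ univ.filter (fun u : Fin b → U => (fun i => d (u i)) = x), F (fun i => d (u i)) := by
    intro x
    have h2 : univ.filter (fun u : Fin b → U => (fun i => d (u i)) = x) =
        Fintype.piFinset (fun j => univ.filter (fun u => d u = x j)) := by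
      ext u
      simp [Fintype.mem_piFinset, funext_iff]
    have h3 : ∑ u ∈ univ.filter (fun u : Fin b → U => (fun i => d (u i)) = x),
        F (fun i => d (u i)) = ∑ u ∈ univ.filter (fun u : Fin b → U => (fun i => d (u i)) = x),
        F x := by
      refine Finset.sum_congr rfl fun u hu => ?_
      rw [(Finset.mem_filter.mp hu).2]
    have h4 : ∏ j, q d (x j) =
        ((univ.filter (fun u : Fin b → U => (fun i => d (u i)) = x)).card : ℝ) /
          (Fintype.card U : ℝ) ^ b := by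
      rw [h2, Fintype.card_piFinset, Nat.cast_prod]
      unfold q
      rw [Finset.prod_div_distrib, Finset.prod_const, Finset.card_univ, Fintype.card_fin]
    rw [h3, Finset.sum_const, nsmul_eq_mul, h4, div_mul_eq_mul_div, div_mul_cancel₀ _ hcb]
  have h5 : ∑ u : Fin b → U, F (fun i => d (u i)) =
      ∑ x : Fin b → X, (∏ j, q d (x j)) * F x * (Fintype.card U : ℝ) ^ b := by
    rw [Finset.sum_congr rfl (fun x _ => h1 x)]
    exact (Finset.sum_fiberwise univ (fun u : Fin b → U => fun i => d (u i))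
      (fun u => F (fun i => d (u i)))).symm
  unfold Avg
  rw [h5, ← Finset.sum_mul, mul_div_assoc, div_self hcb, mul_one]

end block

end Vale.Agent.P015.M.ED
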