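import Vale.Agent.P015.M.Defs
import Vale.Agent.P015.R3.H85.Main

/-!
# P015, the moat theorem: from `GoalStmt` to the components of `G_D`
-/

namespace Vale.Agent.P015.M

open Finset hiding box
open Vale.Agent.P006.CLS Vale.Agent.P015.H222 Vale.Agent.P015.R3.H85
open Vale.Agent.P015

/-- the reduction `x + i y ↦ x + s y` modulo `p`, for a root `s` of `-1` -/
noncomputable def redHom (p : ℕ) (s : ℤ) (h : (p : ℤ) ∣ s ^ 2 + 1) : GaussianInt →+* ZMod p :=
  Zsqrtd.lift ⟨(s : ZMod p), by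
    have h1 : ((s ^ 2 + 1 : ℤ) : ZMod p) = 0 := (ZMod.intCast_zmod_eq_zero_iff_dvd _ _).2 h
    push_cast at h1 ⊢
    linear_combination h1⟩

theorem redHom_apply {p : ℕ} {s : ℤ} (h : (p : ℤ) ∣ s ^ 2 + 1) (z : GaussianInt) :
    redHom p s h z = ((lf s (z.re, z.im) : ℤ) : ZMod p) := by
  simp [redHom, Zsqrtd.lift, lf]
  ring

theorem exists_prime_ker {p : ℕ} (hp : p.Prime) {s : ℤ} (h : (p : ℤ) ∣ s ^ 2 + 1) :
    ∃ π : GaussianInt, Prime π ∧ ∀ z, π ∣ z ↔ redHom p s h z = 0 := by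
  have := Fact.mk hp
  obtain ⟨π, hπ⟩ := (IsPrincipalIdealRing.principal (RingHom.ker (redHom p s h))).principal
  have hπ' : RingHom.ker (redHom p s h) = Ideal.span {π} := hπ
  have hz : ∀ z, π ∣ z ↔ redHom p s h z = 0 := by
    intro z
    rw [← Ideal.mem_span_singleton, ← hπ', RingHom.mem_ker]
  refine ⟨π, ?_, hz⟩
  have h0 : π ≠ 0 := by
    rintro rfl
    have h1 : redHom p s h (p : GaussianInt) = 0 := by
      rw [map_natCast]
      exact ZMod.natCast_self p
    have h2 := (hz _).2 h1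
    rw [zero_dvd_iff] at h2
    exact hp.ne_zero (by exact_mod_cast h2)
  rw [← Ideal.span_singleton_prime h0, ← hπ']
  exact RingHom.ker_isPrime _

/-- the walk as a sequence in the plane -/
def toPair (z : GaussianInt) : ℤ × ℤ := (z.re, z.im)

theorem toPair_injective : Function.Injective toPair := by
  intro z w h
  have h1 := congrArg Prod.fst h
  have h2 := congrArg Prod.snd h
  exact Zsqrtd.ext h1 h2

theorem step_mem_box {D : ℝ} {z w : GaussianInt}
    (h : dist (GaussianInt.toComplex z) (GaussianInt.toComplex w) ≤ D) :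
    toPair w - toPair z ∈ box ⌈D⌉₊ := by
  have hD : 0 ≤ D := dist_nonneg.trans h
  rw [dist_comm, dist_eq_norm] at h
  have h1 : ((|w.re - z.re| : ℤ) : ℝ) ≤ D := by
    have e := (Complex.abs_re_le_norm _).trans h
    rw [← map_sub, ← GaussianInt.intCast_re, Zsqrtd.re_sub] at e
    rw [Int.cast_abs]
    exact e
  have h2 : ((|w.im - z.im| : ℤ) : ℝ) ≤ D := by
    have e := (Complex.abs_im_le_norm _).trans h
    rw [← map_sub, ← GaussianInt.intCast_im, Zsqrtd.im_sub] at e
    rw [Int.cast_abs]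
    exact e
  have h3 : |w.re - z.re| ≤ (⌈D⌉₊ : ℤ) := by
    have := h1.trans (Nat.le_ceil D)
    exact_mod_cast this
  have h4 : |w.im - z.im| ≤ (⌈D⌉₊ : ℤ) := by
    have := h2.trans (Nat.le_ceil D)
    exact_mod_cast this
  rw [mem_box]
  exact ⟨abs_le.1 h3, abs_le.1 h4⟩

theorem exists_roots : ∃ r : ℕ → ℤ, ∀ p : ℕ, p.Prime → p % 4 = 1 → (p : ℤ) ∣ r p ^ 2 + 1 := by
  have h : ∀ p : ℕ, ∃ s : ℤ, p.Prime → p % 4 = 1 → (p : ℤ) ∣ s ^ 2 + 1 := by
    intro p
    by_cases hp : p.Prime ∧ p % 4 = 1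
    · have := Fact.mk hp.1
      have h1 : IsSquare (-1 : ZMod p) := ZMod.exists_sq_eq_neg_one_iff.2 (by omega)
      obtain ⟨y, hy⟩ := h1
      refine ⟨(y.val : ℤ), fun _ _ => ?_⟩
      rw [← ZMod.intCast_zmod_eq_zero_iff_dvd]
      push_cast
      rw [ZMod.natCast_zmod_val, sq, ← hy]
      ring
    · exact ⟨0, fun h1 h2 => absurd ⟨h1, h2⟩ hp⟩
  choose r hr using h
  exact ⟨r, hr⟩

/-- the goal implies that there are no admissible sequences -/
theorem not_admissible (hG : GoalStmt) (D : ℝ) : ¬ ∃ g : ℕ → GaussianInt, Admissible D g := by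
  rintro ⟨g, hinj, hstep, hmiss⟩
  obtain ⟨r, hr⟩ := exists_roots
  refine hG r hr ⌈D⌉₊ (fun t => toPair (g t)) (toPair_injective.comp hinj)
    (fun t => step_mem_box (hstep t)) fun p hp hp4 => ?_
  obtain ⟨π, hπ, hz⟩ := exists_prime_ker hp (hr p hp hp4)
  obtain ⟨a, ha⟩ := hmiss π hπ
  refine ⟨redHom p (r p) (hr p hp hp4) a, fun t ht => ha t ?_⟩
  rw [hz, map_sub, sub_eq_zero, redHom_apply]
  exact ht

/-- **the answer**: for every `D` the components of `G_D` have bounded size -/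
theorem components_bounded (hG : GoalStmt) (D : ℝ) :
    ∃ B : ℕ, ∀ z : {z : GaussianInt // Prime z},
      {w | (moatGraph D).Reachable z w}.encard ≤ (B : ℕ∞) := by
  have h := (dichotomy D).out 2 0
  obtain ⟨m, hm, h'⟩ := h.1 (not_admissible hG D)
  exact bounded_components hm h'

theorem components_finite (hG : GoalStmt) (D : ℝ) (z : {z : GaussianInt // Prime z}) :
    {w | (moatGraph D).Reachable z w}.Finite := by
  obtain ⟨B, hB⟩ := components_bounded hG D
  exact Set.finite_of_encard_le_coe (hB z)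

end Vale.Agent.P015.M
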