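import Vale.Agent.P015.M.Defs

/-! # P015, module FIN-2: every walk has a sub-window of good levels -/

namespace Vale.Agent.P015.M

open Finset hiding box
open Vale.Agent.P006.CLS Vale.Agent.P015.H222
open scoped Pointwise

/-- the walk visits rarely some large set of classes modulo `p` (second alternative of `SAStmt`) -/
def Rare (r : ℕ → ℤ) (g : ℕ → ℤ × ℤ) (N : ℕ) (Λ δ : ℝ) (p : ℕ) : Prop :=
  ∃ T : Finset (ZMod p), (p : ℝ) ≤ Λ * T.card ∧
    (((range (N + 1)).filter (fun t => ((lf (r p) (g t) : ℤ) : ZMod p) ∈ T)).card : ℝ) * p ≤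
      δ * T.card * N

open Classical in
/-- the part `P` is good: at least half of its primes are not `Rare` -/
def GoodPart (r : ℕ → ℤ) (g : ℕ → ℤ × ℤ) (N : ℕ) (Λ δ : ℝ) (P : Finset ℕ) : Prop :=
  P.card ≤ 2 * (P.filter (fun p => ¬ Rare r g N Λ δ p)).card

/-- **FIN-2**: in every window of levels there is a sub-window all of whose parts are good. -/
theorem good_sub (hc : CoverStmt) : ∃ (H : ℕ) (δ : ℝ), 2 ≤ H ∧ 0 < δ ∧ δ ≤ 1 ∧
    ∀ (D : ℕ) (κ : ℝ), 0 < κ → ∃ Λ₀ : ℝ, 1 ≤ Λ₀ ∧ ∀ Λ : ℝ, Λ₀ ≤ Λ → ∀ N : ℕ, Λ ^ H ≤ N →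
    ∀ (r : ℕ → ℤ) (g : ℕ → ℤ × ℤ), (∀ a ≤ N, ∀ b ≤ N, g a = g b → a = b) →
    (∀ t < N, g (t + 1) - g t ∈ box D) →
    ∀ (B : ℕ) (z : ℕ → ℕ) (P : ℕ → ℕ → Finset ℕ) (J : Set ℕ),
    (∀ j ∈ J, ∀ a < B, Rts r (P j a) ∧ (∀ p ∈ P j a, z j ≤ 2 * p ∧ p ≤ z j) ∧
      κ * z j ≤ (P j a).card * Real.log (z j)) →
    ∃ k : ℕ, 1 ≤ k ∧ k < H ∧ ∀ j ∈ J, Λ ^ k ≤ z j → (z j : ℝ) ≤ Λ ^ (k + 1) → ∀ a < B,
      GoodPart r g N Λ δ (P j a) := by
  classical
  obtain ⟨H, δ, hH, hδ0, hδ1, hc⟩ := hc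
  refine ⟨H, δ, hH, hδ0, hδ1, fun D κ hκ => ?_⟩
  obtain ⟨Λ₀, hc⟩ := hc D
  -- `2 H log Λ ≤ κ Λ` for large `Λ`
  have hlog : Filter.Tendsto (fun x : ℝ => Real.log x / x) Filter.atTop (nhds 0) := by
    have := Real.tendsto_pow_log_div_mul_add_atTop 1 0 1 one_ne_zero
    simpa using this
  have hev : ∀ᶠ x : ℝ in Filter.atTop, Real.log x / x ≤ κ / (2 * H) :=
    hlog.eventually (eventually_le_nhds (by positivity))
  obtain ⟨Λ₁, hΛ₁⟩ := Filter.eventually_atTop.1 hev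
  refine ⟨max (max Λ₀ Λ₁) 10, (by norm_num : (1 : ℝ) ≤ 10).trans (le_max_right _ _),
    fun Λ hΛ N hN r g hinj hstep B z P J hJ => ?_⟩
  have hΛ0' : Λ₀ ≤ Λ := (le_max_left _ _).trans ((le_max_left _ _).trans hΛ)
  have hΛ1' : Λ₁ ≤ Λ := (le_max_right _ _).trans ((le_max_left _ _).trans hΛ)
  have hΛ10 : (10 : ℝ) ≤ Λ := (le_max_right _ _).trans hΛ
  have hΛ0 : (0 : ℝ) < Λ := by linarith
  have hH0 : (0 : ℝ) < H := by exact_mod_cast (by omega : 0 < H)
  have hkey : 2 * (H * Real.log Λ) ≤ κ * Λ := by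
    have h1 := hΛ₁ Λ hΛ1'
    rw [div_le_div_iff₀ hΛ0 (by positivity)] at h1
    linarith
  by_contra hcon
  push Not at hcon
  refine hc Λ hΛ0' N hN r g hinj hstep fun k hk1 hkH => ?_
  obtain ⟨j, hj, hz1, hz2, a, ha, hbad⟩ := hcon k hk1 hkH
  obtain ⟨hr, hz, hcard⟩ := hJ j hj a ha
  have hT : ∀ p : ℕ, ∃ T : Finset (ZMod p), Rare r g N Λ δ p → (p : ℝ) ≤ Λ * T.card ∧
      (((range (N + 1)).filter (fun t => ((lf (r p) (g t) : ℤ) : ZMod p) ∈ T)).card : ℝ) * p ≤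
      δ * T.card * N := by
    intro p
    by_cases h : Rare r g N Λ δ p
    · obtain ⟨T, hT⟩ := h
      exact ⟨T, fun _ => hT⟩
    · exact ⟨∅, fun h' => absurd h' h⟩
  choose T hT using hT
  refine ⟨z j, (P j a).filter (fun p => Rare r g N Λ δ p), T, hz1, hz2, ?_, ?_, ?_, ?_, ?_, ?_⟩
  · intro p hp
    exact hr p (Finset.mem_filter.mp hp).1
  · intro p hp
    exact (hz p (Finset.mem_filter.mp hp).1).1
  · intro p hp
    exact (hz p (Finset.mem_filter.mp hp).1).2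
  · rw [GoodPart, not_le] at hbad
    have h1 := Finset.card_filter_add_card_filter_not (s := P j a) (fun p => Rare r g N Λ δ p)
    have h2 : (P j a).card ≤ 2 * ((P j a).filter (fun p => Rare r g N Λ δ p)).card := by omega
    have h2' : ((P j a).card : ℝ) ≤ 2 * (((P j a).filter (fun p => Rare r g N Λ δ p)).card : ℝ) := by
      exact_mod_cast h2
    have hΛk : Λ ≤ Λ ^ k := le_self_pow₀ (by linarith) (by omega)
    have hz0 : (10 : ℝ) ≤ z j := hΛ10.trans (hΛk.trans hz1)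
    have hlz0 : 0 ≤ Real.log (z j) := Real.log_nonneg (by linarith)
    have hlz : Real.log (z j) ≤ H * Real.log Λ := by
      have h3 := Real.log_le_log (by linarith) hz2
      rw [Real.log_pow] at h3
      refine h3.trans ?_
      have h4 : ((k + 1 : ℕ) : ℝ) ≤ H := by exact_mod_cast hkH
      exact mul_le_mul_of_nonneg_right h4 (Real.log_nonneg (by linarith))
    have h5 : κ * z j ≤ κ * (Λ * (((P j a).filter (fun p => Rare r g N Λ δ p)).card : ℝ)) := by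
      have h6 : (0 : ℝ) ≤ (((P j a).filter (fun p => Rare r g N Λ δ p)).card : ℝ) :=
        Nat.cast_nonneg _
      calc κ * z j ≤ (P j a).card * Real.log (z j) := hcard
        _ ≤ (2 * (((P j a).filter (fun p => Rare r g N Λ δ p)).card : ℝ)) * (H * Real.log Λ) :=
            mul_le_mul h2' hlz hlz0 (by positivity)
        _ = (((P j a).filter (fun p => Rare r g N Λ δ p)).card : ℝ) * (2 * (H * Real.log Λ)) := by
            ring
        _ ≤ (((P j a).filter (fun p => Rare r g N Λ δ p)).card : ℝ) * (κ * Λ) :=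
            mul_le_mul_of_nonneg_left hkey h6
        _ = _ := by ring
    exact le_of_mul_le_mul_left h5 hκ
  · intro p hp
    exact (hT p (Finset.mem_filter.mp hp).2).1
  · intro p hp
    exact (hT p (Finset.mem_filter.mp hp).2).2

end Vale.Agent.P015.M
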