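import Vale.Agent.P015.M.FINb
import Vale.Agent.P015.M.FinCover

/-! # P015, the moat theorem: average bound of a part -/

namespace Vale.Agent.P015.M.FIN

open Finset hiding box
open Vale.Agent.P006.CLS Vale.Agent.P015.H222
open scoped Pointwise

/-- the average over the samples of the logarithm of the number of classes that are left -/
noncomputable def av (r : ℕ → ℤ) (p N ℓ b : ℕ) (g : ℕ → ℤ × ℤ) : ℝ :=
  (∑ u : Fin b → Fin (N - ℓ + 1), Real.log ((p : ℝ) - hit r p g u)) /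
    (Fintype.card (Fin (N - ℓ + 1)) : ℝ) ^ b

theorem av_le {r : ℕ → ℤ} {p N ℓ b : ℕ} {g : ℕ → ℤ × ℤ} (hp : 0 < p)
    (h : ∀ u : Fin b → Fin (N - ℓ + 1), hit r p g u < p) : av r p N ℓ b g ≤ Real.log p := by
  have hU : (0 : ℝ) < (Fintype.card (Fin (N - ℓ + 1)) : ℝ) ^ b := by
    have : 0 < Fintype.card (Fin (N - ℓ + 1)) := by rw [Fintype.card_fin]; omega
    positivity
  rw [av, div_le_iff₀ hU]
  calc ∑ u : Fin b → Fin (N - ℓ + 1), Real.log ((p : ℝ) - hit r p g u)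
      ≤ ∑ u : Fin b → Fin (N - ℓ + 1), Real.log p := by
        refine Finset.sum_le_sum fun u _ => ?_
        have h1 : ((hit r p g u : ℕ) : ℝ) < p := by exact_mod_cast h u
        have h2 : (0 : ℝ) ≤ ((hit r p g u : ℕ) : ℝ) := Nat.cast_nonneg _
        exact Real.log_le_log (by linarith) (by linarith)
    _ = Real.log p * (Fintype.card (Fin (N - ℓ + 1)) : ℝ) ^ b := by
        rw [Finset.sum_const, nsmul_eq_mul, Finset.card_univ, Fintype.card_fun]
        push_cast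
        rw [Fintype.card_fin, Fintype.card_fin, mul_comm]

theorem part_le {r : ℕ → ℤ} {N ℓ b k z : ℕ} {g : ℕ → ℤ × ℤ} {P : Finset ℕ} (hr : Rts r P)
    (hk : P.card = k) (hz : ∀ p ∈ P, p ≤ z)
    (h : ∀ p ∈ P, ∀ u : Fin b → Fin (N - ℓ + 1), hit r p g u < p) :
    ∑ p ∈ P, av r p N ℓ b g ≤ k * Real.log z := by
  calc ∑ p ∈ P, av r p N ℓ b g ≤ ∑ p ∈ P, Real.log z := by
        refine Finset.sum_le_sum fun p hp => ?_
        have h1 := (hr p hp).1.pos
        exact (av_le h1 (h p hp)).trans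
          (Real.log_le_log (by exact_mod_cast h1) (by exact_mod_cast hz p hp))
    _ = _ := by rw [Finset.sum_const, hk, nsmul_eq_mul]

theorem part_good_le (hSA : SAStmt) {r : ℕ → ℤ} {N ℓ b k z D : ℕ} {Λ δ : ℝ} {g : ℕ → ℤ × ℤ}
    {P : Finset ℕ} (hr : Rts r P) (hk : P.card = k) (hz : ∀ p ∈ P, z ≤ 2 * p ∧ p ≤ z)
    (h : ∀ p ∈ P, ∀ u : Fin b → Fin (N - ℓ + 1), hit r p g u < p)
    (hinj : ∀ a ≤ N, ∀ b ≤ N, g a = g b → a = b) (hstep : ∀ t < N, g (t + 1) - g t ∈ box D)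
    (hℓ : 1 ≤ ℓ) (hℓz : 4 * (ℓ * D) ^ 2 < z) (hΛ : 2 ≤ Λ) (hδ : 0 < δ) (hδ1 : δ ≤ 1)
    (hℓN : 2 * ℓ ≤ N) (hb : 4 * Real.log Λ * z ≤ δ * (b * ℓ)) (hN : 4 * ℓ * Λ ≤ δ * N)
    (hgood : GoodPart r g N Λ δ P) :
    ∑ p ∈ P, av r p N ℓ b g ≤ k * Real.log z - k / 2 * (Real.log Λ - Real.log 2) := by
  classical
  have hgain : 0 ≤ Real.log Λ - Real.log 2 := by
    have := Real.log_le_log (by norm_num) hΛ
    linarith
  have hlogΛ : 0 ≤ Real.log Λ := Real.log_nonneg (by linarith)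
  have h1 : ∀ p ∈ P, av r p N ℓ b g ≤ Real.log z -
      if Rare r g N Λ δ p then 0 else (Real.log Λ - Real.log 2) := by
    intro p hp
    have hp0 := (hr p hp).1.pos
    have hlogz : Real.log p ≤ Real.log z :=
      Real.log_le_log (by exact_mod_cast hp0) (by exact_mod_cast (hz p hp).2)
    split_ifs with hR
    · rw [sub_zero]
      exact (av_le hp0 (h p hp)).trans hlogz
    · have hpz : (p : ℝ) ≤ z := by exact_mod_cast (hz p hp).2
      rcases hSA r p D ℓ N b Λ δ g (hr p hp).1 (hr p hp).2 hinj hstep hℓ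
        (by have := (hz p hp).1; omega) hΛ hδ hδ1 hℓN
        (le_trans (mul_le_mul_of_nonneg_left hpz (by positivity)) hb) hN (h p hp) with h2 | h2
      · rw [← av] at h2
        linarith
      · exact absurd h2 hR
  refine (Finset.sum_le_sum h1).trans ?_
  rw [Finset.sum_sub_distrib, Finset.sum_const, hk, nsmul_eq_mul]
  have h2 : ∑ p ∈ P, (if Rare r g N Λ δ p then 0 else (Real.log Λ - Real.log 2)) =
      ((P.filter (fun p => ¬ Rare r g N Λ δ p)).card : ℝ) * (Real.log Λ - Real.log 2) := by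
    rw [← Finset.sum_filter_add_sum_filter_not P (fun p => Rare r g N Λ δ p)]
    have h3 : ∑ p ∈ P.filter (fun p => Rare r g N Λ δ p),
        (if Rare r g N Λ δ p then 0 else (Real.log Λ - Real.log 2)) = 0 :=
      Finset.sum_eq_zero fun p hp => if_pos (Finset.mem_filter.mp hp).2
    have h4 : ∑ p ∈ P.filter (fun p => ¬ Rare r g N Λ δ p),
        (if Rare r g N Λ δ p then 0 else (Real.log Λ - Real.log 2)) =
        ∑ p ∈ P.filter (fun p => ¬ Rare r g N Λ δ p), (Real.log Λ - Real.log 2) :=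
      Finset.sum_congr rfl fun p hp => if_neg (Finset.mem_filter.mp hp).2
    rw [h3, h4, zero_add, Finset.sum_const, nsmul_eq_mul]
  rw [h2]
  have h5 : (k : ℝ) ≤ 2 * ((P.filter (fun p => ¬ Rare r g N Λ δ p)).card : ℝ) := by
    rw [GoodPart, hk] at hgood
    exact_mod_cast hgood
  nlinarith

end Vale.Agent.P015.M.FIN
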