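import Mathlib

/-! # P015, the moat theorem: real inequalities of a level -/

namespace Vale.Agent.P015.M.FIN

/-- the loss of a level -/
theorem loss_le {κ δ ℓ c₁ z L s b : ℝ} (hκ : 0 < κ) (hδ : 0 < δ) (hℓ : 0 < ℓ) (hc : 0 < c₁)
    (hz : 0 < z) (hL : 0 < L) (hs : s ≤ 2 * κ * z) (hb : 4 * z * L / (δ * ℓ) ≤ b) :
    c₁ * s / b ≤ c₁ * κ * δ * ℓ / (2 * L) := by
  have hx : 0 < 4 * z * L / (δ * ℓ) := by positivity
  have hb0 : 0 < b := hx.trans_le hb
  rw [div_le_div_iff₀ hb0 (by positivity)]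
  have h1 : 4 * z * L ≤ b * (δ * ℓ) := by
    rwa [div_le_iff₀ (by positivity)] at hb
  calc c₁ * s * (2 * L) = (c₁ * (2 * L)) * s := by ring
    _ ≤ (c₁ * (2 * L)) * (2 * κ * z) := mul_le_mul_of_nonneg_left hs (by positivity)
    _ = c₁ * κ * (4 * z * L) := by ring
    _ ≤ c₁ * κ * (b * (δ * ℓ)) := mul_le_mul_of_nonneg_left h1 (by positivity)
    _ = c₁ * κ * δ * ℓ * b := by ring

/-- the gain of a good level -/
theorem gain_le {κ δ ℓ c₁ z L s b k H lz : ℝ} (hκ : 0 < κ) (hδ : 0 < δ) (hℓ : 0 < ℓ)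
    (hz : 0 < z) (hL : 0 < L) (hH : 2 ≤ H) (hc : c₁ = 1 / (32 * H ^ 2)) (hk : 0 ≤ k)
    (hs : s = k * lz) (hkz : κ * z ≤ s) (hlz : lz ≤ H * L) (hlz0 : 0 < lz)
    (hl2 : 4 * Real.log 2 ≤ L)
    (hb : 4 * z * L / (δ * ℓ) ≤ b) (hb2 : b ≤ 2 * (4 * z * L / (δ * ℓ))) :
    κ * δ * ℓ / (32 * H * L) ≤ (k / 2 * (L - Real.log 2) - c₁ * s) / b := by
  have hx : 0 < 4 * z * L / (δ * ℓ) := by positivity
  have hb0 : 0 < b := hx.trans_le hb
  have hH0 : 0 < H := by linarith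
  -- the numerator
  have h1 : k * L / 4 ≤ k / 2 * (L - Real.log 2) - c₁ * s := by
    have h2 : c₁ * s ≤ k * L / 64 := by
      rw [hs, hc]
      calc 1 / (32 * H ^ 2) * (k * lz) ≤ 1 / (32 * H ^ 2) * (k * (H * L)) := by gcongr
        _ = k * L / (32 * H) := by field_simp
        _ ≤ k * L / 64 := by
          apply div_le_div_of_nonneg_left (by positivity) (by norm_num)
          linarith
    have h3 : k / 2 * (L - Real.log 2) ≥ k / 2 * (3 / 4 * L) := by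
      apply mul_le_mul_of_nonneg_left _ (by positivity)
      linarith
    nlinarith [mul_nonneg hk hL.le]
  have h2 : κ * z ≤ k * (H * L) := by
    refine hkz.trans ?_
    rw [hs]
    exact mul_le_mul_of_nonneg_left hlz hk
  have h3 : b * (δ * ℓ) ≤ 8 * z * L := by
    have h4 : 2 * (4 * z * L / (δ * ℓ)) * (δ * ℓ) = 8 * z * L := by field_simp; ring
    rw [← h4]
    exact mul_le_mul_of_nonneg_right hb2 (by positivity)
  refine le_trans ?_ (div_le_div_of_nonneg_right h1 hb0.le)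
  rw [div_div, div_le_div_iff₀ (by positivity) (by positivity)]
  -- κ δ ℓ * (4 b) ≤ k L * (32 H L)
  calc κ * δ * ℓ * (4 * b) = (4 * κ) * (b * (δ * ℓ)) := by ring
    _ ≤ (4 * κ) * (8 * z * L) := mul_le_mul_of_nonneg_left h3 (by positivity)
    _ = 32 * L * (κ * z) := by ring
    _ ≤ 32 * L * (k * (H * L)) := mul_le_mul_of_nonneg_left h2 (by positivity)
    _ = k * L * (32 * H * L) := by ring

end Vale.Agent.P015.M.FIN
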