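import Mathlib

/-! FIN, part 4: real inequalities, window sums, powers of two, the choice of `m`. -/

namespace Vale.Agent.P015.M

open Finset

/-- powers of two between `x j` and `2 * x j` -/
theorem exists_pow2 (x : ℕ → ℝ) (hx1 : ∀ j, 1 ≤ x j) (hmono : ∀ j, x j ≤ x (j + 1)) :
    ∃ b : ℕ → ℕ, (∀ j, 0 < b j) ∧ (∀ j, b j ∣ b (j + 1)) ∧ (∀ j, x j ≤ b j) ∧
      (∀ j, (b j : ℝ) ≤ 2 * x j) := by
  classical
  have hex : ∀ j, ∃ e : ℕ, x j ≤ (2 : ℝ) ^ e := fun j =>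
    (pow_unbounded_of_one_lt (x j) (by norm_num : (1 : ℝ) < 2)).imp (fun e h => h.le)
  refine ⟨fun j => 2 ^ (Nat.find (hex j)), fun j => by positivity, ?_, ?_, ?_⟩
  · intro j
    refine pow_dvd_pow 2 (Nat.find_mono (fun e h => ?_))
    exact (hmono j).trans h
  · intro j
    have := Nat.find_spec (hex j)
    push_cast
    exact this
  · intro j
    push_cast
    rcases Nat.eq_zero_or_pos (Nat.find (hex j)) with h0 | h0
    · rw [h0, pow_zero]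
      have := hx1 j
      linarith
    · have h1 := Nat.find_min (hex j) (Nat.sub_lt h0 Nat.one_pos)
      push Not at h1
      have h2 : (2 : ℝ) ^ Nat.find (hex j) = 2 * 2 ^ (Nat.find (hex j) - 1) := by
        rw [← pow_succ']
        congr 1
        omega
      rw [h2]
      linarith

/-- one window: a good sub-window wins against all levels -/
theorem one_window (H h : ℕ) (hH : 2 ≤ H) (hh : 1 ≤ h) (G : ℝ) (hG : 0 ≤ G) (f : ℕ → ℝ)
    (h1 : ∀ j, h ≤ j → j < h * H → -(G / (2 * H * h)) ≤ f j)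
    (h2 : ∃ k, 1 ≤ k ∧ k < H ∧ ∀ j, h * k ≤ j → j < h * (k + 1) → G / h ≤ f j) :
    G / 2 ≤ ∑ j ∈ Ico h (h * H), f j := by
  obtain ⟨k, hk1, hkH, hk⟩ := h2
  have hH0 : (0 : ℝ) < H := by exact_mod_cast (by omega : 0 < H)
  have hh0 : (0 : ℝ) < h := by exact_mod_cast (by omega : 0 < h)
  have e0 : h ≤ h * k := Nat.le_mul_of_pos_right h hk1
  have e1 : h * k ≤ h * (k + 1) := Nat.mul_le_mul_left h (by omega)
  have e2 : h * (k + 1) ≤ h * H := Nat.mul_le_mul_left h (by omega)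
  have hsplit : ∑ j ∈ Ico h (h * H), f j = ∑ j ∈ Ico h (h * k), f j +
      ∑ j ∈ Ico (h * k) (h * (k + 1)), f j + ∑ j ∈ Ico (h * (k + 1)) (h * H), f j := by
    rw [Finset.sum_Ico_consecutive f e0 e1, Finset.sum_Ico_consecutive f (e0.trans e1) e2]
  have c1 : ((h * k - h : ℕ) : ℝ) * -(G / (2 * H * h)) ≤ ∑ j ∈ Ico h (h * k), f j := by
    have := Finset.card_nsmul_le_sum (Ico h (h * k)) f (-(G / (2 * H * h))) (fun j hj => by
      rw [Finset.mem_Ico] at hj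
      exact h1 j hj.1 (by omega))
    rwa [Nat.card_Ico, nsmul_eq_mul] at this
  have c2 : ((h * (k + 1) - h * k : ℕ) : ℝ) * (G / h) ≤
      ∑ j ∈ Ico (h * k) (h * (k + 1)), f j := by
    have := Finset.card_nsmul_le_sum (Ico (h * k) (h * (k + 1))) f (G / h) (fun j hj => by
      rw [Finset.mem_Ico] at hj
      exact hk j hj.1 hj.2)
    rwa [Nat.card_Ico, nsmul_eq_mul] at this
  have c3 : ((h * H - h * (k + 1) : ℕ) : ℝ) * -(G / (2 * H * h)) ≤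
      ∑ j ∈ Ico (h * (k + 1)) (h * H), f j := by
    have := Finset.card_nsmul_le_sum (Ico (h * (k + 1)) (h * H)) f (-(G / (2 * H * h)))
      (fun j hj => by
        rw [Finset.mem_Ico] at hj
        exact h1 j (by omega) hj.2)
    rwa [Nat.card_Ico, nsmul_eq_mul] at this
  rw [Nat.cast_sub e0] at c1
  rw [Nat.cast_sub e1] at c2
  rw [Nat.cast_sub e2] at c3
  push_cast at c1 c2 c3
  have d2 : ((h : ℝ) * (k + 1) - h * k) * (G / h) = G := by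
    field_simp
    ring
  have d1 : ((h : ℝ) * k - h) * -(G / (2 * H * h)) + ((h : ℝ) * H - h * (k + 1)) *
      -(G / (2 * H * h)) = -(G / 2) + G / H := by
    field_simp
    ring
  have d3 : 0 ≤ G / H := by positivity
  rw [hsplit]
  linarith

/-- **window sums** -/
theorem window_sum (H m W : ℕ) (hH : 2 ≤ H) (hm : 1 ≤ m) (G : ℝ) (hG : 0 ≤ G) (f : ℕ → ℝ)
    (h1 : ∀ w < W, ∀ j, m * H ^ w ≤ j → j < m * H ^ (w + 1) →
      -(G / (2 * H * ((m * H ^ w : ℕ) : ℝ))) ≤ f j)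
    (h2 : ∀ w < W, ∃ k, 1 ≤ k ∧ k < H ∧ ∀ j, m * H ^ w * k ≤ j → j < m * H ^ w * (k + 1) →
      G / ((m * H ^ w : ℕ) : ℝ) ≤ f j) :
    W * (G / 2) ≤ ∑ i ∈ range (m * H ^ W - m), f (m + i) := by
  rw [← Finset.sum_Ico_eq_sum_range]
  induction W with
  | zero => simp
  | succ W ih =>
    have ih' := ih (fun w hw => h1 w (by omega)) (fun w hw => h2 w (by omega))
    have e1 : m ≤ m * H ^ W := Nat.le_mul_of_pos_right m (by positivity)
    have e2 : m * H ^ W ≤ m * H ^ (W + 1) :=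
      Nat.mul_le_mul_left m (Nat.pow_le_pow_right (by omega) (by omega))
    rw [← Finset.sum_Ico_consecutive f e1 e2]
    have e3 : m * H ^ (W + 1) = m * H ^ W * H := by rw [pow_succ]; ring
    have hpos : 1 ≤ m * H ^ W := Nat.one_le_iff_ne_zero.mpr (by positivity)
    have key := one_window H (m * H ^ W) hH hpos G hG f
      (fun j hj hj' => h1 W (by omega) j hj (by rw [e3]; exact hj')) (h2 W (by omega))
    rw [← e3] at key
    push_cast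
    linarith

/-- sums of the scales below a level -/
theorem geo_sum (A m : ℕ) (B c κ : ℝ) (s : ℕ → ℝ) (hc : 0 < c) (hc1 : c ≤ 1) (hκ : 0 < κ)
    (hA : 1 + 8 / c ≤ A) (hB : B ≤ c / 4 * (κ * (A : ℝ) ^ m)) (hB0 : 0 ≤ B)
    (hs1 : ∀ i, κ * (A : ℝ) ^ (m + i) ≤ s i) (hs2 : ∀ i, s i ≤ 2 * κ * (A : ℝ) ^ (m + i)) (i : ℕ) :
    ∑ j ∈ range i, (B + s j) ≤ c / 2 * s i := by
  have h8 : 0 < 8 / c := by positivity
  have hA1 : (1 : ℝ) < A := by linarith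
  have hA0 : (0 : ℝ) < A := by linarith
  have hAm : (0 : ℝ) < (A : ℝ) ^ m := by positivity
  have hc8 : 8 ≤ c * (A - 1) := by
    have : 8 / c ≤ A - 1 := by linarith
    rw [div_le_iff₀ hc] at this
    linarith
  have claim : ∀ i : ℕ, ∑ j ∈ range i, (B + s j) ≤ c / 2 * (κ * (A : ℝ) ^ (m + i)) := by
    intro i
    induction i with
    | zero =>
      simp only [Finset.range_zero, Finset.sum_empty]
      positivity
    | succ i ih =>
      rw [Finset.sum_range_succ]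
      have h1 := hs2 i
      have h2 : B ≤ c / 4 * (κ * (A : ℝ) ^ (m + i)) := by
        refine hB.trans ?_
        have : (A : ℝ) ^ m ≤ (A : ℝ) ^ (m + i) := pow_le_pow_right₀ hA1.le (by omega)
        have := mul_le_mul_of_nonneg_left this hκ.le
        exact mul_le_mul_of_nonneg_left this (by positivity)
      have h3 : (A : ℝ) ^ (m + (i + 1)) = (A : ℝ) ^ (m + i) * A := by
        rw [← add_assoc, pow_succ]
      rw [h3]
      have h4 : (0 : ℝ) < κ * (A : ℝ) ^ (m + i) := by positivity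
      have h5 := mul_le_mul_of_nonneg_right hc8 h4.le
      have h6 := mul_le_mul_of_nonneg_right hc1 h4.le
      nlinarith
  exact (claim i).trans (mul_le_mul_of_nonneg_left (hs1 i) (by positivity))

/-- growth of the scales -/
theorem growth (A m : ℕ) (ρ κ : ℝ) (s : ℕ → ℝ) (hρ : 0 ≤ ρ) (hκ : 0 < κ)
    (hA : 2 * ρ + 2 ≤ A) (hm : 1 ≤ κ * (A : ℝ) ^ m)
    (hs1 : ∀ i, κ * (A : ℝ) ^ (m + i) ≤ s i) (hs2 : ∀ i, s i ≤ 2 * κ * (A : ℝ) ^ (m + i)) (i : ℕ) :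
    ρ * s i + 2 ≤ s (i + 1) := by
  have hA1 : (1 : ℝ) ≤ A := by linarith
  have h1 := hs1 (i + 1)
  have h2 := mul_le_mul_of_nonneg_left (hs2 i) hρ
  have h3 : (A : ℝ) ^ (m + (i + 1)) = (A : ℝ) ^ (m + i) * A := by
    rw [← add_assoc, pow_succ]
  rw [h3] at h1
  have h4 : 1 ≤ κ * (A : ℝ) ^ (m + i) := by
    refine hm.trans (mul_le_mul_of_nonneg_left ?_ hκ.le)
    exact pow_le_pow_right₀ hA1 (by omega)
  have h5 := mul_le_mul_of_nonneg_left hA (by linarith : (0 : ℝ) ≤ κ * (A : ℝ) ^ (m + i))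
  linarith

/-- the scales increase -/
theorem s_mono (A m : ℕ) (κ : ℝ) (s : ℕ → ℝ) (hκ : 0 < κ) (hA : 2 ≤ A)
    (hs1 : ∀ i, κ * (A : ℝ) ^ (m + i) ≤ s i) (hs2 : ∀ i, s i ≤ 2 * κ * (A : ℝ) ^ (m + i)) (i : ℕ) :
    s 0 ≤ s i := by
  rcases Nat.eq_zero_or_pos i with rfl | hi
  · exact le_rfl
  · have h1 := hs2 0
    have h2 := hs1 i
    have hA' : (2 : ℝ) ≤ A := by exact_mod_cast hA
    have h3 : 2 * (A : ℝ) ^ (m + 0) ≤ (A : ℝ) ^ (m + i) := by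
      calc 2 * (A : ℝ) ^ (m + 0) ≤ A * (A : ℝ) ^ (m + 0) :=
            mul_le_mul_of_nonneg_right hA' (by positivity)
        _ = (A : ℝ) ^ (m + 1) := by rw [add_zero, pow_succ]; ring
        _ ≤ _ := pow_le_pow_right₀ (by linarith) (by omega)
    have := mul_le_mul_of_nonneg_left h3 hκ.le
    linarith

/-- a good level -/
theorem level_good (H h j : ℕ) (L κ δ z k b ℓ : ℝ) (hH : 2 ≤ H) (hh : 1 ≤ h) (hj1 : h ≤ j)
    (hj2 : j < h * H) (hL : 0 < L) (hhL : 4 ≤ h * L) (hκ : 0 < κ) (hδ : 0 < δ) (hz : 0 < z)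
    (hk : 0 ≤ k) (hℓ : 0 < ℓ) (hb0 : 0 < b) (hks : κ * z ≤ k * (j * L))
    (hb : b * (δ * ℓ) ≤ 8 * z * (h * L)) :
    (κ * δ * ℓ / (32 * H * L)) / h ≤
      (k / 2 * (h * L - Real.log 2) - 1 / (32 * (H : ℝ) ^ 2) * (k * (j * L))) / b := by
  have hH' : (2 : ℝ) ≤ H := by exact_mod_cast hH
  have hH0 : (0 : ℝ) < H := by linarith
  have hh0 : (0 : ℝ) < h := by exact_mod_cast (by omega : 0 < h)
  have hj1' : (h : ℝ) ≤ j := by exact_mod_cast hj1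
  have hj0 : (0 : ℝ) < j := by linarith
  have hj2' : (j : ℝ) ≤ h * H := by exact_mod_cast hj2.le
  have hlog2 : Real.log 2 < 0.6931471808 := Real.log_two_lt_d9
  -- numerator
  have n1 : 1 / (32 * (H : ℝ) ^ 2) * (j * L) ≤ h * L / 64 := by
    rw [div_mul_eq_mul_div, one_mul, div_le_div_iff₀ (by positivity) (by norm_num)]
    have : (j : ℝ) * L ≤ h * H * L := mul_le_mul_of_nonneg_right hj2' hL.le
    have h3 : h * L * (2 * H) ≤ h * L * (H ^ 2) := by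
      refine mul_le_mul_of_nonneg_left ?_ (by positivity)
      nlinarith
    nlinarith
  have n2 : h * L / 4 ≤ 1 / 2 * (h * L - Real.log 2) - 1 / (32 * (H : ℝ) ^ 2) * (j * L) := by
    linarith
  have n3 : k * (h * L / 4) ≤
      k / 2 * (h * L - Real.log 2) - 1 / (32 * (H : ℝ) ^ 2) * (k * (j * L)) := by
    have := mul_le_mul_of_nonneg_left n2 hk
    calc _ ≤ _ := this
      _ = _ := by ring
  rw [div_div, div_le_div_iff₀ (by positivity) hb0]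
  have s1 : κ * (δ * ℓ) * b ≤ κ * (8 * z * (h * L)) := by
    have := mul_le_mul_of_nonneg_left hb hκ.le
    linarith
  have s2 : κ * (8 * z * (h * L)) ≤ k * (j * L) * (8 * (h * L)) := by
    have := mul_le_mul_of_nonneg_right hks (by positivity : (0 : ℝ) ≤ 8 * (h * L))
    linarith
  have s3 : k * (j * L) * (8 * (h * L)) ≤ k * (h * H * L) * (8 * (h * L)) := by
    have := mul_le_mul_of_nonneg_right hj2' hL.le
    have := mul_le_mul_of_nonneg_left this hk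
    exact mul_le_mul_of_nonneg_right this (by positivity)
  have s4 : k * (h * H * L) * (8 * (h * L)) = k * (h * L / 4) * (32 * H * L * h) := by ring
  have s5 := mul_le_mul_of_nonneg_right n3 (by positivity : (0 : ℝ) ≤ 32 * H * L * h)
  linarith

/-- an arbitrary level -/
theorem level_any (H h : ℕ) (L κ δ z s b ℓ : ℝ) (hH : 2 ≤ H) (hh : 1 ≤ h)
    (hL : 0 < L) (hκ : 0 < κ) (hδ : 0 < δ) (hz : 0 < z)
    (hℓ : 0 < ℓ) (hb0 : 0 < b) (hks : s ≤ 2 * κ * z)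
    (hb : 4 * z * (h * L) ≤ b * (δ * ℓ)) :
    -((κ * δ * ℓ / (32 * H * L)) / (2 * H * h)) ≤ -(1 / (32 * (H : ℝ) ^ 2) * s) / b := by
  have hH' : (2 : ℝ) ≤ H := by exact_mod_cast hH
  have hH0 : (0 : ℝ) < H := by linarith
  have hh0 : (0 : ℝ) < h := by exact_mod_cast (by omega : 0 < h)
  rw [neg_div, neg_le_neg_iff, div_div, div_le_div_iff₀ hb0 (by positivity)]
  have s1 : s * (4 * z * (h * L)) ≤ 2 * κ * z * (b * (δ * ℓ)) := by
    rcases le_or_gt s 0 with h0 | h0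
    · have : s * (4 * z * (h * L)) ≤ 0 := mul_nonpos_of_nonpos_of_nonneg h0 (by positivity)
      have h2 : 0 ≤ 2 * κ * z * (b * (δ * ℓ)) := by positivity
      linarith
    · exact mul_le_mul hks hb (by positivity) (by positivity)
  have s2 : s * (2 * (h * L)) ≤ κ * (b * (δ * ℓ)) := by
    have h2z : 0 < 2 * z := by positivity
    refine le_of_mul_le_mul_left ?_ h2z
    linarith
  have e1 : 1 / (32 * (H : ℝ) ^ 2) * s * (32 * H * L * (2 * H * h)) = s * (2 * (h * L)) := by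
    field_simp
  rw [e1]
  linarith

/-- polynomial against exponential -/
theorem poly_exp (A : ℕ) (hA : 2 ≤ A) (C : ℝ) :
    ∃ m₀ : ℕ, 1 ≤ m₀ ∧ ∀ m : ℕ, m₀ ≤ m → C * (m : ℝ) ^ 2 ≤ (A : ℝ) ^ m := by
  have hA' : (1 : ℝ) < A := by exact_mod_cast (by omega : 1 < A)
  have h := tendsto_pow_const_div_const_pow_of_one_lt 2 hA'
  have hC : (0 : ℝ) < 1 / (|C| + 1) := by positivity
  have h2 := (h.eventually (gt_mem_nhds hC)).and (Filter.eventually_ge_atTop 1)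
  obtain ⟨m₀, hm₀⟩ := Filter.eventually_atTop.mp h2
  refine ⟨max m₀ 1, le_max_right _ _, fun m hm => ?_⟩
  obtain ⟨h3, h4⟩ := hm₀ m (le_trans (le_max_left _ _) hm)
  have hAm : (0 : ℝ) < (A : ℝ) ^ m := by positivity
  rw [div_lt_div_iff₀ hAm (by positivity)] at h3
  have h5 : C * (m : ℝ) ^ 2 ≤ (|C| + 1) * (m : ℝ) ^ 2 :=
    mul_le_mul_of_nonneg_right (by have := le_abs_self C; linarith) (by positivity)
  linarith

/-- lower bounds for `m` -/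
theorem exists_m0 (A : ℕ) (hA : 2 ≤ A) (κ C K₁ K₂ : ℝ) (hκ : 0 < κ) :
    ∃ m : ℕ, 1 ≤ m ∧ C ≤ m ∧ C ≤ (A : ℝ) ^ m ∧ C ≤ κ * (A : ℝ) ^ m ∧
      C ≤ m * Real.log A ∧ 1 ≤ m * Real.log A ∧ K₁ * (m : ℝ) ^ 2 < (A : ℝ) ^ m ∧
      ∀ h : ℕ, m ≤ h → K₂ * (h : ℝ) ^ 2 ≤ (A : ℝ) ^ h := by
  have hA' : (2 : ℝ) ≤ A := by exact_mod_cast hA
  have hlogA : 0 < Real.log A := Real.log_pos (by linarith)
  obtain ⟨m₁, -, hm₁⟩ := poly_exp A hA (|K₁| + |C| + |C| / κ + 1)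
  obtain ⟨m₂, -, hm₂⟩ := poly_exp A hA K₂
  obtain ⟨m, hmm₁, hmm₂, hm1, hm3⟩ : ∃ m : ℕ, m₁ ≤ m ∧ m₂ ≤ m ∧ 1 ≤ m ∧
      ⌈|C|⌉₊ + ⌈|C| / Real.log A⌉₊ + ⌈1 / Real.log A⌉₊ ≤ m :=
    ⟨max (max m₁ m₂) (max 1 (⌈|C|⌉₊ + ⌈|C| / Real.log A⌉₊ + ⌈1 / Real.log A⌉₊)),
      (le_max_left _ _).trans (le_max_left _ _), (le_max_right _ _).trans (le_max_left _ _),
      (le_max_left _ _).trans (le_max_right _ _), (le_max_right _ _).trans (le_max_right _ _)⟩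
  have hm1' : (1 : ℝ) ≤ m := by exact_mod_cast hm1
  have hm3' : ((⌈|C|⌉₊ : ℕ) : ℝ) + (⌈|C| / Real.log A⌉₊ : ℕ) + (⌈1 / Real.log A⌉₊ : ℕ) ≤ m := by
    exact_mod_cast hm3
  have c1 := Nat.le_ceil |C|
  have c2 := Nat.le_ceil (|C| / Real.log A)
  have c3 := Nat.le_ceil (1 / Real.log A)
  have c4 := le_abs_self C
  have c5 : 0 ≤ |C| / Real.log A := by positivity
  have c6 : 0 ≤ 1 / Real.log A := by positivity
  have c7 := abs_nonneg C
  have c8 := le_abs_self K₁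
  have hCm : |C| ≤ m := by linarith
  have hCl : |C| ≤ m * Real.log A := by
    have : |C| / Real.log A ≤ m := by linarith
    rwa [div_le_iff₀ hlogA] at this
  have h1l : 1 ≤ m * Real.log A := by
    have : 1 / Real.log A ≤ m := by linarith
    rwa [div_le_iff₀ hlogA] at this
  have hm2' : (1 : ℝ) ≤ (m : ℝ) ^ 2 := by nlinarith
  have big := hm₁ m hmm₁
  have e3 : K₁ * (m : ℝ) ^ 2 ≤ |K₁| * (m : ℝ) ^ 2 := mul_le_mul_of_nonneg_right c8 (by positivity)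
  have e3' : 0 ≤ |K₁| * (m : ℝ) ^ 2 := by positivity
  have e4 : |C| ≤ |C| * (m : ℝ) ^ 2 := le_mul_of_one_le_right c7 hm2'
  have e5 : |C| / κ ≤ |C| / κ * (m : ℝ) ^ 2 := le_mul_of_one_le_right (by positivity) hm2'
  have e5' : 0 ≤ |C| / κ := by positivity
  have e7 : (|K₁| + |C| + |C| / κ + 1) * (m : ℝ) ^ 2 = |K₁| * (m : ℝ) ^ 2 + |C| * (m : ℝ) ^ 2 +
      |C| / κ * (m : ℝ) ^ 2 + (m : ℝ) ^ 2 := by ring
  rw [e7] at big
  refine ⟨m, hm1, by linarith, by linarith, ?_, by linarith, h1l, by linarith,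
    fun h hh => hm₂ h (hmm₂.trans hh)⟩
  have h2 : |C| / κ ≤ (A : ℝ) ^ m := by linarith
  rw [div_le_iff₀ hκ] at h2
  linarith

/-- **the choice of `m`** -/
theorem exists_m (A H W D : ℕ) (hA : 2 ≤ A) (hH : 2 ≤ H) (δ κ C : ℝ) (hδ : 0 < δ)
    (hδ1 : δ ≤ 1) (hκ : 0 < κ) :
    ∃ m ℓ : ℕ, 1 ≤ m ∧ 1 ≤ ℓ ∧ C ≤ m ∧ C ≤ (A : ℝ) ^ m ∧ C ≤ κ * (A : ℝ) ^ m ∧
      C ≤ m * Real.log A ∧
      Real.log ((A ^ (m * H ^ W) : ℕ) : ℝ) ≤ ℓ ∧
      4 * (ℓ * D) ^ 2 < A ^ m ∧ 2 * ℓ ≤ A ^ (m * H ^ W) ∧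
      (∀ w < W, 4 * (ℓ : ℝ) * (A : ℝ) ^ (m * H ^ w) ≤ δ * ((A ^ (m * H ^ W) : ℕ) : ℝ)) ∧
      δ * ℓ ≤ 4 * (A : ℝ) ^ m * (m * Real.log A) ∧
      (∀ h : ℕ, m ≤ h → 2 * (H * h * Real.log A) ≤ κ * (A : ℝ) ^ h) := by
  have hA' : (2 : ℝ) ≤ A := by exact_mod_cast hA
  have hlogA : 0 < Real.log A := Real.log_pos (by linarith)
  have hH0 : (0 : ℝ) < H := by exact_mod_cast (by omega : 0 < H)
  obtain ⟨K, hK⟩ : ∃ K : ℝ, K = (H : ℝ) ^ W * Real.log A + 1 := ⟨_, rfl⟩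
  have hK1 : 1 ≤ K := by
    have : 0 ≤ (H : ℝ) ^ W * Real.log A := by positivity
    linarith
  obtain ⟨m, hm1, hCm, hCA, hCκ, hCl, h1l, hbig, hbig2⟩ :=
    exists_m0 A hA κ C (4 * (K * D) ^ 2 + 4 * K / δ + 4 * K) (2 * (H * Real.log A) / κ) hκ
  have hm1' : (1 : ℝ) ≤ m := by exact_mod_cast hm1
  have hHW : (1 : ℝ) ≤ (H : ℝ) ^ W := one_le_pow₀ (by exact_mod_cast (by omega : 1 ≤ H))
  obtain ⟨ℓ, hℓ0, hℓK⟩ : ∃ ℓ : ℕ, (m : ℝ) * (H : ℝ) ^ W * Real.log A ≤ ℓ ∧ (ℓ : ℝ) ≤ K * m := by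
    refine ⟨⌈(m : ℝ) * (H : ℝ) ^ W * Real.log A⌉₊, Nat.le_ceil _, ?_⟩
    have h0 : (0 : ℝ) ≤ (m : ℝ) * (H : ℝ) ^ W * Real.log A := by positivity
    have := (Nat.ceil_lt_add_one h0).le
    have e : K * m = (m : ℝ) * (H : ℝ) ^ W * Real.log A + m := by rw [hK]; ring
    linarith
  have hℓ1r : (1 : ℝ) ≤ ℓ := by
    have h1 : (m : ℝ) * 1 ≤ (m : ℝ) * (H : ℝ) ^ W := mul_le_mul_of_nonneg_left hHW (by linarith)
    have := mul_le_mul_of_nonneg_right h1 hlogA.le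
    linarith
  have hm2 : (m : ℝ) ≤ (m : ℝ) ^ 2 := by nlinarith
  have e1 : 0 ≤ 4 * (K * D) ^ 2 * (m : ℝ) ^ 2 := by positivity
  have e2 : 0 ≤ 4 * K / δ * (m : ℝ) ^ 2 := by positivity
  have e3 : 0 ≤ 4 * K * (m : ℝ) ^ 2 := by positivity
  have e7 : (4 * (K * D) ^ 2 + 4 * K / δ + 4 * K) * (m : ℝ) ^ 2 = 4 * (K * D) ^ 2 * (m : ℝ) ^ 2 +
      4 * K / δ * (m : ℝ) ^ 2 + 4 * K * (m : ℝ) ^ 2 := by ring
  rw [e7] at hbig
  have hℓδ : 4 * (ℓ : ℝ) ≤ δ * (A : ℝ) ^ m := by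
    have h1 : 4 * K / δ * (m : ℝ) ^ 2 ≤ (A : ℝ) ^ m := by linarith
    have h2 := mul_le_mul_of_nonneg_left h1 hδ.le
    have e : δ * (4 * K / δ * (m : ℝ) ^ 2) = 4 * (K * (m : ℝ) ^ 2) := by
      field_simp
    have h3 : K * m ≤ K * (m : ℝ) ^ 2 := mul_le_mul_of_nonneg_left hm2 (by linarith)
    linarith
  have hAm0 : (0 : ℝ) < (A : ℝ) ^ m := by positivity
  have hℓA : 4 * (ℓ : ℝ) ≤ (A : ℝ) ^ m := by
    have : δ * (A : ℝ) ^ m ≤ 1 * (A : ℝ) ^ m := mul_le_mul_of_nonneg_right hδ1 hAm0.le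
    linarith
  have hmW : m ≤ m * H ^ W := Nat.le_mul_of_pos_right m (by positivity)
  have hAmW : (A : ℝ) ^ m ≤ (A : ℝ) ^ (m * H ^ W) := pow_le_pow_right₀ (by linarith) hmW
  refine ⟨m, ℓ, hm1, by exact_mod_cast hℓ1r, hCm, hCA, hCκ, hCl, ?_, ?_, ?_, ?_, ?_, ?_⟩
  · rw [Nat.cast_pow, Real.log_pow, Nat.cast_mul, Nat.cast_pow]
    exact hℓ0
  · have h2 : (ℓ : ℝ) * D ≤ K * m * D := mul_le_mul_of_nonneg_right hℓK (by positivity)
    have h3 : ((ℓ : ℝ) * D) ^ 2 ≤ (K * m * D) ^ 2 := pow_le_pow_left₀ (by positivity) h2 2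
    have h4 : 4 * (K * m * D) ^ 2 = 4 * (K * D) ^ 2 * (m : ℝ) ^ 2 := by ring
    have h1 : 4 * ((ℓ : ℝ) * D) ^ 2 < (A : ℝ) ^ m := by linarith
    exact_mod_cast h1
  · have h1 : 2 * (ℓ : ℝ) ≤ (A : ℝ) ^ (m * H ^ W) := by linarith
    exact_mod_cast h1
  · intro w hw
    have h1 : m * H ^ w + m ≤ m * H ^ W := by
      have h2 : H ^ w * 2 ≤ H ^ W := by
        calc H ^ w * 2 ≤ H ^ w * H := Nat.mul_le_mul_left _ hH
          _ = H ^ (w + 1) := by rw [pow_succ]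
          _ ≤ H ^ W := Nat.pow_le_pow_right (by omega) hw
      have h3 : 1 ≤ H ^ w := Nat.one_le_pow _ _ (by omega)
      have h4 : H ^ w + 1 ≤ H ^ W := by omega
      have h5 := Nat.mul_le_mul_left m h4
      rwa [Nat.mul_add, Nat.mul_one] at h5
    have h6 : (A : ℝ) ^ (m * H ^ w) * (A : ℝ) ^ m ≤ (A : ℝ) ^ (m * H ^ W) := by
      rw [← pow_add]
      exact pow_le_pow_right₀ (by linarith) h1
    rw [Nat.cast_pow]
    calc 4 * (ℓ : ℝ) * (A : ℝ) ^ (m * H ^ w) ≤ δ * (A : ℝ) ^ m * (A : ℝ) ^ (m * H ^ w) :=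
          mul_le_mul_of_nonneg_right hℓδ (by positivity)
      _ = δ * ((A : ℝ) ^ (m * H ^ w) * (A : ℝ) ^ m) := by ring
      _ ≤ _ := mul_le_mul_of_nonneg_left h6 hδ.le
  · have h1 : δ * (ℓ : ℝ) ≤ 1 * ℓ := mul_le_mul_of_nonneg_right hδ1 (by positivity)
    have h2 : (A : ℝ) ^ m * 1 ≤ (A : ℝ) ^ m * (m * Real.log A) :=
      mul_le_mul_of_nonneg_left h1l hAm0.le
    linarith
  · intro h hh
    have h1 := hbig2 h hh
    have hh1 : (1 : ℝ) ≤ h := by exact_mod_cast hm1.trans hh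
    have h2 : 2 * (H * Real.log A) / κ * h ≤ (A : ℝ) ^ h := by
      refine le_trans ?_ h1
      refine mul_le_mul_of_nonneg_left ?_ (by positivity)
      nlinarith
    have h3 := mul_le_mul_of_nonneg_left h2 hκ.le
    have e : κ * (2 * (H * Real.log A) / κ * h) = 2 * (H * h * Real.log A) := by
      field_simp
    linarith

/-- the window of a level -/
theorem win_eq (H m w j : ℕ) (hH : 2 ≤ H) (hm : 1 ≤ m) (h1 : m * H ^ w ≤ j)
    (h2 : j < m * H ^ (w + 1)) : Nat.log H (j / m) = w := by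
  refine Nat.log_eq_of_pow_le_of_lt_pow ?_ ?_
  · rw [Nat.le_div_iff_mul_le (by omega)]
    rwa [mul_comm]
  · rw [Nat.div_lt_iff_lt_mul (by omega)]
    rwa [mul_comm]

/-- the window of a level exists -/
theorem exists_win (H m W j : ℕ) (hH : 2 ≤ H) (hm : 1 ≤ m) (h1 : m ≤ j)
    (h2 : j < m * H ^ W) : ∃ w < W, m * H ^ w ≤ j ∧ j < m * H ^ (w + 1) := by
  have hd : j / m ≠ 0 := by
    have : 1 ≤ j / m := (Nat.le_div_iff_mul_le (by omega)).mpr (by omega)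
    omega
  have e1 : H ^ (Nat.log H (j / m)) ≤ j / m := Nat.pow_log_le_self H hd
  have e2 : j / m < H ^ (Nat.log H (j / m) + 1) := Nat.lt_pow_succ_log_self (by omega) _
  rw [Nat.le_div_iff_mul_le (by omega), mul_comm] at e1
  rw [Nat.div_lt_iff_lt_mul (by omega), mul_comm] at e2
  refine ⟨Nat.log H (j / m), ?_, e1, e2⟩
  by_contra hcon
  push Not at hcon
  have : m * H ^ W ≤ m * H ^ (Nat.log H (j / m)) :=
    Nat.mul_le_mul_left m (Nat.pow_le_pow_right (by omega) hcon)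
  omega

/-- **the numbers of samples**: powers of two, `b i` belongs to the level `j = m + i` -/
theorem exists_b (A H m ℓ : ℕ) (hA : 2 ≤ A) (hH : 2 ≤ H) (hm : 1 ≤ m) (hℓ : 1 ≤ ℓ) (δ : ℝ)
    (hδ : 0 < δ) (hx : δ * ℓ ≤ 4 * (A : ℝ) ^ m * (m * Real.log A)) :
    ∃ b : ℕ → ℕ, (∀ i, 0 < b i) ∧ (∀ i, b i ∣ b (i + 1)) ∧
      ∀ w i, m * H ^ w ≤ m + i → m + i < m * H ^ (w + 1) →
        4 * (A : ℝ) ^ (m + i) * (((m * H ^ w : ℕ) : ℝ) * Real.log A) ≤ b i * (δ * ℓ) ∧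
        b i * (δ * ℓ) ≤ 8 * (A : ℝ) ^ (m + i) * (((m * H ^ w : ℕ) : ℝ) * Real.log A) := by
  have hA' : (2 : ℝ) ≤ A := by exact_mod_cast hA
  have hlogA : 0 < Real.log A := Real.log_pos (by linarith)
  have hℓ' : (1 : ℝ) ≤ ℓ := by exact_mod_cast hℓ
  have hm' : (1 : ℝ) ≤ m := by exact_mod_cast hm
  have hδℓ : 0 < δ * ℓ := by positivity
  obtain ⟨x, hxdef⟩ : ∃ x : ℕ → ℝ, ∀ i, x i = 4 * (A : ℝ) ^ (m + i) *
      (((m * H ^ (Nat.log H ((m + i) / m)) : ℕ) : ℝ) * Real.log A) / (δ * ℓ) := ⟨_, fun i => rfl⟩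
  have hmono : ∀ i, x i ≤ x (i + 1) := by
    intro i
    rw [hxdef, hxdef]
    refine div_le_div_of_nonneg_right ?_ hδℓ.le
    refine mul_le_mul ?_ ?_ (by positivity) (by positivity)
    · exact mul_le_mul_of_nonneg_left (pow_le_pow_right₀ (by linarith) (by omega)) (by norm_num)
    · refine mul_le_mul_of_nonneg_right ?_ hlogA.le
      have h1 : Nat.log H ((m + i) / m) ≤ Nat.log H ((m + (i + 1)) / m) :=
        Nat.log_mono_right (Nat.div_le_div_right (by omega))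
      exact_mod_cast Nat.mul_le_mul_left m (Nat.pow_le_pow_right (by omega) h1)
  have h0 : 1 ≤ x 0 := by
    rw [hxdef, le_div_iff₀ hδℓ, one_mul, add_zero, Nat.div_self (by omega), Nat.log_one_right,
      pow_zero, mul_one]
    exact hx
  have h1 : ∀ i, 1 ≤ x i := by
    intro i
    induction i with
    | zero => exact h0
    | succ i ih => exact ih.trans (hmono i)
  obtain ⟨b, hb1, hb2, hb3, hb4⟩ := exists_pow2 x h1 hmono
  refine ⟨b, hb1, hb2, ?_⟩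
  intro w i hw1 hw2
  have hw := win_eq H m w (m + i) hH hm hw1 hw2
  have h3 := hb3 i
  have h4 := hb4 i
  rw [hxdef, hw] at h3 h4
  rw [div_le_iff₀ hδℓ] at h3
  refine ⟨h3, ?_⟩
  have h5 := mul_le_mul_of_nonneg_right h4 hδℓ.le
  rw [mul_assoc 2, div_mul_cancel₀ _ hδℓ.ne'] at h5
  linarith

end Vale.Agent.P015.M
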