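import Vale.Agent.P015.M.FINd
import Vale.Agent.P015.M.FINe
import Vale.Agent.P015.M.FINg
import Vale.Agent.P015.M.FINsum

/-! # P015, the moat theorem: the assembly -/

namespace Vale.Agent.P015.M.FIN

open Finset hiding box
open Vale.Agent.P006.CLS Vale.Agent.P015.H222
open scoped Pointwise

/-- window sums -/
theorem win_sum (m H W : ℕ) (q c₁ : ℝ) (f : ℕ → ℝ) (hm : 1 ≤ m) (hH : 2 ≤ H) (hq : 0 ≤ q)
    (hc : c₁ ≤ 1 / (32 * (H : ℝ) ^ 2))
    (h1 : ∀ w < W, ∀ j, m * H ^ w ≤ j → j < m * H ^ (w + 1) → -(c₁ * q / (2 * (m * H ^ w))) ≤ f j)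
    (h2 : ∀ w < W, ∃ k, 1 ≤ k ∧ k < H ∧ ∀ j, m * H ^ w * k ≤ j → j < m * H ^ w * (k + 1) →
      q / (32 * H * (m * H ^ w)) ≤ f j) :
    W * q / (64 * H) ≤ ∑ i ∈ range (m * H ^ W - m), f (m + i) := by
  have hH0 : (0 : ℝ) < H := by exact_mod_cast (by omega : 0 < H)
  have hm0 : (0 : ℝ) < m := by exact_mod_cast (by omega : 0 < m)
  have h := window_sum H m W hH hm (q / (32 * H)) (by positivity) f
    (fun w hw j hj1 hj2 => by
      refine le_trans ?_ (h1 w hw j hj1 hj2)
      push_cast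
      rw [neg_le_neg_iff, div_div]
      have e : q / (32 * H * (2 * H * (m * (H : ℝ) ^ w))) =
          (1 / (32 * (H : ℝ) ^ 2)) * q / (2 * (m * (H : ℝ) ^ w)) := by
        field_simp
      rw [e]
      gcongr)
    (fun w hw => by
      obtain ⟨k, hk1, hk2, hk⟩ := h2 w hw
      refine ⟨k, hk1, hk2, fun j hj1 hj2 => le_trans (le_of_eq ?_) (hk j hj1 hj2)⟩
      push_cast
      rw [div_div])
  refine le_trans (le_of_eq ?_) h
  field_simp
  ring

/-- the conditions on `m` -/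
structure MC (A H W B D z₀ m ℓ : ℕ) (κ c₁ δ s₀ Λ₀ : ℝ) : Prop where
  one : 1 ≤ m
  z0 : z₀ ≤ A ^ m
  s0 : s₀ ≤ κ * (A : ℝ) ^ m
  lam : Λ₀ ≤ (A : ℝ) ^ m
  log2 : Real.log 2 ≤ c₁ / 8 * (m * Real.log A)
  log2' : 4 * Real.log 2 ≤ m * Real.log A
  logB : Real.log B ≤ c₁ / 4 * (κ * (A : ℝ) ^ m)
  kap : 1 ≤ κ * (A : ℝ) ^ m
  expD : (4 * D + 5 : ℝ) ≤ Real.exp (κ * (A : ℝ) ^ m)
  ell0 : 1 ≤ ℓ
  ellN : Real.log ((A ^ (m * H ^ W) : ℕ) : ℝ) ≤ ℓ
  ell1 : 4 * (ℓ * D) ^ 2 < A ^ m
  ell3 : 2 * ℓ ≤ A ^ (m * H ^ W)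
  ell4 : ∀ w < W, 4 * (ℓ : ℝ) * (A : ℝ) ^ (m * H ^ w) ≤ δ * ((A ^ (m * H ^ W) : ℕ) : ℝ)
  ell5 : δ * ℓ ≤ 4 * (A : ℝ) ^ m * (m * Real.log A)

theorem exists_MC (A H W B D z₀ : ℕ) (κ c₁ δ s₀ Λ₀ : ℝ) (hA : 2 ≤ A) (hH : 2 ≤ H)
    (hκ : 0 < κ) (hc : 0 < c₁) (hδ : 0 < δ) (hδ1 : δ ≤ 1) :
    ∃ m ℓ : ℕ, MC A H W B D z₀ m ℓ κ c₁ δ s₀ Λ₀ := by
  obtain ⟨C, h0, h1, h2, h3, h4, h5, h6, h7⟩ : ∃ C : ℝ, (z₀ : ℝ) ≤ C ∧ s₀ ≤ C ∧ Λ₀ ≤ C ∧
      8 * Real.log 2 / c₁ ≤ C ∧ 4 * Real.log 2 ≤ C ∧ 4 * Real.log B / c₁ ≤ C ∧ 1 ≤ C ∧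
      (4 * D + 5 : ℝ) ≤ C := by
    refine ⟨|(z₀ : ℝ)| + |s₀| + |Λ₀| + |8 * Real.log 2 / c₁| + |4 * Real.log 2| +
      |4 * Real.log B / c₁| + 1 + |(4 * D + 5 : ℝ)|, ?_, ?_, ?_, ?_, ?_, ?_, ?_, ?_⟩
    all_goals
      have a0 := le_abs_self (z₀ : ℝ)
      have a1 := le_abs_self s₀
      have a2 := le_abs_self Λ₀
      have a3 := le_abs_self (8 * Real.log 2 / c₁)
      have a4 := le_abs_self (4 * Real.log 2)
      have a5 := le_abs_self (4 * Real.log B / c₁)
      have a6 := le_abs_self (4 * D + 5 : ℝ)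
      have b0 := abs_nonneg (z₀ : ℝ)
      have b1 := abs_nonneg s₀
      have b2 := abs_nonneg Λ₀
      have b3 := abs_nonneg (8 * Real.log 2 / c₁)
      have b4 := abs_nonneg (4 * Real.log 2)
      have b5 := abs_nonneg (4 * Real.log B / c₁)
      have b6 := abs_nonneg (4 * D + 5 : ℝ)
      linarith
  obtain ⟨m, ℓ, e1, e2, -, e4, e5, e6, e7, e8, e9, e10, e11, -⟩ :=
    exists_m A H W D hA hH δ κ C hδ hδ1 hκ
  refine ⟨m, ℓ, e1, ?_, h1.trans e5, h2.trans e4, ?_, h4.trans e6, ?_, h6.trans e5, ?_, e2, e7,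
    e8, e9, e10, e11⟩
  · exact_mod_cast h0.trans e4
  · have h8 := h3.trans e6
    rw [div_le_iff₀ hc] at h8
    linarith
  · have h8 := h5.trans e5
    rw [div_le_iff₀ hc] at h8
    linarith
  · have h8 := Real.add_one_le_exp (κ * (A : ℝ) ^ m)
    linarith [h7.trans e5]

set_option maxHeartbeats 2000000 in
theorem goal_of (h1 : T1Stmt) (h2 : T2Stmt) (hED : EDStmt)
    (hSA : SAStmt) (hPS : PSStmt) (hCov : CoverStmt) : GoalStmt := by
  classical
  intro r hr D' g hinj hstep' hmiss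
  obtain ⟨D, hD1, hstep⟩ : ∃ D : ℕ, 1 ≤ D ∧ ∀ t, g (t + 1) - g t ∈ box D :=
    ⟨D' + 1, by omega, fun t => box_mono (Nat.le_succ _) (hstep' t)⟩
  obtain ⟨H, δ, hH, hδ, hδ1, hgood⟩ := good_sub hCov
  have hH' : (2 : ℝ) ≤ H := by exact_mod_cast hH
  obtain ⟨c₁, hc₁⟩ : ∃ c : ℝ, c = 1 / (32 * (H : ℝ) ^ 2) := ⟨_, rfl⟩
  have hc0 : 0 < c₁ := by rw [hc₁]; positivity
  have hc1 : c₁ < 1 := by
    rw [hc₁, div_lt_one (by positivity)]
    nlinarith
  obtain ⟨B, ρ, s₀, hB, hρ, hrich⟩ := rich_root h1 h2 c₁ hc0 hc1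
  obtain ⟨κ, hκ, hκ1, z₀, hPS⟩ := hPS r hr B hB
  obtain ⟨Λ₀, hΛ₀1, hgood⟩ := hgood D κ hκ
  -- the ratio of the scales
  obtain ⟨A, hA⟩ := exists_nat_ge (max (1 + 8 / c₁) (2 * ρ + 2))
  have hA1 : 1 + 8 / c₁ ≤ (A : ℝ) := (le_max_left _ _).trans hA
  have hA3 : 2 * ρ + 2 ≤ (A : ℝ) := (le_max_right _ _).trans hA
  have hA2 : 2 ≤ A := by
    have : (2 : ℝ) ≤ A := by linarith
    exact_mod_cast this
  have hA2' : (2 : ℝ) ≤ A := by exact_mod_cast hA2
  have hA0 : (0 : ℝ) < A := by linarith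
  have hlogA : 0 < Real.log A := Real.log_pos (by linarith)
  -- the number of windows
  obtain ⟨W, hW⟩ := exists_nat_gt (max 1 (CD D * (64 * H * Real.log A) / (κ * δ)))
  have hW1 : 1 ≤ W := by
    have : (1 : ℝ) < W := (le_max_left _ _).trans_lt hW
    exact_mod_cast this.le
  have hW2 : CD D * (64 * H * Real.log A) / (κ * δ) < W := (le_max_right _ _).trans_lt hW
  obtain ⟨m, ℓ, hm⟩ := exists_MC A H W B D z₀ κ c₁ δ s₀ Λ₀ hA2 hH hκ hc0 hδ hδ1
  have hAm : (0 : ℝ) < (A : ℝ) ^ m := by positivity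
  have hm1 := hm.one
  have hm1' : (1 : ℝ) ≤ m := by exact_mod_cast hm1
  have hHW : 2 ≤ H ^ W := by
    calc 2 ≤ H := hH
      _ = H ^ 1 := (pow_one H).symm
      _ ≤ H ^ W := Nat.pow_le_pow_right (by omega) hW1
  -- the levels
  set n : ℕ := m * H ^ W - m with hn
  have hn1 : 1 ≤ n := by
    have : m * 2 ≤ m * H ^ W := Nat.mul_le_mul_left m hHW
    omega
  set z : ℕ → ℕ := fun i => A ^ (m + i) with hz
  have hzr : ∀ i, (z i : ℝ) = (A : ℝ) ^ (m + i) := fun i => by simp [hz]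
  have hzm : ∀ i, A ^ m ≤ z i := fun i => Nat.pow_le_pow_right (by omega) (by omega)
  have hlogz : ∀ i, Real.log (z i) = (m + i : ℕ) * Real.log A := fun i => by
    rw [hzr, Real.log_pow]
  have hz₀ : ∀ i, z₀ ≤ z i := fun i => hm.z0.trans (hzm i)
  choose! P k hP hPd hk1 hk2 using hPS
  set s : ℕ → ℝ := fun i => k (z i) * Real.log (z i) with hs
  have hs1 : ∀ i, κ * (A : ℝ) ^ (m + i) ≤ s i := fun i => by
    rw [← hzr]; exact hk1 _ (hz₀ i)
  have hs2 : ∀ i, s i ≤ 2 * κ * (A : ℝ) ^ (m + i) := fun i => by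
    rw [← hzr]; exact hk2 _ (hz₀ i)
  obtain ⟨g1, g2, g3, g4⟩ := growth hB hκ hρ hc0 hA2 hA1 hA3 hm.kap hm.logB hs1 hs2
  have hmpow : ∀ i, (A : ℝ) ^ m ≤ (A : ℝ) ^ (m + i) := fun i =>
    pow_le_pow_right₀ (by linarith) (by omega)
  have hz2 : ∀ i, 2 ≤ z i := by
    intro i
    calc 2 ≤ A := hA2
      _ = A ^ 1 := (pow_one A).symm
      _ ≤ z i := Nat.pow_le_pow_right (by omega) (by omega)
  -- the rich root
  obtain ⟨M, hMr⟩ := exists_nat_ge ((10 * Real.exp (ρ * s (n - 1))) ^ 2)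
  have hroot := hrich r n D M (fun i => P (z i)) s g hn1
    (fun i _ => (hm.s0.trans (mul_le_mul_of_nonneg_left (hmpow i) hκ.le)).trans (hs1 i))
    (fun i _ => by
      refine parts_of (hP _ (hz₀ i)) (hPd _ (hz₀ i)) (hz2 i) ?_
      rw [hlogz]
      refine hm.log2.trans ?_
      have h5 : (m : ℝ) * Real.log A ≤ ((m + i : ℕ) : ℝ) * Real.log A := by
        refine mul_le_mul_of_nonneg_right ?_ hlogA.le
        push_cast
        have : (0 : ℝ) ≤ i := Nat.cast_nonneg _
        linarith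
      exact mul_le_mul_of_nonneg_left h5 (by positivity))
    (hm.expD.trans (Real.exp_le_exp.2 (by have := hs1 0; rwa [add_zero] at this)))
    (fun i _ => g1 i) g2 (fun i _ => g3 i) (fun i _ => g4 i) (fun t _ => hstep t)
    (fun a _ b _ h => hinj h) hMr
  -- missed classes
  have hc : ∀ p : ℕ, ∃ c : ZMod p, p.Prime → p % 4 = 1 →
      ∀ t, ((lf (r p) (g t) : ℤ) : ZMod p) ≠ c := by
    intro p
    by_cases h : p.Prime ∧ p % 4 = 1
    · obtain ⟨c, hc⟩ := hmiss p h.1 h.2
      exact ⟨c, fun _ _ => hc⟩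
    · exact ⟨0, fun h5 h6 => absurd ⟨h5, h6⟩ h⟩
  choose c hc using hc
  -- the length of the walks
  set N : ℕ := A ^ (m * H ^ W) with hN
  have hNr : (N : ℝ) = (A : ℝ) ^ (m * H ^ W) := by simp [hN]
  have hN1 : 1 ≤ N := Nat.one_le_pow _ _ (by omega)
  have hlogN : Real.log N = (m : ℝ) * H ^ W * Real.log A := by
    rw [hNr, Real.log_pow]; push_cast; ring
  have hℓ : Real.log N ≤ ℓ := hm.ellN
  have hl2 : 0 < Real.log 2 := Real.log_pos (by norm_num)
  have hmA : 0 < (m : ℝ) * Real.log A := by positivity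
  have hℓ1 : 1 ≤ ℓ := hm.ell0
  have hℓ0 : (0 : ℝ) < ℓ := by exact_mod_cast hℓ1
  have hpowN : ∀ e, e ≤ m * H ^ W → (A : ℝ) ^ e ≤ N := fun e he => by
    rw [hNr]; exact pow_le_pow_right₀ (by linarith) he
  have hℓN : 2 * ℓ ≤ N := hm.ell3
  -- the window of a level
  set wi : ℕ → ℕ := fun i => Nat.log H ((m + i) / m) with hwi
  have hwin : ∀ i w, wi i = w ↔ m * H ^ w ≤ m + i ∧ m + i < m * H ^ (w + 1) := by
    intro i w
    have h5 : (m + i) / m ≠ 0 := by
      have : 1 ≤ (m + i) / m := (Nat.one_le_div_iff (by omega)).2 (by omega)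
      omega
    rw [hwi]
    simp only
    rw [Nat.log_eq_iff (Or.inr ⟨by omega, h5⟩), Nat.le_div_iff_mul_le (by omega),
      Nat.div_lt_iff_lt_mul (by omega), mul_comm (H ^ w), mul_comm (H ^ (w + 1))]
  have hwin' : ∀ i, m * H ^ wi i ≤ m + i ∧ m + i < m * H ^ (wi i + 1) := fun i =>
    (hwin i (wi i)).1 rfl
  have hwW : ∀ i < n, wi i < W := by
    intro i hi
    by_contra hcon
    push Not at hcon
    have h5 := (hwin' i).1
    have h6 : m * H ^ W ≤ m * H ^ wi i := Nat.mul_le_mul_left m (Nat.pow_le_pow_right (by omega) hcon)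
    omega
  set L : ℕ → ℝ := fun i => ((m * H ^ wi i : ℕ) : ℝ) * Real.log A with hL
  set Λ : ℕ → ℝ := fun i => (A : ℝ) ^ (m * H ^ wi i) with hΛ
  have hLΛ : ∀ i, Real.log (Λ i) = L i := fun i => by simp only [hΛ, hL, Real.log_pow]
  have hmh : ∀ w, m ≤ m * H ^ w := fun w => Nat.le_mul_of_pos_right _ (by positivity)
  have hmL : ∀ i, (m : ℝ) * Real.log A ≤ L i := fun i => by
    simp only [hL]
    exact mul_le_mul_of_nonneg_right (by exact_mod_cast hmh _) hlogA.le
  have hL0 : ∀ i, 0 < L i := fun i => hmA.trans_le (hmL i)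
  have hlogzL : ∀ i, Real.log (z i) ≤ H * L i := by
    intro i
    rw [hlogz]
    simp only [hL]
    rw [← mul_assoc]
    refine mul_le_mul_of_nonneg_right ?_ hlogA.le
    have h5 := (hwin' i).2
    have h6 : m * H ^ (wi i + 1) = H * (m * H ^ wi i) := by ring
    rw [h6] at h5
    exact_mod_cast h5.le
  have hlogz0 : ∀ i, 0 < Real.log (z i) := by
    intro i
    rw [hlogz]
    have h5 : (m : ℝ) * Real.log A ≤ ((m + i : ℕ) : ℝ) * Real.log A := by
      refine mul_le_mul_of_nonneg_right ?_ hlogA.le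
      exact_mod_cast (by omega : m ≤ m + i)
    linarith
  have hz0 : ∀ i, (0 : ℝ) < z i := fun i => by rw [hzr]; positivity
  -- the numbers of samples
  obtain ⟨b, hb0, hbd, hbx1, hbx2⟩ := exists_pow2 (fun i => 4 * z i * L i / (δ * ℓ))
    (by
      intro i
      rw [le_div_iff₀ (by positivity), one_mul]
      refine hm.ell5.trans ?_
      have h5 : (A : ℝ) ^ m ≤ z i := by rw [hzr]; exact hmpow i
      exact mul_le_mul (by linarith) (hmL i) hmA.le (by have := (hz0 i).le; positivity))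
    (by
      intro i
      refine div_le_div_of_nonneg_right ?_ (by positivity)
      have h5 : (z i : ℝ) ≤ z (i + 1) := by
        rw [hzr, hzr]; exact pow_le_pow_right₀ (by linarith) (by omega)
      have h6 : L i ≤ L (i + 1) := by
        simp only [hL]
        refine mul_le_mul_of_nonneg_right ?_ hlogA.le
        have h7 : wi i ≤ wi (i + 1) := by
          simp only [hwi]
          exact Nat.log_mono_right (Nat.div_le_div_right (by omega))
        exact_mod_cast Nat.mul_le_mul_left m (Nat.pow_le_pow_right (by omega) h7)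
      have h8 := (hL0 i).le
      have h9 := (hz0 i).le
      have h10 := (hz0 (i + 1)).le
      nlinarith [mul_le_mul h5 h6 h8 h10])
  -- the functions
  set G : ℕ → ℕ → Prop := fun i t => ∀ a < B,
    GoodPart r (fun j => g (t + j)) N (Λ i) δ (P (z i) a) with hG
  set f : ℕ → ℕ → ℝ := fun i t => if G i t then
    ((k (z i) : ℝ) / 2 * (L i - Real.log 2) - c₁ * s i) / b i else -(c₁ * s i / b i) with hf
  have hlt : ∀ i, ∀ a < B, ∀ p ∈ P (z i) a, ∀ t, ∀ u : Fin (b i) → Fin (N - ℓ + 1),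
      hit r p (fun j => g (t + j)) u < p := by
    intro i a ha p hp t u
    have : NeZero p := ⟨((hP (z i) (hz₀ i) a ha).1 p hp).1.ne_zero⟩
    unfold hit
    have h5 : ((Finset.univ ×ˢ range (ℓ + 1)).image
        (fun x : Fin (b i) × ℕ => ((lf (r p) (g (t + ((u x.1 : ℕ) + x.2))) : ℤ) : ZMod p))) ⊂
        (Finset.univ : Finset (ZMod p)) := by
      rw [Finset.ssubset_univ_iff]
      intro h
      have h6 := Finset.mem_univ (c p)
      rw [← h, Finset.mem_image] at h6
      obtain ⟨x, -, hx⟩ := h6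
      exact hc p ((hP (z i) (hz₀ i) a ha).1 p hp).1 ((hP (z i) (hz₀ i) a ha).2.2 p hp).1 _ hx
    have h7 := Finset.card_lt_card h5
    rw [Finset.card_univ, ZMod.card] at h7
    exact h7
  obtain ⟨t, -, hsum⟩ := decrement hED (r := r) (g := g) (D := D) (N := N) (ℓ := ℓ) (n := n)
    (B := B) hD1 hstep hN1 hℓ1 (by omega) hℓ hn1 (P := fun i => P (z i))
    (fun i _ a ha p hp => ((hP (z i) (hz₀ i) a ha).1 p hp).1) c
    (fun i _ a ha p hp => hc p ((hP (z i) (hz₀ i) a ha).1 p hp).1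
      ((hP (z i) (hz₀ i) a ha).2.2 p hp).1) (fun i _ => hb0 i) (fun i _ => hbd i)
    (thr := fun i => Real.exp ((1 - c₁) * s i))
    (fun i _ => Real.one_le_exp (mul_nonneg (by linarith) (g2.trans (g1 i)))) (f := f)
    (v := range (M + 1))
    (by
      intro i hi a ha t _
      have hbi : (0 : ℝ) < b i := by exact_mod_cast hb0 i
      rw [Real.log_exp]
      have hav : ∑ p ∈ P (z i) a, (∑ u : Fin (b i) → Fin (N - ℓ + 1),
          Real.log ((p : ℝ) - hit r p (fun j => g (t + j)) u)) /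
          (Fintype.card (Fin (N - ℓ + 1)) : ℝ) ^ (b i) =
          ∑ p ∈ P (z i) a, av r p N ℓ (b i) (fun j => g (t + j)) := rfl
      rw [hav]
      have hPi := hP (z i) (hz₀ i) a ha
      by_cases hGi : G i t
      · have h5 : f i t * b i = (k (z i) : ℝ) / 2 * (L i - Real.log 2) - c₁ * s i := by
          simp only [hf, if_pos hGi]
          field_simp
        rw [h5]
        have h6 := part_good_le hSA (r := r) (N := N) (ℓ := ℓ) (b := b i) (k := k (z i))
          (z := z i) (D := D) (Λ := Λ i) (δ := δ) (g := fun j => g (t + j)) hPi.1 hPi.2.1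
          (fun p hp => (hPi.2.2 p hp).2) (fun p hp u => hlt i a ha p hp t u)
          (fun x _ y _ h => by have := hinj h; omega) (fun j _ => hstep (t + j)) hℓ1
          (hm.ell1.trans_le (hzm i))
          (by
            simp only [hΛ]
            calc (2 : ℝ) ≤ A := hA2'
              _ = (A : ℝ) ^ 1 := (pow_one _).symm
              _ ≤ _ := pow_le_pow_right₀ (by linarith) (hm1.trans (hmh _)))
          hδ hδ1 hℓN
          (by
            rw [hLΛ]
            have h7 := hbx1 i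
            rw [div_le_iff₀ (by positivity)] at h7
            linarith)
          (by
            have h7 := hm.ell4 (wi i) (hwW i hi)
            simp only [hΛ]
            exact h7)
          (hGi a ha)
        rw [hLΛ] at h6
        have h7 : s i = k (z i) * Real.log (z i) := rfl
        linarith
      · have h5 : f i t * b i = -(c₁ * s i) := by
          simp only [hf, if_neg hGi]
          field_simp
        rw [h5]
        have h6 := part_le (r := r) (N := N) (ℓ := ℓ) (b := b i) (k := k (z i)) (z := z i)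
          (g := fun j => g (t + j)) hPi.1 hPi.2.1 (fun p hp => (hPi.2.2 p hp).2.2)
          (fun p hp u => hlt i a ha p hp t u)
        have h7 : s i = k (z i) * Real.log (z i) := rfl
        linarith)
    hroot
  -- the lower bound of the sum
  have hL' : ∀ i w, wi i = w → L i = (m * H ^ w : ℝ) * Real.log A := by
    intro i w h
    simp only [hL, h]
    push_cast
    ring
  have hlow : W * (κ * δ * ℓ / Real.log A) / (64 * H) ≤
      ∑ i ∈ range (m * H ^ W - m), f (m + i - m) t := by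
    refine win_sum m H W (κ * δ * ℓ / Real.log A) c₁ (fun j => f (j - m) t) hm1 hH (by positivity)
      hc₁.le ?_ ?_
    · intro w hw j hj1 hj2
      have hjm : m ≤ j := (hmh w).trans hj1
      have hji : m + (j - m) = j := by omega
      have hw1 : wi (j - m) = w := (hwin _ _).2 (by rw [hji]; exact ⟨hj1, hj2⟩)
      have hjW : j < m * H ^ W := hj2.trans_le
        (Nat.mul_le_mul_left m (Nat.pow_le_pow_right (by omega) (by omega)))
      have hjn : j - m < n := by omega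
      have h5 := loss_le (s := s (j - m)) hκ hδ hℓ0 hc0 (hz0 (j - m)) (hL0 (j - m))
        (by rw [hzr]; exact hs2 (j - m)) (hbx1 _)
      have h6 : c₁ * κ * δ * ℓ / (2 * L (j - m)) =
          c₁ * (κ * δ * ℓ / Real.log A) / (2 * (m * H ^ w)) := by
        rw [hL' _ _ hw1]
        field_simp
      rw [h6] at h5
      have h7 : -(c₁ * s (j - m) / b (j - m)) ≤ f (j - m) t := by
        simp only [hf]
        split_ifs with h8
        · have hbi : (0 : ℝ) < b (j - m) := by exact_mod_cast hb0 (j - m)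
          rw [← neg_div]
          refine div_le_div_of_nonneg_right ?_ hbi.le
          have h9 : 0 ≤ (k (z (j - m)) : ℝ) / 2 * (L (j - m) - Real.log 2) := by
            refine mul_nonneg (by positivity) ?_
            have := hmL (j - m)
            have := hm.log2'
            linarith
          linarith
        · exact le_rfl
      linarith
    · intro w hw
      obtain ⟨kk, hk1', hkH, hkk⟩ := hgood ((A : ℝ) ^ (m * H ^ w))
        (hm.lam.trans (pow_le_pow_right₀ (by linarith) (hmh w))) N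
        (by
          rw [← pow_mul]
          refine hpowN _ ?_
          have h5 : m * H ^ w * H = m * H ^ (w + 1) := by ring
          rw [h5]
          exact Nat.mul_le_mul_left m (Nat.pow_le_pow_right (by omega) (by omega)))
        r (fun j => g (t + j)) (fun x _ y _ h => by have := hinj h; omega)
        (fun j _ => hstep (t + j)) B z (fun i => P (z i)) Set.univ
        (fun i _ a ha => ⟨(hP (z i) (hz₀ i) a ha).1,
          fun p hp => ((hP (z i) (hz₀ i) a ha).2.2 p hp).2, by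
            rw [(hP (z i) (hz₀ i) a ha).2.1]; exact hk1 _ (hz₀ i)⟩)
      refine ⟨kk, hk1', hkH, fun j hj1 hj2 => ?_⟩
      have hj1' : m * H ^ w ≤ j := le_trans (Nat.le_mul_of_pos_right _ (by omega)) hj1
      have hj2' : j < m * H ^ (w + 1) := by
        refine hj2.trans_le ?_
        calc m * H ^ w * (kk + 1) ≤ m * H ^ w * H := Nat.mul_le_mul_left _ (by omega)
          _ = _ := by ring
      have hjm : m ≤ j := (hmh w).trans hj1'
      have hji : m + (j - m) = j := by omega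
      have hw1 : wi (j - m) = w := (hwin _ _).2 (by rw [hji]; exact ⟨hj1', hj2'⟩)
      have hjW : j < m * H ^ W := hj2'.trans_le
        (Nat.mul_le_mul_left m (Nat.pow_le_pow_right (by omega) (by omega)))
      have hjn : j - m < n := by omega
      have hGi : G (j - m) t := by
        intro a ha
        have h5 := hkk (j - m) (Set.mem_univ _)
          (by rw [hzr, ← pow_mul, hji]; exact pow_le_pow_right₀ (by linarith) hj1)
          (by rw [hzr, ← pow_mul, hji]; exact pow_le_pow_right₀ (by linarith) hj2.le) a ha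
        simp only [hΛ, hw1]
        exact h5
      have h5 := gain_le (s := s (j - m)) (k := k (z (j - m))) (lz := Real.log (z (j - m)))
        hκ hδ hℓ0 (hz0 (j - m)) (hL0 (j - m)) hH' hc₁ (Nat.cast_nonneg _) rfl
        (by rw [hzr]; exact hs1 (j - m)) (hlogzL (j - m)) (hlogz0 (j - m))
        (hm.log2'.trans (hmL _)) (hbx1 _) (hbx2 _)
      have h6 : κ * δ * ℓ / (32 * H * L (j - m)) =
          (κ * δ * ℓ / Real.log A) / (32 * H * (m * H ^ w)) := by
        rw [hL' _ _ hw1]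
        field_simp
      rw [h6] at h5
      simp only [hf, if_pos hGi]
      exact h5
  -- the contradiction
  have hsum2 : ∑ i ∈ range (m * H ^ W - m), f (m + i - m) t = ∑ i ∈ range n, f i t := by
    refine Finset.sum_congr rfl fun i _ => ?_
    rw [Nat.add_sub_cancel_left]
  rw [hsum2] at hlow
  have hfin := hlow.trans hsum
  have hCD := CD_pos hD1
  rw [div_lt_iff₀ (by positivity)] at hW2
  have h5 : W * (κ * δ * ℓ / Real.log A) / (64 * H) = (W * (κ * δ)) * ℓ / (64 * H * Real.log A) := by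
    field_simp
  rw [h5, div_le_iff₀ (by positivity)] at hfin
  have h6 : CD D * (64 * H * Real.log A) * ℓ < W * (κ * δ) * ℓ :=
    mul_lt_mul_of_pos_right hW2 hℓ0
  linarith

end Vale.Agent.P015.M.FIN
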