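import Vale.Agent.P015.M.Defs

/-! # P015, the moat theorem: data of the blocks and compatible classes -/

namespace Vale.Agent.P015.M.FIN

open Finset hiding box
open Vale.Agent.P006.CLS Vale.Agent.P015.H222
open scoped Pointwise

theorem zero_mem_box (L : ℕ) : (0 : ℤ × ℤ) ∈ box L := by
  rw [mem_box]; simp

theorem add_mem_box {L M : ℕ} {u v : ℤ × ℤ} (hu : u ∈ box L) (hv : v ∈ box M) :
    u + v ∈ box (L + M) := by
  rw [mem_box] at *
  simp only [Prod.fst_add, Prod.snd_add]
  push_cast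
  omega

theorem neg_mem_box {L : ℕ} {u : ℤ × ℤ} (hu : u ∈ box L) : -u ∈ box L := by
  rw [mem_box] at *
  simp only [Prod.fst_neg, Prod.snd_neg]
  omega

theorem box_mono {L M : ℕ} (h : L ≤ M) : box L ⊆ box M := by
  intro w hw
  rw [mem_box] at *
  omega

theorem card_box (L : ℕ) : (box L).card = (2 * L + 1) ^ 2 := by
  unfold Vale.Agent.P006.CLS.box
  rw [Finset.card_product, Int.card_Icc, sq]
  have : ((L : ℤ) + 1 - -(L : ℤ)).toNat = 2 * L + 1 := by omega
  rw [this]

/-- displacement of a walk -/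
theorem disp_mem {g : ℕ → ℤ × ℤ} {D : ℕ} (hg : ∀ t, g (t + 1) - g t ∈ box D) (t n : ℕ) :
    g (t + n) - g t ∈ box (D * n) := by
  induction n with
  | zero => simpa using zero_mem_box 0
  | succ n ih =>
    have h := add_mem_box ih (hg (t + n))
    have e : g (t + n) - g t + (g (t + n + 1) - g (t + n)) = g (t + (n + 1)) - g t := by
      rw [← add_assoc t n 1]; abel
    rw [e] at h
    have e2 : D * n + D = D * (n + 1) := by ring
    rwa [e2] at h

/-- the set of possible data of a block -/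
noncomputable def XX (D N ℓ : ℕ) : Finset ((ℤ × ℤ) × (Fin ℓ → ℤ × ℤ)) :=
  box (D * N) ×ˢ Fintype.piFinset (fun _ : Fin ℓ => box D)

theorem card_XX (D N ℓ : ℕ) : (XX D N ℓ).card = (2 * (D * N) + 1) ^ 2 * ((2 * D + 1) ^ 2) ^ ℓ := by
  rw [XX, Finset.card_product, Fintype.card_piFinset, card_box]
  simp [card_box]

/-- the data of the block of the walk `g (t + ·)` that starts at time `u` -/
noncomputable def dat {D N ℓ : ℕ} (g : ℕ → ℤ × ℤ) (hg : ∀ t, g (t + 1) - g t ∈ box D)
    (hℓ : ℓ ≤ N) (t : ℕ) (u : Fin (N - ℓ + 1)) : XX D N ℓ :=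
  ⟨(g (t + u) - g t, fun j => g (t + u + j + 1) - g (t + u + j)), by
    rw [XX, Finset.mem_product, Fintype.mem_piFinset]
    refine ⟨?_, fun j => hg _⟩
    have h := disp_mem hg t (u : ℕ)
    exact box_mono (Nat.mul_le_mul_left D (by omega)) h⟩

/-- the `i`-th point of a block -/
def pt {ℓ : ℕ} (x : (ℤ × ℤ) × (Fin ℓ → ℤ × ℤ)) (i : ℕ) : ℤ × ℤ :=
  x.1 + ∑ j : Fin ℓ, if (j : ℕ) < i then x.2 j else 0

theorem pt_dat {D N ℓ : ℕ} {g : ℕ → ℤ × ℤ} (hg : ∀ t, g (t + 1) - g t ∈ box D)
    (hℓ : ℓ ≤ N) (t : ℕ) (u : Fin (N - ℓ + 1)) {i : ℕ} (hi : i ≤ ℓ) :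
    pt (dat g hg hℓ t u).1 i = g (t + (u + i)) - g t := by
  have key : ∀ i, i ≤ ℓ → (∑ j : Fin ℓ, if (j : ℕ) < i then
      (g (t + u + j + 1) - g (t + u + j)) else 0) = g (t + u + i) - g (t + u) := by
    intro i hi
    have h1 : (∑ j : Fin ℓ, if (j : ℕ) < i then
      (g (t + u + j + 1) - g (t + u + j)) else 0) = ∑ j ∈ range ℓ, if j < i then
      (g (t + u + j + 1) - g (t + u + j)) else 0 :=
      Fin.sum_univ_eq_sum_range (fun j => if j < i then
        (g (t + u + j + 1) - g (t + u + j)) else 0) ℓ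
    rw [h1, ← Finset.sum_filter]
    have h2 : (range ℓ).filter (fun j => j < i) = range i := by
      ext j; simp only [Finset.mem_filter, Finset.mem_range]; omega
    rw [h2]
    have h3 := Finset.sum_range_sub (fun j => g (t + u + j)) i
    simp only [add_zero] at h3
    rw [← h3]
    rfl
  rw [pt, dat]
  simp only
  rw [key i hi, ← add_assoc]
  abel

/-- number of classes of the data -/
noncomputable def hitX {ℓ b : ℕ} (r : ℕ → ℤ) (p : ℕ)
    (x : Fin b → (ℤ × ℤ) × (Fin ℓ → ℤ × ℤ)) : Finset (ZMod p) := by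
  classical
  exact (Finset.univ ×ˢ range (ℓ + 1)).image
    (fun y : Fin b × ℕ => ((lf (r p) (pt (x y.1) y.2) : ℤ) : ZMod p))

theorem lf_sub (s : ℤ) (u v : ℤ × ℤ) : lf s (u - v) = lf s u - lf s v := by
  simp only [lf, Prod.fst_sub, Prod.snd_sub]; ring

theorem card_hitX {D N ℓ b : ℕ} (r : ℕ → ℤ) (p : ℕ) {g : ℕ → ℤ × ℤ}
    (hg : ∀ t, g (t + 1) - g t ∈ box D) (hℓ : ℓ ≤ N) (t : ℕ) (u : Fin b → Fin (N - ℓ + 1)) :
    (hitX r p (fun j => (dat g hg hℓ t (u j)).1)).card = hit r p (fun i => g (t + i)) u := by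
  classical
  unfold hitX hit
  have h1 : (Finset.univ ×ˢ range (ℓ + 1)).image
      (fun y : Fin b × ℕ => ((lf (r p) (pt (dat g hg hℓ t (u y.1)).1 y.2) : ℤ) : ZMod p)) =
      ((Finset.univ ×ˢ range (ℓ + 1)).image
      (fun y : Fin b × ℕ => ((lf (r p) (g (t + ((u y.1 : ℕ) + y.2))) : ℤ) : ZMod p))).image
        (fun c => c - ((lf (r p) (g t) : ℤ) : ZMod p)) := by
    rw [Finset.image_image]
    refine Finset.image_congr ?_
    intro y hy
    have hy2 : y.2 ≤ ℓ := by
      have := (Finset.mem_product.mp hy).2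
      rw [Finset.mem_range] at this
      omega
    simp only [Function.comp]
    rw [pt_dat hg hℓ t (u y.1) hy2, lf_sub]
    push_cast
    rfl
  rw [h1]
  exact Finset.card_image_of_injective _ (sub_left_injective)

/-- the classes that are compatible with the data -/
theorem ncard_keys {ℓ b : ℕ} {r : ℕ → ℤ} {P : Finset ℕ} (hP : ∀ p ∈ P, p.Prime)
    (c : ∀ p : ℕ, ZMod p) (x : Fin b → (ℤ × ℤ) × (Fin ℓ → ℤ × ℤ)) (G : Set (ℤ × ℤ))
    (hG : ∀ w ∈ G, ∀ p ∈ P, ∀ j, ∀ i ≤ ℓ, ((lf (r p) (w + pt (x j) i) : ℤ) : ZMod p) ≠ c p) :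
    (Set.ncard (res r P '' G) : ℝ) ≤ ∏ p ∈ P, ((p : ℝ) - (hitX r p x).card) := by
  classical
  -- allowed classes
  have hne : ∀ p ∈ P, NeZero p := fun p hp => ⟨(hP p hp).ne_zero⟩
  set A : ∀ p : ℕ, Finset (ZMod p) := fun p => if h : p ∈ P then
    (haveI := hne p h; Finset.univ \ (hitX r p x).image (fun h => c p - h)) else ∅ with hA
  have hAc : ∀ p ∈ P, ((A p).card : ℝ) = (p : ℝ) - (hitX r p x).card := by
    intro p hp
    haveI := hne p hp
    have h1 : A p = Finset.univ \ (hitX r p x).image (fun h => c p - h) := by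
      simp only [hA, dif_pos hp]
    have h2 : ((hitX r p x).image (fun h => c p - h)).card = (hitX r p x).card :=
      Finset.card_image_of_injective _ sub_right_injective
    have h3 : ((hitX r p x).image (fun h => c p - h)).card ≤ (Finset.univ : Finset (ZMod p)).card :=
      Finset.card_le_card (Finset.subset_univ _)
    rw [h1, Finset.card_sdiff_of_subset (Finset.subset_univ _), Nat.cast_sub h3, h2,
      Finset.card_univ, ZMod.card]
  have hsub : res r P '' G ⊆ (fun f : (∀ p ∈ P, ZMod p) => fun p : ℕ =>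
      if h : p ∈ P then f p h else 0) '' ((P.pi A : Finset _) : Set (∀ p ∈ P, ZMod p)) := by
    rintro _ ⟨w, hw, rfl⟩
    refine ⟨fun p _ => ((lf (r p) w : ℤ) : ZMod p), ?_, ?_⟩
    · rw [Finset.mem_coe, Finset.mem_pi]
      intro p hp
      haveI := hne p hp
      simp only [hA, dif_pos hp, Finset.mem_sdiff, Finset.mem_univ, true_and, Finset.mem_image,
        not_exists, not_and]
      intro h hh heq
      unfold hitX at hh
      obtain ⟨y, hy, rfl⟩ := Finset.mem_image.mp hh
      have hy2 : y.2 ≤ ℓ := by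
        have := (Finset.mem_product.mp hy).2
        rw [Finset.mem_range] at this
        omega
      refine hG w hw p hp y.1 y.2 hy2 ?_
      have e : lf (r p) (w + pt (x y.1) y.2) = lf (r p) w + lf (r p) (pt (x y.1) y.2) := by
        simp only [lf, Prod.fst_add, Prod.snd_add]; ring
      rw [e]
      push_cast
      rw [← heq]
      ring
    · funext p
      simp only [res_apply]
      split_ifs <;> rfl
  have h1 : Set.ncard (res r P '' G) ≤ (P.pi A).card := by
    refine (Set.ncard_le_ncard hsub (Set.toFinite _)).trans ?_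
    refine (Set.ncard_image_le (Set.toFinite _)).trans ?_
    rw [Set.ncard_coe_finset]
  calc (Set.ncard (res r P '' G) : ℝ) ≤ ((P.pi A).card : ℝ) := by exact_mod_cast h1
    _ = ∏ p ∈ P, ((A p).card : ℝ) := by rw [Finset.card_pi]; push_cast; rfl
    _ = _ := Finset.prod_congr rfl hAc

/-- average of a sum of logarithms -/
theorem avg_log_prod {U X : Type} [Fintype U] (d : U → X) (b : ℕ) (P : Finset ℕ)
    (F : ℕ → (Fin b → X) → ℝ) (hF : ∀ p ∈ P, ∀ u : Fin b → U, F p (fun i => d (u i)) ≠ 0) :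
    Avg d b (fun x => Real.log (∏ p ∈ P, F p x)) =
      ∑ p ∈ P, (∑ u : Fin b → U, Real.log (F p (fun i => d (u i)))) /
        (Fintype.card U : ℝ) ^ b := by
  rw [Avg, ← Finset.sum_div]
  congr 1
  rw [Finset.sum_comm]
  refine Finset.sum_congr rfl (fun u _ => ?_)
  exact Real.log_prod (fun p hp => hF p hp u)

end Vale.Agent.P015.M.FIN
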