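import Vale.Agent.P015.M.FinCover

/-! # P015, module FIN-1b: the bound of one part at one level -/

namespace Vale.Agent.P015.M

open Finset hiding box
open Vale.Agent.P006.CLS Vale.Agent.P015.H222

/-- a walk that misses a class -/
theorem hit_lt {r : ℕ → ℤ} {p : ℕ} (hp : p.Prime) {g : ℕ → ℤ × ℤ} {c : ZMod p}
    (hc : ∀ t, ((lf (r p) (g t) : ℤ) : ZMod p) ≠ c) {N ℓ b : ℕ}
    (u : Fin b → Fin (N - ℓ + 1)) : hit r p g u < p := by
  classical
  have : NeZero p := ⟨hp.ne_zero⟩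
  unfold hit
  have h1 : ((Finset.univ ×ˢ range (ℓ + 1)).image
      (fun x : Fin b × ℕ => ((lf (r p) (g ((u x.1 : ℕ) + x.2)) : ℤ) : ZMod p))) ⊂
      (Finset.univ : Finset (ZMod p)) := by
    rw [Finset.ssubset_univ_iff]
    intro h
    have h2 := Finset.mem_univ c
    rw [← h, Finset.mem_image] at h2
    obtain ⟨x, -, hx⟩ := h2
    exact hc _ hx
  have h3 := Finset.card_lt_card h1
  rw [Finset.card_univ, ZMod.card] at h3
  exact h3

/-- average logarithm of the number of free classes -/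
noncomputable def avlog (r : ℕ → ℤ) (g : ℕ → ℤ × ℤ) (N ℓ b p : ℕ) : ℝ :=
  (∑ u : Fin b → Fin (N - ℓ + 1), Real.log ((p : ℝ) - hit r p g u)) /
    (Fintype.card (Fin (N - ℓ + 1)) : ℝ) ^ b

theorem avlog_le {r : ℕ → ℤ} {p : ℕ} {g : ℕ → ℤ × ℤ} {N ℓ b : ℕ}
    (h : ∀ u : Fin b → Fin (N - ℓ + 1), hit r p g u < p) : avlog r g N ℓ b p ≤ Real.log p := by
  unfold avlog
  have hm0 : (0 : ℝ) < (Fintype.card (Fin (N - ℓ + 1)) : ℝ) := by
    rw [Fintype.card_fin]; positivity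
  rw [div_le_iff₀ (by positivity)]
  calc _ ≤ ∑ _u : Fin b → Fin (N - ℓ + 1), Real.log p := by
        refine Finset.sum_le_sum fun u _ => ?_
        have h1 : (hit r p g u : ℝ) < p := by exact_mod_cast h u
        have h2 : (0 : ℝ) ≤ hit r p g u := Nat.cast_nonneg _
        exact Real.log_le_log (by linarith) (by linarith)
    _ = _ := by
        rw [Finset.sum_const, nsmul_eq_mul, Finset.card_univ, Fintype.card_fun, Fintype.card_fin,
          Fintype.card_fin]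
        push_cast
        ring

/-- the trivial bound for one part -/
theorem level_triv {r : ℕ → ℤ} {g : ℕ → ℤ × ℤ} {N ℓ b z : ℕ} {P : Finset ℕ} (hP : Rts r P)
    (hup : ∀ p ∈ P, p ≤ z) (c : ∀ p : ℕ, ZMod p)
    (hc : ∀ p ∈ P, ∀ t, ((lf (r p) (g t) : ℤ) : ZMod p) ≠ c p) :
    ∑ p ∈ P, avlog r g N ℓ b p ≤ P.card * Real.log z := by
  rw [← nsmul_eq_mul, ← Finset.sum_const]
  refine Finset.sum_le_sum fun p hp => ?_
  refine (avlog_le (hit_lt (hP p hp).1 (hc p hp))).trans ?_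
  have h1 : (0 : ℝ) < p := by exact_mod_cast (hP p hp).1.pos
  exact Real.log_le_log h1 (by exact_mod_cast hup p hp)

/-- the bound for a good part -/
theorem level_good (hSA : SAStmt) {r : ℕ → ℤ} {g : ℕ → ℤ × ℤ} {D N ℓ b z : ℕ} {Λ δ : ℝ}
    {P : Finset ℕ} (hP : Rts r P) (hlow : ∀ p ∈ P, z ≤ 2 * p) (hup : ∀ p ∈ P, p ≤ z)
    (c : ∀ p : ℕ, ZMod p) (hc : ∀ p ∈ P, ∀ t, ((lf (r p) (g t) : ℤ) : ZMod p) ≠ c p)
    (hinj : ∀ a ≤ N, ∀ b ≤ N, g a = g b → a = b) (hs : ∀ t < N, g (t + 1) - g t ∈ box D)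
    (hℓ : 1 ≤ ℓ) (hz : 4 * (ℓ * D) ^ 2 < z) (hΛ : 2 ≤ Λ) (hδ : 0 < δ) (hδ1 : δ ≤ 1)
    (hN : 2 * ℓ ≤ N) (hb : 4 * Real.log Λ * z ≤ δ * (b * ℓ)) (hN2 : 4 * ℓ * Λ ≤ δ * N)
    (hg : GoodPart r g N Λ δ P) :
    ∑ p ∈ P, avlog r g N ℓ b p ≤
      P.card * Real.log z - P.card / 2 * (Real.log Λ - Real.log 2) := by
  classical
  have hlog : Real.log 2 ≤ Real.log Λ := Real.log_le_log (by norm_num) hΛ
  have hlog2 : 0 < Real.log 2 := Real.log_pos (by norm_num)
  have h1 : ∀ p ∈ P, avlog r g N ℓ b p ≤ Real.log z -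
      (if ¬ Rare r g N Λ δ p then (Real.log Λ - Real.log 2) else 0) := by
    intro p hp
    have hp1 := (hP p hp).1
    have hp0 : (0 : ℝ) < p := by exact_mod_cast hp1.pos
    have hpz : (p : ℝ) ≤ z := by exact_mod_cast hup p hp
    have hlz : Real.log p ≤ Real.log z := Real.log_le_log hp0 hpz
    have hh := fun u : Fin b → Fin (N - ℓ + 1) => hit_lt (r := r) hp1 (hc p hp) u
    by_cases h : Rare r g N Λ δ p
    · rw [if_neg (not_not.mpr h), sub_zero]
      exact (avlog_le hh).trans hlz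
    · rw [if_pos h]
      have h2 : 2 * (ℓ * D) ^ 2 < p := by
        have := hlow p hp
        omega
      have h3 : 4 * Real.log Λ * p ≤ δ * (b * ℓ) :=
        (mul_le_mul_of_nonneg_left hpz (by linarith)).trans hb
      rcases hSA r p D ℓ N b Λ δ g hp1 (hP p hp).2 hinj hs hℓ h2 hΛ hδ hδ1 hN h3 hN2 hh with h4 | h4
      · unfold avlog
        linarith
      · exact absurd h4 h
  refine (Finset.sum_le_sum h1).trans ?_
  rw [Finset.sum_sub_distrib, Finset.sum_const, nsmul_eq_mul, ← Finset.sum_filter,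
    Finset.sum_const, nsmul_eq_mul]
  have h5 : (P.card : ℝ) ≤ 2 * (P.filter (fun p => ¬ Rare r g N Λ δ p)).card := by
    exact_mod_cast hg
  nlinarith

end Vale.Agent.P015.M
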