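import Vale.Agent.P015.M.FINa

/-! # P015, the moat theorem: entropy decrement applied to a walk -/

namespace Vale.Agent.P015.M.FIN

open Finset hiding box
open Vale.Agent.P006.CLS Vale.Agent.P015.H222
open scoped Pointwise

/-- the constant of the entropy bound -/
noncomputable def CD (D : ℕ) : ℝ := 2 + 2 * Real.log (3 * D) + 2 * Real.log (2 * D + 1)

theorem CD_pos {D : ℕ} (hD : 1 ≤ D) : 0 < CD D := by
  have hD1 : (1 : ℝ) ≤ D := by exact_mod_cast hD
  have h1 : 0 ≤ Real.log (3 * D) := Real.log_nonneg (by linarith)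
  have h2 : 0 ≤ Real.log (2 * D + 1) := Real.log_nonneg (by linarith)
  rw [CD]; linarith

theorem log_card_XX {D N ℓ : ℕ} (hD : 1 ≤ D) (hN : 1 ≤ N) (hℓ : 1 ≤ ℓ) (hlog : Real.log N ≤ ℓ) :
    Real.log ((XX D N ℓ).card : ℝ) ≤ CD D * ℓ := by
  have hD1 : (1 : ℝ) ≤ D := by exact_mod_cast hD
  have hN1 : (1 : ℝ) ≤ N := by exact_mod_cast hN
  have hℓ1 : (1 : ℝ) ≤ ℓ := by exact_mod_cast hℓ
  rw [card_XX]
  push_cast
  have hDN : (1 : ℝ) ≤ D * N := by nlinarith
  rw [Real.log_mul (by positivity) (by positivity), Real.log_pow, ← pow_mul, Real.log_pow]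
  have h1 : Real.log (2 * (D * N) + 1) ≤ Real.log (3 * D) + Real.log N := by
    rw [← Real.log_mul (by positivity) (by positivity)]
    refine Real.log_le_log (by positivity) ?_
    linarith
  have h2 : 0 ≤ Real.log (3 * D) := Real.log_nonneg (by linarith)
  have h3 : 0 ≤ Real.log (2 * D + 1) := Real.log_nonneg (by linarith)
  rw [CD]
  push_cast
  nlinarith [mul_nonneg h2 (by linarith : (0 : ℝ) ≤ ℓ - 1)]

theorem decrement (hED : EDStmt) {r : ℕ → ℤ} {g : ℕ → ℤ × ℤ} {D N ℓ n B : ℕ} (hD : 1 ≤ D)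
    (hg : ∀ t, g (t + 1) - g t ∈ box D) (hN : 1 ≤ N) (hℓ : 1 ≤ ℓ) (hℓN : ℓ ≤ N)
    (hlog : Real.log N ≤ ℓ) (hn : 1 ≤ n) {P : ℕ → ℕ → Finset ℕ}
    (hP : ∀ i < n, ∀ a < B, ∀ p ∈ P i a, p.Prime) (c : ∀ p : ℕ, ZMod p)
    (hc : ∀ i < n, ∀ a < B, ∀ p ∈ P i a, ∀ t, ((lf (r p) (g t) : ℤ) : ZMod p) ≠ c p)
    {b : ℕ → ℕ} (hb : ∀ i < n, 0 < b i) (hdvd : ∀ i, i + 1 < n → b i ∣ b (i + 1))
    {thr : ℕ → ℝ} (hthr : ∀ i < n, 1 ≤ thr i) {f : ℕ → ℕ → ℝ} {v : Finset ℕ}
    (hf : ∀ i < n, ∀ a < B, ∀ t ∈ v, f i t * b i ≤ Real.log (thr i) -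
      ∑ p ∈ P i a, (∑ u : Fin (b i) → Fin (N - ℓ + 1),
        Real.log ((p : ℝ) - hit r p (fun i => g (t + i)) u)) /
        (Fintype.card (Fin (N - ℓ + 1)) : ℝ) ^ (b i))
    (hrich : Rich B (fun i a t => res r (P i a) (g t)) thr n 0 v) :
    ∃ t ∈ v, ∑ i ∈ range n, f i t ≤ CD D * ℓ := by
  classical
  -- the number of hit classes is less than p
  have hlt : ∀ i < n, ∀ a < B, ∀ p ∈ P i a, ∀ t, ∀ u : Fin (b i) → Fin (N - ℓ + 1),
      hit r p (fun i => g (t + i)) u < p := by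
    intro i hi a ha p hp t u
    have : NeZero p := ⟨(hP i hi a ha p hp).ne_zero⟩
    unfold hit
    have h1 : ((Finset.univ ×ˢ range (ℓ + 1)).image
        (fun x : Fin (b i) × ℕ => ((lf (r p) (g (t + ((u x.1 : ℕ) + x.2))) : ℤ) : ZMod p))) ⊂
        (Finset.univ : Finset (ZMod p)) := by
      rw [Finset.ssubset_univ_iff]
      intro h
      have h2 := Finset.mem_univ (c p)
      rw [← h, Finset.mem_image] at h2
      obtain ⟨x, -, hx⟩ := h2
      exact hc i hi a ha p hp _ hx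
    have h3 := Finset.card_lt_card h1
    rw [Finset.card_univ, ZMod.card] at h3
    exact h3
  have hU : Nonempty (Fin (N - ℓ + 1)) := ⟨0⟩
  obtain ⟨t, ht, hsum⟩ := hED (Fin (N - ℓ + 1)) (XX D N ℓ) (∀ p : ℕ, ZMod p)
    (fun t u => dat g hg hℓN t u) B n (fun i a t => res r (P i a) (g t)) thr b
    (fun i a x => ∏ p ∈ P i a, ((p : ℝ) - (hitX r p (fun j => (x j).1)).card)) f v hn hthr hb hdvd
    (by
      intro i hi a ha x _
      refine le_trans (le_of_eq ?_) (ncard_keys (hP i hi a ha) c (fun j => (x j).1)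
        {w | ∃ t ∈ v, g t = w ∧ ∃ u : Fin (b i) → Fin (N - ℓ + 1),
          ∀ j, x j = dat g hg hℓN t (u j)} ?_)
      · congr 2
        ext y
        simp only [Set.mem_setOf_eq, Set.mem_image]
        constructor
        · rintro ⟨t, ht, rfl, u, hu⟩
          exact ⟨g t, ⟨t, ht, rfl, u, hu⟩, rfl⟩
        · rintro ⟨w, ⟨t, ht, rfl, u, hu⟩, rfl⟩
          exact ⟨t, ht, rfl, u, hu⟩
      · rintro w ⟨t, ht, rfl, u, hu⟩ p hp j k hk
        rw [hu j, pt_dat hg hℓN t (u j) hk, add_sub_cancel]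
        exact hc i hi a ha p hp _)
    (by
      intro i hi a ha t ht
      have h1 := hf i hi a ha t ht
      refine h1.trans (le_of_eq ?_)
      rw [avg_log_prod (fun u => dat g hg hℓN t u) (b i) (P i a)
        (fun p x => (p : ℝ) - (hitX r p (fun j => (x j).1)).card)]
      · congr 1
        refine Finset.sum_congr rfl (fun p _ => ?_)
        congr 1
        refine Finset.sum_congr rfl (fun u _ => ?_)
        rw [card_hitX r p hg hℓN t u]
      · intro p hp u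
        rw [card_hitX r p hg hℓN t u]
        have h2 : ((hit r p (fun i => g (t + i)) u : ℕ) : ℝ) < p := by
          exact_mod_cast hlt i hi a ha p hp t u
        linarith)
    hrich
  refine ⟨t, ht, hsum.trans ?_⟩
  rw [Fintype.card_coe]
  exact log_card_XX hD hN hℓ hlog

end Vale.Agent.P015.M.FIN
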