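import Vale.Agent.P015.M.Defs

/-! # P015, module FIN-c: from `T1Stmt` and `T2Stmt` to a rich root -/

namespace Vale.Agent.P015.M

open Finset hiding box
open Vale.Agent.P006.CLS Vale.Agent.P015.H222
open scoped Pointwise

/-- number of residues modulo the primes of `P` -/
theorem card_res_le (r : ℕ → ℤ) {P : Finset ℕ} (hP : Rts r P) (S : Finset (∀ p : ℕ, ZMod p))
    (hS : ∀ y ∈ S, ∃ w, y = res r P w) : S.card ≤ qq P := by
  classical
  -- restrict to the primes of `P`
  have hne : ∀ p : P, NeZero (p : ℕ) := fun p => ⟨(hP p.1 p.2).1.ne_zero⟩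
  let F : (∀ p : ℕ, ZMod p) → (∀ p : P, ZMod p) := fun y p => y p
  have hinj : Set.InjOn F S := by
    intro y hy y' hy' h
    obtain ⟨w, rfl⟩ := hS y hy
    obtain ⟨w', rfl⟩ := hS y' hy'
    funext p
    by_cases hp : p ∈ P
    · exact congrFun h ⟨p, hp⟩
    · rw [res_apply, res_apply, if_neg hp, if_neg hp]
  have h1 : S.card = (S.image F).card := (Finset.card_image_of_injOn hinj).symm
  have h2 : (S.image F).card ≤ Fintype.card (∀ p : P, ZMod p) := Finset.card_le_univ _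
  have h3 : Fintype.card (∀ p : P, ZMod p) = qq P := by
    rw [Fintype.card_pi]
    simp only [ZMod.card]
    exact Finset.prod_coe_sort P (fun p => p)
  omega

theorem far_of_injective {g : ℕ → ℤ × ℤ} {M X : ℕ} (hinj : ∀ a ≤ M, ∀ b ≤ M, g a = g b → a = b)
    (hM : (2 * X + 1) ^ 2 ≤ M) : ∃ t ≤ M, ∃ t' ≤ M, g t - g t' ∉ box X := by
  classical
  by_contra hcon
  push Not at hcon
  have h1 : ((range (M + 1)).image (fun t => g t - g 0)).card = M + 1 := by
    rw [Finset.card_image_of_injOn, Finset.card_range]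
    intro a ha b hb hab
    rw [Finset.coe_range, Set.mem_Iio] at ha hb
    exact hinj a (by omega) b (by omega) (sub_left_injective hab)
  have h2 : (range (M + 1)).image (fun t => g t - g 0) ⊆ box X := by
    intro w hw
    obtain ⟨t, ht, rfl⟩ := Finset.mem_image.mp hw
    rw [Finset.mem_range] at ht
    exact hcon t (by omega) 0 (by omega)
  have h3 := Finset.card_le_card h2
  have h4 : (box X).card = (2 * X + 1) ^ 2 := by
    rw [box, Finset.card_product, Int.card_Icc]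
    have : ((X : ℤ) + 1 - -(X : ℤ)).toNat = 2 * X + 1 := by omega
    rw [this, sq]
  omega

/-- **FIN-c**: a long injective walk has a rich root. -/
theorem rich_root (h1 : T1Stmt) (h2 : T2Stmt) : ∀ c₁ : ℝ, 0 < c₁ → c₁ < 1 →
    ∃ (B : ℕ) (ρ s₀ : ℝ), 1 ≤ B ∧ 1 ≤ ρ ∧ ∀ (r : ℕ → ℤ) (n D M : ℕ) (P : ℕ → ℕ → Finset ℕ)
      (s : ℕ → ℝ) (g : ℕ → ℤ × ℤ), 1 ≤ n → (∀ i < n, s₀ ≤ s i) →
      (∀ i < n, Parts r (P i) B (c₁ / 8) (s i)) →
      -- growth
      (4 * D + 5 : ℝ) ≤ Real.exp (s 0) → (∀ i < n, s 0 ≤ s i) → 0 ≤ s 0 →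
      (∀ i, i + 1 < n → ρ * s i + 2 ≤ s (i + 1)) →
      (∀ i < n, ∑ j ∈ range i, (Real.log B + s j) ≤ c₁ / 2 * s i) →
      -- the walk
      (∀ t < M, g (t + 1) - g t ∈ box D) → (∀ a ≤ M, ∀ b ≤ M, g a = g b → a = b) →
      (10 * Real.exp (ρ * s (n - 1))) ^ 2 ≤ M →
      Rich B (fun i a t => res r (P i a) (g t)) (fun i => Real.exp ((1 - c₁) * s i)) n 0
        (range (M + 1)) := by
  classical
  intro c₁ hc0 hc1
  obtain ⟨B, ρ, s₀, hB, hρ, hT1⟩ := h1 (c₁ / 2) (by linarith) (by linarith)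
  refine ⟨B, ρ, s₀, hB, hρ, fun r n D M P s g hn hs0 hP hD hs hs00 hgr hsum hstep hinj hM => ?_⟩
  have hB0 : (0 : ℝ) < B := by exact_mod_cast hB
  have hexp1 : ∀ i < n, (1 : ℝ) ≤ Real.exp (ρ * s i) := by
    intro i hi
    have := hs i hi
    exact Real.one_le_exp (mul_nonneg (by linarith) (by linarith))
  have hsρ : ∀ i < n, Real.exp (s i) ≤ Real.exp (ρ * s i) := by
    intro i hi
    have h3 := hs i hi
    refine Real.exp_le_exp.2 ?_
    nlinarith
  have hDρ : ∀ i < n, (4 * D + 5 : ℝ) ≤ Real.exp (ρ * s i) := by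
    intro i hi
    exact (hD.trans (Real.exp_le_exp.2 (hs i hi))).trans (hsρ i hi)
  have hceil : ∀ i, (⌈Real.exp (ρ * s i)⌉₊ : ℝ) < Real.exp (ρ * s i) + 1 := fun i =>
    Nat.ceil_lt_add_one (Real.exp_pos _).le
  have hstepE : ∀ i, i + 1 < n → 7 * Real.exp (ρ * s i) ≤ Real.exp (s (i + 1)) := by
    intro i hi
    have h3 : Real.exp (ρ * s i + 2) ≤ Real.exp (s (i + 1)) := Real.exp_le_exp.2 (hgr i hi)
    rw [Real.exp_add] at h3
    have h7 := Real.exp_pos (ρ * s i)
    have h8 : (7 : ℝ) < Real.exp 2 := by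
      have := Real.exp_one_gt_d9
      have h6 : Real.exp 2 = Real.exp 1 * Real.exp 1 := by rw [← Real.exp_add]; norm_num
      nlinarith
    nlinarith
  refine h2 _ B n M D _ _ (fun i => Real.exp ((1 - c₁ / 2) * s i)) (fun i => Real.exp (s i)) g
    (fun i => ⌊Real.exp (s i)⌋₊) (fun i => ⌈Real.exp (ρ * s i)⌉₊) hB hn
    (fun i _ => (Real.exp_pos _).le) hstep ?_ ?_ ?_ ?_ ?_ ?_ ?_
  · -- number of classes
    intro i hi a ha
    have h3 := (hP i hi)
    have h4 : Set.ncard ((fun t => res r (P i a) (g t)) '' {t | t ≤ M}) ≤ qq (P i a) := by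
      have e : ((fun t => res r (P i a) (g t)) '' {t | t ≤ M}) =
          (((range (M + 1)).image (fun t => res r (P i a) (g t)) :
            Finset (∀ p : ℕ, ZMod p)) : Set (∀ p : ℕ, ZMod p)) := by
        ext y
        simp only [Set.mem_image, Finset.coe_image, Finset.coe_range, Set.mem_Iio]
        constructor
        · rintro ⟨t, ht, rfl⟩; exact ⟨t, Nat.lt_succ_of_le ht, rfl⟩
        · rintro ⟨t, ht, rfl⟩; exact ⟨t, Nat.le_of_lt_succ ht, rfl⟩
      rw [e, Set.ncard_coe_finset]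
      refine card_res_le r (h3.rts a ha) _ ?_
      intro y hy
      obtain ⟨t, _, rfl⟩ := Finset.mem_image.mp hy
      exact ⟨g t, rfl⟩
    have h5 : (0 : ℝ) < qq (P i a) := by
      have : 0 < qq (P i a) := Finset.prod_pos fun p hp => (h3.rts a ha p hp).1.pos
      exact_mod_cast this
    calc (Set.ncard ((fun t => res r (P i a) (g t)) '' {t | t ≤ M}) : ℝ) ≤ qq (P i a) := by
          exact_mod_cast h4
      _ = Real.exp (Real.log (qq (P i a))) := (Real.exp_log h5).symm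
      _ ≤ Real.exp (s i) := Real.exp_le_exp.2 (h3.up a ha)
  · -- thin sets
    intro i hi
    have e1 : ∏ j ∈ range i, ((B : ℝ) * Real.exp (s j)) =
        Real.exp (∑ j ∈ range i, (Real.log B + s j)) := by
      rw [Real.exp_sum]
      refine Finset.prod_congr rfl fun j _ => ?_
      rw [Real.exp_add, Real.exp_log hB0]
    rw [e1, ← Real.exp_add]
    refine Real.exp_le_exp.2 ?_
    have := hsum i hi
    linarith
  · -- thin chains
    intro i hi m τ hτM hτ hτs hcl j hj j' hj'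
    refine hT1 (s i) (hs0 i hi) r (P i) ?_ ⌊Real.exp (s i)⌋₊ m (fun j => g (τ j)) ?_ hτs ?_ j hj
      j' hj' _ (Nat.le_ceil _)
    · have : c₁ / 2 / 4 = c₁ / 8 := by ring
      rw [this]
      exact hP i hi
    · rcases Nat.eq_zero_or_pos ⌊Real.exp (s i)⌋₊ with h | h
      · rw [h]
        simp only [Nat.cast_zero, Real.log_zero]
        exact hs00.trans (hs i hi)
      · have h3 : (0 : ℝ) < (⌊Real.exp (s i)⌋₊ : ℝ) := by exact_mod_cast h
        have h4 := Real.log_le_log h3 (Nat.floor_le (Real.exp_pos (s i)).le)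
        rwa [Real.log_exp] at h4
    · intro a ha
      refine le_trans (le_of_eq ?_) (hcl a ha)
      rw [nres]
      congr 1
      rw [← Set.ncard_coe_finset]
      congr 1
      ext y
      simp only [Set.mem_image, Finset.coe_image, Finset.coe_range, Set.mem_Iio]
      constructor
      · rintro ⟨t, ht, rfl⟩; exact ⟨t, Nat.le_of_lt_succ ht, rfl⟩
      · rintro ⟨t, ht, rfl⟩; exact ⟨t, Nat.lt_succ_of_le ht, rfl⟩
  · -- `D ≤ Ls 0`
    refine Nat.le_floor ?_
    linarith [(Nat.cast_nonneg D : (0 : ℝ) ≤ D)]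
  · intro i hi
    refine Nat.le_floor ?_
    push_cast
    have h3 := hceil i
    have h4 := hDρ i (by omega)
    have h5 := hstepE i hi
    linarith
  · intro i hi
    have h3 := hceil i
    have h4 := hDρ i (by omega)
    have h5 := hstepE i hi
    have h6 := hsρ (i + 1) hi
    have h7 := Nat.le_ceil (Real.exp (ρ * s (i + 1)))
    have : ((4 * ⌈Real.exp (ρ * s i)⌉₊ + 4 * D : ℕ) : ℝ) ≤ (⌈Real.exp (ρ * s (i + 1))⌉₊ : ℝ) := by
      push_cast
      linarith
    exact_mod_cast this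
  · refine far_of_injective hinj ?_
    have h3 := hceil (n - 1)
    have h4 := hDρ (n - 1) (by omega)
    have h5 : ((2 * (2 * ⌈Real.exp (ρ * s (n - 1))⌉₊ + 2 * D) + 1 : ℕ) : ℝ) ≤
        10 * Real.exp (ρ * s (n - 1)) := by
      push_cast
      linarith
    have h6 : (((2 * (2 * ⌈Real.exp (ρ * s (n - 1))⌉₊ + 2 * D) + 1) ^ 2 : ℕ) : ℝ) ≤ M := by
      rw [Nat.cast_pow]
      exact (pow_le_pow_left₀ (Nat.cast_nonneg _) h5 2).trans hM
    exact_mod_cast h6

end Vale.Agent.P015.M
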