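import Vale.Agent.P015.M.FINb
import Vale.Agent.P015.M.FINc
import Vale.Agent.P015.M.T1

/-! # P015, the moat theorem: the parts of a level -/

namespace Vale.Agent.P015.M.FIN

open Finset hiding box
open Vale.Agent.P006.CLS Vale.Agent.P015.H222
open scoped Pointwise

/-- the logarithm of the product of a part -/
theorem log_qq_bounds {r : ℕ → ℤ} {P : Finset ℕ} {k z : ℕ} (hr : Rts r P) (hk : P.card = k)
    (hz : ∀ p ∈ P, z ≤ 2 * p ∧ p ≤ z) (hz1 : 2 ≤ z) :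
    (k : ℝ) * (Real.log z - Real.log 2) ≤ Real.log (qq P) ∧ Real.log (qq P) ≤ k * Real.log z := by
  have h1 : Real.log (qq P) = ∑ p ∈ P, Real.log p := by
    rw [qq, Nat.cast_prod, Real.log_prod]
    intro p hp
    have := (hr p hp).1.pos
    positivity
  have hz0 : (0 : ℝ) < z := by positivity
  rw [h1]
  constructor
  · calc (k : ℝ) * (Real.log z - Real.log 2) = ∑ p ∈ P, (Real.log z - Real.log 2) := by
          rw [Finset.sum_const, hk, nsmul_eq_mul]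
      _ ≤ ∑ p ∈ P, Real.log p := Finset.sum_le_sum fun p hp => by
          have h2 := (hz p hp).1
          have h3 := (hr p hp).1.pos
          have h4 : (z : ℝ) ≤ 2 * p := by exact_mod_cast h2
          have h5 : (0 : ℝ) < p := by exact_mod_cast h3
          have h6 := Real.log_le_log hz0 h4
          rw [Real.log_mul (by norm_num) h5.ne'] at h6
          linarith
  · calc ∑ p ∈ P, Real.log p ≤ ∑ p ∈ P, Real.log z := Finset.sum_le_sum fun p hp => by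
          have h2 := (hz p hp).2
          have h3 := (hr p hp).1.pos
          exact Real.log_le_log (by exact_mod_cast h3) (by exact_mod_cast h2)
      _ = _ := by rw [Finset.sum_const, hk, nsmul_eq_mul]

/-- parts of a level, from the supply of primes -/
theorem parts_of {r : ℕ → ℤ} {P : ℕ → Finset ℕ} {B k z : ℕ} {e : ℝ}
    (h : ∀ a < B, Rts r (P a) ∧ (P a).card = k ∧ ∀ p ∈ P a, p % 4 = 1 ∧ z ≤ 2 * p ∧ p ≤ z)
    (hd : ∀ a < B, ∀ b < B, a ≠ b → Disjoint (P a) (P b)) (hz : 2 ≤ z)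
    (he : Real.log 2 ≤ e * Real.log z) : Parts r P B e (k * Real.log z) := by
  have hb := fun a ha => log_qq_bounds (h a ha).1 (h a ha).2.1 (fun p hp => ((h a ha).2.2 p hp).2) hz
  refine ⟨fun a ha => (h a ha).1, hd, fun a ha => ?_, fun a ha => (hb a ha).2⟩
  refine le_trans ?_ (hb a ha).1
  have hk : (0 : ℝ) ≤ k := Nat.cast_nonneg _
  nlinarith [mul_le_mul_of_nonneg_left he hk]

/-- growth of the sizes of the levels `z i = A ^ (m + i)` -/
theorem growth {A m : ℕ} {κ ρ c₁ : ℝ} {B : ℕ} (hB : 1 ≤ B) (hκ : 0 < κ) (hρ : 1 ≤ ρ) (hc : 0 < c₁)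
    (hA2 : 2 ≤ A) (hA1 : 1 + 8 / c₁ ≤ (A : ℝ)) (hA3 : 2 * ρ + 2 ≤ (A : ℝ))
    (hm1 : 1 ≤ κ * (A : ℝ) ^ m) (hm2 : Real.log B ≤ c₁ / 4 * (κ * (A : ℝ) ^ m))
    {s : ℕ → ℝ} (hs1 : ∀ i, κ * (A : ℝ) ^ (m + i) ≤ s i)
    (hs2 : ∀ i, s i ≤ 2 * κ * (A : ℝ) ^ (m + i)) :
    (∀ i, s 0 ≤ s i) ∧ 0 ≤ s 0 ∧ (∀ i, ρ * s i + 2 ≤ s (i + 1)) ∧
      ∀ i, ∑ j ∈ range i, (Real.log B + s j) ≤ c₁ / 2 * s i := by
  have hA0 : (0 : ℝ) < A := by positivity
  have hA2' : (2 : ℝ) ≤ A := by exact_mod_cast hA2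
  have hAm : (0 : ℝ) < (A : ℝ) ^ m := by positivity
  have hpos : ∀ i, 1 ≤ κ * (A : ℝ) ^ (m + i) := by
    intro i
    rw [pow_add]
    have h1 : (1 : ℝ) ≤ (A : ℝ) ^ i := one_le_pow₀ (by linarith)
    nlinarith
  refine ⟨?_, ?_, ?_, ?_⟩
  · intro i
    rcases Nat.eq_zero_or_pos i with h | h
    · rw [h]
    · obtain ⟨j, rfl⟩ : ∃ j, i = j + 1 := ⟨i - 1, by omega⟩
      refine (hs2 0).trans (le_trans ?_ (hs1 _))
      rw [add_zero, pow_add, pow_succ]
      have h1 : (1 : ℝ) ≤ (A : ℝ) ^ j := one_le_pow₀ (by linarith)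
      have h2 : 2 ≤ (A : ℝ) ^ j * A := by nlinarith
      calc 2 * κ * (A : ℝ) ^ m = κ * (A : ℝ) ^ m * 2 := by ring
        _ ≤ κ * (A : ℝ) ^ m * ((A : ℝ) ^ j * A) := mul_le_mul_of_nonneg_left h2 (by positivity)
        _ = _ := by ring
  · exact le_trans (by positivity) (hs1 0)
  · intro i
    have h1 := hs2 i
    have h2 := hs1 (i + 1)
    have h3 := hpos i
    have h4 : κ * (A : ℝ) ^ (m + (i + 1)) = (κ * (A : ℝ) ^ (m + i)) * A := by
      rw [← add_assoc, pow_succ]; ring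
    rw [h4] at h2
    have h5 : (κ * (A : ℝ) ^ (m + i)) * (2 * ρ + 2) ≤ (κ * (A : ℝ) ^ (m + i)) * A :=
      mul_le_mul_of_nonneg_left hA3 (by positivity)
    have h6 : ρ * s i ≤ ρ * (2 * κ * (A : ℝ) ^ (m + i)) :=
      mul_le_mul_of_nonneg_left h1 (by linarith)
    nlinarith
  · intro i
    rw [Finset.sum_add_distrib, Finset.sum_const, Finset.card_range, nsmul_eq_mul]
    have h1 : ∑ j ∈ range i, s j ≤ c₁ / 4 * s i := by
      have h2 : ∑ j ∈ range i, s j ≤ 2 * κ * (A : ℝ) ^ m * ∑ j ∈ range i, (A : ℝ) ^ j := by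
        rw [Finset.mul_sum]
        refine Finset.sum_le_sum fun j _ => (hs2 j).trans (le_of_eq ?_)
        rw [pow_add]; ring
      have h3 : (∑ j ∈ range i, (A : ℝ) ^ j) * (A - 1) = (A : ℝ) ^ i - 1 := geom_sum_mul _ _
      have h4 : (∑ j ∈ range i, (A : ℝ) ^ j) * (8 / c₁) ≤ (A : ℝ) ^ i := by
        have h5 : 0 ≤ ∑ j ∈ range i, (A : ℝ) ^ j := Finset.sum_nonneg fun _ _ => by positivity
        nlinarith [mul_le_mul_of_nonneg_left (show 8 / c₁ ≤ (A : ℝ) - 1 by linarith) h5]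
      have h6 : ∑ j ∈ range i, (A : ℝ) ^ j ≤ c₁ / 8 * (A : ℝ) ^ i := by
        have h7 : (∑ j ∈ range i, (A : ℝ) ^ j) = c₁ / 8 * ((∑ j ∈ range i, (A : ℝ) ^ j) * (8 / c₁)) := by
          field_simp
        rw [h7]
        exact mul_le_mul_of_nonneg_left h4 (by positivity)
      calc ∑ j ∈ range i, s j ≤ 2 * κ * (A : ℝ) ^ m * (c₁ / 8 * (A : ℝ) ^ i) :=
            h2.trans (mul_le_mul_of_nonneg_left h6 (by positivity))
        _ = c₁ / 4 * (κ * (A : ℝ) ^ (m + i)) := by rw [pow_add]; ring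
        _ ≤ c₁ / 4 * s i := mul_le_mul_of_nonneg_left (hs1 i) (by positivity)
    have h2 : (i : ℝ) * Real.log B ≤ c₁ / 4 * s i := by
      have h3 : (i : ℝ) ≤ (A : ℝ) ^ i := by
        have h4 : i < A ^ i := Nat.lt_pow_self (by omega)
        exact_mod_cast h4.le
      have h5 : 0 ≤ Real.log B := Real.log_nonneg (by exact_mod_cast hB)
      calc (i : ℝ) * Real.log B ≤ (A : ℝ) ^ i * (c₁ / 4 * (κ * (A : ℝ) ^ m)) :=
            mul_le_mul h3 hm2 h5 (by positivity)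
        _ = c₁ / 4 * (κ * (A : ℝ) ^ (m + i)) := by rw [pow_add]; ring
        _ ≤ c₁ / 4 * s i := mul_le_mul_of_nonneg_left (hs1 i) (by positivity)
    linarith

end Vale.Agent.P015.M.FIN
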