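import Vale.Agent.P015.M.Defs
import Vale.Agent.P015.R3.H85.Cross

/-! # P015, module LB: crossing of two periodic chains -/

namespace Vale.Agent.P015.M.LB512

open Finset hiding box
open Vale.Agent.P006.CLS Vale.Agent.P015.H222
open scoped Pointwise

/-- the determinant of two vectors -/
def cr (u v : ℤ × ℤ) : ℤ := u.1 * v.2 - u.2 * v.1

/-- the index of the lattice spanned by `a` and `b` -/
theorem index_le (a b : ℤ × ℤ) (hab : cr a b ≠ 0) (F : Finset (ℤ × ℤ))
    (hF : ∀ x : ℤ × ℤ, ∃ f ∈ F, ∃ s t : ℤ,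
      x.1 = f.1 + s * a.1 + t * b.1 ∧ x.2 = f.2 + s * a.2 + t * b.2) :
    (cr a b).natAbs ≤ F.card := by
  have ha : Int.gcd a.1 a.2 ≠ 0 := by
    intro h
    rw [Int.gcd_eq_zero_iff] at h
    apply hab
    rw [cr, h.1, h.2]
    ring
  set d : ℕ := Int.gcd a.1 a.2 with hd
  have hdpos : 0 < d := Nat.pos_of_ne_zero ha
  obtain ⟨a1, ha1⟩ : (d : ℤ) ∣ a.1 := Int.gcd_dvd_left ..
  obtain ⟨a2, ha2⟩ : (d : ℤ) ∣ a.2 := Int.gcd_dvd_right ..
  have hdz : (d : ℤ) ≠ 0 := by exact_mod_cast ha
  obtain ⟨u, v, huv⟩ : ∃ u v : ℤ, u * a1 + v * a2 = 1 := by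
    have h1 := Int.gcd_eq_gcd_ab a.1 a.2
    rw [← hd] at h1
    refine ⟨Int.gcdA a.1 a.2, Int.gcdB a.1 a.2, ?_⟩
    apply mul_left_cancel₀ hdz
    rw [mul_one]
    linear_combination -(Int.gcdA a.1 a.2) * ha1 - (Int.gcdB a.1 a.2) * ha2 - h1
  set m : ℤ := a1 * b.2 - a2 * b.1 with hm
  have hcr : cr a b = d * m := by
    rw [cr, ha1, ha2, hm]; ring
  choose f hfF s t hst1 hst2 using hF
  have hcard : (cr a b).natAbs = (range d ×ˢ range m.natAbs).card := by
    rw [card_product, card_range, card_range, hcr, Int.natAbs_mul, Int.natAbs_natCast]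
  rw [hcard]
  refine Finset.card_le_card_of_injOn
    (fun i => f ((i.1 : ℤ) * a1 - (i.2 : ℤ) * v, (i.1 : ℤ) * a2 + (i.2 : ℤ) * u)) ?_ ?_
  · intro i _
    exact hfF _
  · rintro ⟨i, j⟩ hij ⟨i', j'⟩ hij' hff
    rw [Finset.mem_coe, mem_product, mem_range, mem_range] at hij hij'
    simp only at hff hij hij'
    have e1 := hst1 ((i : ℤ) * a1 - (j : ℤ) * v, (i : ℤ) * a2 + (j : ℤ) * u)
    have e2 := hst2 ((i : ℤ) * a1 - (j : ℤ) * v, (i : ℤ) * a2 + (j : ℤ) * u)
    have e3 := hst1 ((i' : ℤ) * a1 - (j' : ℤ) * v, (i' : ℤ) * a2 + (j' : ℤ) * u)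
    have e4 := hst2 ((i' : ℤ) * a1 - (j' : ℤ) * v, (i' : ℤ) * a2 + (j' : ℤ) * u)
    rw [← hff] at e3 e4
    set S1 := s ((i : ℤ) * a1 - (j : ℤ) * v, (i : ℤ) * a2 + (j : ℤ) * u)
    set T1 := t ((i : ℤ) * a1 - (j : ℤ) * v, (i : ℤ) * a2 + (j : ℤ) * u)
    set S2 := s ((i' : ℤ) * a1 - (j' : ℤ) * v, (i' : ℤ) * a2 + (j' : ℤ) * u)
    set T2 := t ((i' : ℤ) * a1 - (j' : ℤ) * v, (i' : ℤ) * a2 + (j' : ℤ) * u)
    simp only at e1 e2 e3 e4
    rw [ha1] at e1 e3
    rw [ha2] at e2 e4
    have f1 : ((i : ℤ) - i') * a1 - ((j : ℤ) - j') * v = (S1 - S2) * (d * a1) + (T1 - T2) * b.1 := by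
      linear_combination e1 - e3
    have f2 : ((i : ℤ) - i') * a2 + ((j : ℤ) - j') * u = (S1 - S2) * (d * a2) + (T1 - T2) * b.2 := by
      linear_combination e2 - e4
    have f3 : ((j : ℤ) - j') = (T1 - T2) * m := by
      have : ((j : ℤ) - j') * (u * a1 + v * a2) = (T1 - T2) * m := by
        rw [hm]
        linear_combination a1 * f2 - a2 * f1
      rw [huv, mul_one] at this
      exact this
    have hjm : |(j : ℤ) - j'| < |m| := by
      have h1 : (j : ℤ) < |m| := by
        rw [Int.abs_eq_natAbs]; exact_mod_cast hij.2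
      have h2 : (j' : ℤ) < |m| := by
        rw [Int.abs_eq_natAbs]; exact_mod_cast hij'.2
      rw [abs_lt]
      constructor <;> omega
    have hT : T1 - T2 = 0 := by
      by_contra hne
      have h1 : 1 ≤ |T1 - T2| := Int.one_le_abs hne
      rw [f3, abs_mul] at hjm
      nlinarith [abs_nonneg m]
    have hj : (j : ℤ) - j' = 0 := by rw [f3, hT, zero_mul]
    have hi : ((i : ℤ) - i') = (S1 - S2) * d := by
      have : ((i : ℤ) - i') * (u * a1 + v * a2) = (S1 - S2) * d * (u * a1 + v * a2) := by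
        rw [hT, hj] at f1 f2
        linear_combination u * f1 + v * f2
      rw [huv, mul_one, mul_one] at this
      exact this
    have hid : |(i : ℤ) - i'| < d := by
      rw [abs_lt]
      constructor <;> omega
    have hS : S1 - S2 = 0 := by
      by_contra hne
      have h1 : 1 ≤ |S1 - S2| := Int.one_le_abs hne
      rw [hi, abs_mul, Nat.abs_cast] at hid
      nlinarith
    rw [hS, zero_mul] at hi
    have hi' : i = i' := by omega
    have hj' : j = j' := by omega
    rw [hi', hj']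

/-- a chain from the relation `Reach` -/
theorem exists_chain {L : ℕ} {S : Set (ℤ × ℤ)} {v : ℤ × ℤ} (h : Reach L S v) :
    ∃ (n : ℕ) (u : ℕ → ℤ × ℤ), u 0 = 0 ∧ u n = v ∧ (∀ i, 1 ≤ i → i ≤ n → u i ∈ S) ∧
      ∀ i < n, u (i + 1) - u i ∈ box L := by
  unfold Reach at h
  induction h with
  | refl => exact ⟨0, fun _ => 0, rfl, rfl, fun i h1 h2 => by omega, fun i hi => by omega⟩
  | @tail x y _ hxy ih =>
    obtain ⟨n, u, h0, hn, hS, hs⟩ := ih
    refine ⟨n + 1, fun i => if i ≤ n then u i else y, by simp [h0], by simp, ?_, ?_⟩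
    · intro i h1 h2
      simp only
      split_ifs with h
      · exact hS i h1 h
      · exact hxy.1
    · intro i hi
      simp only
      rcases Nat.lt_or_ge i n with h | h
      · rw [if_pos (by omega), if_pos (by omega)]
        exact hs i h
      · have : i = n := by omega
        subst this
        rw [if_neg (by omega), if_pos le_rfl, hn]
        exact hxy.2

/-- periodic extension of a chain -/
def per (u : ℕ → ℤ × ℤ) (n : ℕ) (a : ℤ × ℤ) (k : ℕ) : ℤ × ℤ :=
  (((k / n : ℕ) : ℤ) * a.1 + (u (k % n)).1, ((k / n : ℕ) : ℤ) * a.2 + (u (k % n)).2)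

theorem per_step {L n : ℕ} (hn : 0 < n) {u : ℕ → ℤ × ℤ} {a : ℤ × ℤ} (h0 : u 0 = 0) (ha : u n = a)
    (hs : ∀ i < n, u (i + 1) - u i ∈ box L) (k : ℕ) :
    per u n a (k + 1) - per u n a k ∈ box L := by
  have hk := Nat.mod_lt k hn
  rcases Nat.lt_or_ge (k % n + 1) n with h | h
  · have h1 : (k + 1) % n = k % n + 1 := by
      rw [Nat.add_mod, Nat.mod_eq_of_lt (show 1 < n by omega)]
      exact Nat.mod_eq_of_lt h
    have h2 : (k + 1) / n = k / n := by
      have e1 := Nat.div_add_mod k n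
      have e2 := Nat.div_add_mod (k + 1) n
      rw [h1] at e2
      have : n * ((k + 1) / n) = n * (k / n) := by omega
      exact Nat.eq_of_mul_eq_mul_left hn this
    have := hs (k % n) hk
    simp only [per, h1, h2]
    convert this using 1
    ext <;> simp
  · have hkn : k % n = n - 1 := by omega
    have h2 : (k + 1) / n = k / n + 1 := by
      have e1 := Nat.div_add_mod k n
      have : k + 1 = n * (k / n + 1) := by
        rw [Nat.mul_add, mul_one]; omega
      rw [this]
      exact Nat.mul_div_cancel_left _ hn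
    have h1 : (k + 1) % n = 0 := by
      have e1 := Nat.div_add_mod k n
      have : k + 1 = n * (k / n + 1) := by
        rw [Nat.mul_add, mul_one]; omega
      rw [this]
      exact Nat.mul_mod_right _ _
    have := hs (n - 1) (by omega)
    rw [Nat.sub_add_cancel hn, ha] at this
    simp only [per, h1, h2, h0, hkn]
    convert this using 1
    ext
    · simp; ring
    · simp; ring

/-- a lattice point as a complex number -/
def tc (w : ℤ × ℤ) : ℂ := ⟨(w.1 : ℝ), (w.2 : ℝ)⟩

theorem dist_tc_le {L : ℕ} {v w : ℤ × ℤ} (h : w - v ∈ box L) : dist (tc v) (tc w) ≤ 2 * L := by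
  rw [mem_box] at h
  simp only [Prod.fst_sub, Prod.snd_sub] at h
  obtain ⟨⟨h1, h2⟩, h3, h4⟩ := h
  rw [dist_comm, dist_eq_norm]
  refine (Complex.norm_le_abs_re_add_abs_im _).trans ?_
  have e1 : |(tc w - tc v).re| ≤ L := by
    simp only [tc, Complex.sub_re]
    rw [abs_le]
    constructor
    · exact_mod_cast h1
    · exact_mod_cast h2
  have e2 : |(tc w - tc v).im| ≤ L := by
    simp only [tc, Complex.sub_im]
    rw [abs_le]
    constructor
    · exact_mod_cast h3
    · exact_mod_cast h4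
  linarith

theorem box_of_dist {L : ℕ} {v w : ℤ × ℤ} (h : dist (tc v) (tc w) ≤ L) : w - v ∈ box L := by
  rw [dist_comm, dist_eq_norm] at h
  have e1 := (Complex.abs_re_le_norm _).trans h
  have e2 := (Complex.abs_im_le_norm _).trans h
  simp only [tc, Complex.sub_re, Complex.sub_im] at e1 e2
  rw [abs_le] at e1 e2
  rw [mem_box]
  simp only [Prod.fst_sub, Prod.snd_sub]
  refine ⟨⟨?_, ?_⟩, ?_, ?_⟩
  · exact_mod_cast e1.1
  · exact_mod_cast e1.2
  · exact_mod_cast e2.1
  · exact_mod_cast e2.2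

/-- the linear map with coordinates `cr p b` and `cr a p` -/
noncomputable def lm (a b : ℤ × ℤ) : ℂ →ₗ[ℝ] ℂ where
  toFun p := ⟨p.re * b.2 - p.im * b.1, a.1 * p.im - a.2 * p.re⟩
  map_add' p q := by
    apply Complex.ext
    · simp only [Complex.add_re, Complex.add_im]; ring
    · simp only [Complex.add_re, Complex.add_im]; ring
  map_smul' c p := by
    apply Complex.ext
    · simp only [Complex.real_smul, Complex.mul_re, Complex.ofReal_re, Complex.ofReal_im,
        Complex.mul_im, RingHom.id_apply]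
      ring
    · simp only [Complex.real_smul, Complex.mul_re, Complex.ofReal_re, Complex.ofReal_im,
        Complex.mul_im, RingHom.id_apply]
      ring

theorem lm_tc (a b w : ℤ × ℤ) : (lm a b (tc w)).re = (cr w b : ℝ) ∧
    (lm a b (tc w)).im = (cr a w : ℝ) := by
  constructor
  · simp only [lm, tc, cr, LinearMap.coe_mk, AddHom.coe_mk]
    push_cast; ring
  · simp only [lm, tc, cr, LinearMap.coe_mk, AddHom.coe_mk]
    push_cast; ring

theorem lm_inj {a b : ℤ × ℤ} (hab : cr a b ≠ 0) : Function.Injective (lm a b) := by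
  rw [injective_iff_map_eq_zero]
  intro p hp
  have h1 : p.re * b.2 - p.im * b.1 = 0 := by
    have := congrArg Complex.re hp
    simpa only [lm, LinearMap.coe_mk, AddHom.coe_mk, Complex.zero_re] using this
  have h2 : a.1 * p.im - a.2 * p.re = 0 := by
    have := congrArg Complex.im hp
    simpa only [lm, LinearMap.coe_mk, AddHom.coe_mk, Complex.zero_im] using this
  have hr : ((cr a b : ℤ) : ℝ) ≠ 0 := by exact_mod_cast hab
  have hr' : ((cr a b : ℤ) : ℝ) = a.1 * b.2 - a.2 * b.1 := by rw [cr]; push_cast; ring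
  apply Complex.ext
  · apply mul_left_cancel₀ hr
    rw [Complex.zero_re, mul_zero, hr']
    linear_combination (a.1 : ℝ) * h1 + b.1 * h2
  · apply mul_left_cancel₀ hr
    rw [Complex.zero_im, mul_zero, hr']
    linear_combination (a.2 : ℝ) * h1 + b.2 * h2

theorem cr_add_mul (a w : ℤ × ℤ) (c : ℤ) : cr a (c * a.1 + w.1, c * a.2 + w.2) = cr a w := by
  simp only [cr]; ring

/-- covering of the plane -/
theorem cover {L : ℕ} {A : Finset (ℤ × ℤ)} (hA : Conn L A) {a b : ℤ × ℤ} (ha : a ∈ A) (hb : b ∈ A)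
    (hab : 0 < cr a b) (x : ℤ × ℤ) : ∃ f ∈ (A - A) + box (2 * L), ∃ s t : ℤ,
      x.1 = f.1 + s * a.1 + t * b.1 ∧ x.2 = f.2 + s * a.2 + t * b.2 := by
  obtain ⟨n, u, hu0, hun, huS, hus⟩ := exists_chain (hA.reach a ha)
  obtain ⟨m, v, hv0, hvm, hvS, hvs⟩ := exists_chain (hA.reach b hb)
  have hn : 0 < n := by
    rcases Nat.eq_zero_or_pos n with h | h
    · exfalso
      rw [h, hu0] at hun
      rw [← hun, cr] at hab
      simp at hab
    · exact h
  have hm : 0 < m := by
    rcases Nat.eq_zero_or_pos m with h | h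
    · exfalso
      rw [h, hv0] at hvm
      rw [← hvm, cr] at hab
      simp at hab
    · exact h
  have huA : ∀ i < n, u i ∈ A := by
    intro i hi
    rcases Nat.eq_zero_or_pos i with h | h
    · rw [h, hu0]; exact hA.zero
    · exact huS i h hi.le
  have hvA : ∀ i < m, v i ∈ A := by
    intro i hi
    rcases Nat.eq_zero_or_pos i with h | h
    · rw [h, hv0]; exact hA.zero
    · exact hvS i h hi.le
  set C1 : ℤ := ∑ i ∈ range n, |cr a (u i)| with hC1
  set C2 : ℤ := ∑ i ∈ range m, |cr (v i) b| with hC2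
  have hC1i : ∀ k : ℕ, |cr a (u (k % n))| ≤ C1 := fun k =>
    Finset.single_le_sum (f := fun i => |cr a (u i)|) (fun i _ => abs_nonneg _)
      (Finset.mem_range.2 (Nat.mod_lt k hn))
  have hC2i : ∀ k : ℕ, |cr (v (k % m)) b| ≤ C2 := fun k =>
    Finset.single_le_sum (f := fun i => |cr (v i) b|) (fun i _ => abs_nonneg _)
      (Finset.mem_range.2 (Nat.mod_lt k hm))
  have hC10 : 0 ≤ C1 := Finset.sum_nonneg fun i _ => abs_nonneg _
  have hC20 : 0 ≤ C2 := Finset.sum_nonneg fun i _ => abs_nonneg _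
  set T : ℕ := (C1 + C2 + |cr x b| + |cr a x| + 1).toNat with hT
  have hTz : (T : ℤ) = C1 + C2 + |cr x b| + |cr a x| + 1 := by
    rw [hT]
    exact Int.toNat_of_nonneg (by positivity)
  have hxb := abs_nonneg (cr x b)
  have hax := abs_nonneg (cr a x)
  have hT0 : 0 < T := by
    have : (0 : ℤ) < T := by rw [hTz]; linarith
    exact_mod_cast this
  have hTΔ : (T : ℤ) ≤ T * cr a b := by nlinarith
  set al : ℕ → ℤ × ℤ := fun k => per u n a k - ((T : ℤ) * a.1, (T : ℤ) * a.2) with hal
  set be : ℕ → ℤ × ℤ := fun k => x + (per v m b k - ((T : ℤ) * b.1, (T : ℤ) * b.2)) with hbe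
  have al_im : ∀ k, cr a (al k) = cr a (u (k % n)) := by
    intro k
    simp only [hal, per, cr, Prod.fst_sub, Prod.snd_sub]
    ring
  have be_re : ∀ k, cr (be k) b = cr x b + cr (v (k % m)) b := by
    intro k
    simp only [hbe, per, cr, Prod.fst_sub, Prod.snd_sub, Prod.fst_add, Prod.snd_add]
    ring
  have al0 : cr (al 0) b = - (T * cr a b) := by
    simp only [hal, per, cr, Prod.fst_sub, Prod.snd_sub, Nat.zero_div, Nat.zero_mod, hu0,
      Prod.fst_zero, Prod.snd_zero]
    push_cast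
    ring
  have be0 : cr a (be 0) = cr a x - T * cr a b := by
    simp only [hbe, per, cr, Prod.fst_sub, Prod.snd_sub, Nat.zero_div, Nat.zero_mod, hv0,
      Prod.fst_zero, Prod.snd_zero, Prod.fst_add, Prod.snd_add]
    push_cast
    ring
  have al1 : cr (al (n * (2 * T))) b = T * cr a b := by
    have h1 : n * (2 * T) / n = 2 * T := Nat.mul_div_cancel_left _ hn
    have h2 : n * (2 * T) % n = 0 := Nat.mul_mod_right _ _
    simp only [hal, per, cr, Prod.fst_sub, Prod.snd_sub, h1, h2, hu0,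
      Prod.fst_zero, Prod.snd_zero]
    push_cast
    ring
  have be1 : cr a (be (m * (2 * T))) = cr a x + T * cr a b := by
    have h1 : m * (2 * T) / m = 2 * T := Nat.mul_div_cancel_left _ hm
    have h2 : m * (2 * T) % m = 0 := Nat.mul_mod_right _ _
    simp only [hbe, per, cr, Prod.fst_sub, Prod.snd_sub, h1, h2, hv0,
      Prod.fst_zero, Prod.snd_zero, Prod.fst_add, Prod.snd_add]
    push_cast
    ring
  obtain ⟨k, _, k', _, hd⟩ := Vale.Agent.P015.R3.H85.cross_chain
    (D := ((2 * L : ℕ) : ℝ)) (a := fun k => tc (al k)) (b := fun k => tc (be k))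
    (N := n * (2 * T)) (M := m * (2 * T)) (by positivity) (by positivity)
    (lm a b) (lm_inj hab.ne') (A := -((|cr x b| + C2 : ℤ) : ℝ)) (B := ((|cr x b| + C2 : ℤ) : ℝ))
    (C := -((C1 : ℤ) : ℝ)) (E := ((C1 : ℤ) : ℝ))
    (by
      intro k _
      rw [(lm_tc a b (al k)).2, al_im]
      have := abs_le.1 (hC1i k)
      constructor
      · exact_mod_cast this.1
      · exact_mod_cast this.2)
    (by
      intro k _
      rw [(lm_tc a b (be k)).1, be_re]
      have h1 := abs_le.1 (hC2i k)
      have h2 := neg_abs_le (cr x b)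
      have h3 := le_abs_self (cr x b)
      constructor
      · have : -(|cr x b| + C2) ≤ cr x b + cr (v (k % m)) b := by linarith [h1.1]
        exact_mod_cast this
      · have : cr x b + cr (v (k % m)) b ≤ |cr x b| + C2 := by linarith [h1.2]
        exact_mod_cast this)
    (by
      rw [(lm_tc a b (al 0)).1, al0]
      have : -((T : ℤ) * cr a b) ≤ -(|cr x b| + C2) := by linarith
      exact_mod_cast this)
    (by
      rw [(lm_tc a b (al (n * (2 * T)))).1, al1]
      have : (|cr x b| + C2) ≤ (T : ℤ) * cr a b := by linarith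
      exact_mod_cast this)
    (by
      rw [(lm_tc a b (be 0)).2, be0]
      have h3 := le_abs_self (cr a x)
      have : cr a x - (T : ℤ) * cr a b ≤ -C1 := by linarith
      exact_mod_cast this)
    (by
      rw [(lm_tc a b (be (m * (2 * T)))).2, be1]
      have h3 := neg_abs_le (cr a x)
      have : C1 ≤ cr a x + (T : ℤ) * cr a b := by linarith
      exact_mod_cast this)
    (by
      intro k _
      have h1 := per_step hn hu0 hun hus k
      have h2 : al (k + 1) - al k ∈ box L := by
        simp only [hal]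
        rwa [sub_sub_sub_cancel_right]
      have h3 := dist_tc_le h2
      push_cast
      exact h3)
    (by
      intro k _
      have h1 := per_step hm hv0 hvm hvs k
      have h2 : be (k + 1) - be k ∈ box L := by
        simp only [hbe]
        rwa [add_sub_add_left_eq_sub, sub_sub_sub_cancel_right]
      have h3 := dist_tc_le h2
      push_cast
      exact h3)
  have hbox := box_of_dist hd
  refine ⟨(u (k % n) - v (k' % m)) + (be k' - al k), ?_, ((k / n : ℕ) : ℤ) - T,
    -(((k' / m : ℕ) : ℤ) - T), ?_, ?_⟩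
  · refine Finset.add_mem_add ?_ hbox
    exact Finset.sub_mem_sub (huA _ (Nat.mod_lt _ hn)) (hvA _ (Nat.mod_lt _ hm))
  · simp only [hbe, hal, per, Prod.fst_sub, Prod.fst_add]
    ring
  · simp only [hbe, hal, per, Prod.snd_sub, Prod.snd_add]
    ring

theorem card_box2 (L : ℕ) : (box (2 * L)).card = (4 * L + 1) ^ 2 := by
  rw [box, card_product, Int.card_Icc, sq]
  have : ((((2 * L : ℕ) : ℤ) + 1 - -((2 * L : ℕ) : ℤ)).toNat) = 4 * L + 1 := by
    push_cast; omega
  rw [this]

theorem main_pos {L : ℕ} {A : Finset (ℤ × ℤ)} (hA : Conn L A) {a b : ℤ × ℤ} (ha : a ∈ A)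
    (hb : b ∈ A) (hab : 0 < cr a b) : |cr a b| ≤ (4 * L + 1) ^ 2 * ((A - A).card : ℤ) := by
  have h1 := index_le a b hab.ne' ((A - A) + box (2 * L)) (cover hA ha hb hab)
  have h2 : ((A - A) + box (2 * L)).card ≤ (A - A).card * (4 * L + 1) ^ 2 := by
    rw [← card_box2]
    exact Finset.card_add_le
  rw [Int.abs_eq_natAbs]
  have h3 := h1.trans h2
  calc (((cr a b).natAbs : ℕ) : ℤ) ≤ (((A - A).card * (4 * L + 1) ^ 2 : ℕ) : ℤ) := by
        exact_mod_cast h3
    _ = _ := by push_cast; ring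

end Vale.Agent.P015.M.LB512

namespace Vale.Agent.P015.M

open LB512

/-- **Lemma B** -/
theorem lb512 : LBStmt := by
  intro L A hA a ha b hb
  rcases lt_trichotomy (cr a b) 0 with h | h | h
  · have h1 : 0 < cr b a := by
      simp only [cr] at h ⊢; linarith
    have h2 := main_pos hA hb ha h1
    have h3 : |a.1 * b.2 - a.2 * b.1| = |cr b a| := by
      rw [← abs_neg]
      congr 1
      simp only [cr]; ring
    rw [h3]
    exact h2
  · have h3 : a.1 * b.2 - a.2 * b.1 = 0 := h
    rw [h3, abs_zero]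
    positivity
  · exact main_pos hA ha hb h

end Vale.Agent.P015.M
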