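import Vale.Agent.P015.M.Defs

/-! Module SS, part A: a long connected set with few differences whose residues lie in thin sets
is small. -/

namespace Vale.Agent.P015.M

open Finset hiding box
open Vale.Agent.P006.CLS Vale.Agent.P015.H222
open scoped Pointwise

theorem cross_diff {A : Finset (ℤ × ℤ)} {ρ ρ' : ℕ} {h : ℤ} {a : ℤ × ℤ} (ha : a ∉ box ρ')
    (hA : A ⊆ box ρ) (hab : ∀ b ∈ A, |a.1 * b.2 - a.2 * b.1| ≤ h)
    {u v u' v' : ℤ × ℤ} (hu : u ∈ A) (hv : v ∈ A) (hu' : u' ∈ A) (hv' : v' ∈ A) :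
    (ρ' : ℤ) * |(u - v).1 * (u' - v').2 - (u - v).2 * (u' - v').1| ≤ 8 * h * ρ := by
  obtain ⟨x1, x2⟩ := a
  obtain ⟨u1, u2⟩ := u
  obtain ⟨v1, v2⟩ := v
  obtain ⟨s1, s2⟩ := u'
  obtain ⟨t1, t2⟩ := v'
  have hu1 := mem_box.1 (hA hu)
  have hv1 := mem_box.1 (hA hv)
  have hs1 := mem_box.1 (hA hu')
  have ht1 := mem_box.1 (hA hv')
  have hub := hab _ hu
  have hvb := hab _ hv
  have hsb := hab _ hu'
  have htb := hab _ hv'
  simp only [Prod.fst_sub, Prod.snd_sub] at *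
  have h0 : 0 ≤ h := (abs_nonneg _).trans hub
  -- cross products with the differences
  have hV : |x1 * (u2 - v2) - x2 * (u1 - v1)| ≤ 2 * h := by
    have e : x1 * (u2 - v2) - x2 * (u1 - v1) = (x1 * u2 - x2 * u1) - (x1 * v2 - x2 * v1) := by ring
    rw [e]
    refine (abs_sub _ _).trans ?_
    linarith
  have hV' : |x1 * (s2 - t2) - x2 * (s1 - t1)| ≤ 2 * h := by
    have e : x1 * (s2 - t2) - x2 * (s1 - t1) = (x1 * s2 - x2 * s1) - (x1 * t2 - x2 * t1) := by ring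
    rw [e]
    refine (abs_sub _ _).trans ?_
    linarith
  have hρ : (0 : ℤ) ≤ ρ := Int.natCast_nonneg _
  have d1 : |u1 - v1| ≤ 2 * ρ := by rw [abs_le]; constructor <;> linarith [hu1.1.1, hu1.1.2, hv1.1.1, hv1.1.2]
  have d2 : |u2 - v2| ≤ 2 * ρ := by rw [abs_le]; constructor <;> linarith [hu1.2.1, hu1.2.2, hv1.2.1, hv1.2.2]
  have d3 : |s1 - t1| ≤ 2 * ρ := by rw [abs_le]; constructor <;> linarith [hs1.1.1, hs1.1.2, ht1.1.1, ht1.1.2]
  have d4 : |s2 - t2| ≤ 2 * ρ := by rw [abs_le]; constructor <;> linarith [hs1.2.1, hs1.2.2, ht1.2.1, ht1.2.2]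
  set C := (u1 - v1) * (s2 - t2) - (u2 - v2) * (s1 - t1) with hC
  have key1 : |x1| * |C| ≤ 8 * h * ρ := by
    rw [← abs_mul]
    have e : x1 * C = (x1 * (s2 - t2) - x2 * (s1 - t1)) * (u1 - v1) -
        (x1 * (u2 - v2) - x2 * (u1 - v1)) * (s1 - t1) := by rw [hC]; ring
    rw [e]
    refine (abs_sub _ _).trans ?_
    rw [abs_mul, abs_mul]
    have m1 := mul_le_mul hV' d1 (abs_nonneg _) (by linarith)
    have m2 := mul_le_mul hV d3 (abs_nonneg _) (by linarith)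
    linarith
  have key2 : |x2| * |C| ≤ 8 * h * ρ := by
    rw [← abs_mul]
    have e : x2 * C = (x1 * (s2 - t2) - x2 * (s1 - t1)) * (u2 - v2) -
        (x1 * (u2 - v2) - x2 * (u1 - v1)) * (s2 - t2) := by rw [hC]; ring
    rw [e]
    refine (abs_sub _ _).trans ?_
    rw [abs_mul, abs_mul]
    have m1 := mul_le_mul hV' d2 (abs_nonneg _) (by linarith)
    have m2 := mul_le_mul hV d4 (abs_nonneg _) (by linarith)
    linarith
  have hout : (ρ' : ℤ) ≤ |x1| ∨ (ρ' : ℤ) ≤ |x2| := by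
    by_contra hcon
    push Not at hcon
    apply ha
    rw [mem_box]
    have h1 := abs_lt.1 hcon.1
    have h2 := abs_lt.1 hcon.2
    exact ⟨⟨h1.1.le, h1.2.le⟩, ⟨h2.1.le, h2.2.le⟩⟩
  rcases hout with h1 | h1
  · exact (mul_le_mul_of_nonneg_right h1 (abs_nonneg _)).trans key1
  · exact (mul_le_mul_of_nonneg_right h1 (abs_nonneg _)).trans key2

theorem exp_le_prod_qq {r : ℕ → ℤ} {P : ℕ → Finset ℕ} {T : Finset ℕ} {x : ℝ} {J : ℕ}
    (hT : T.card = J) (hr : ∀ a ∈ T, Rts r (P a)) (hx : ∀ a ∈ T, x ≤ Real.log (qq (P a))) :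
    Real.exp (J * x) ≤ ((∏ a ∈ T, qq (P a) : ℕ) : ℝ) := by
  have hpos : ∀ a ∈ T, (0 : ℝ) < qq (P a) := by
    intro a ha
    have : 0 < qq (P a) := Finset.prod_pos fun p hp => (hr a ha p hp).1.pos
    exact_mod_cast this
  push_cast
  rw [← Real.le_log_iff_exp_le (Finset.prod_pos hpos), Real.log_prod (fun a ha => (hpos a ha).ne'),
    ← hT, ← nsmul_eq_mul]
  exact Finset.card_nsmul_le_sum _ _ _ hx

/-- **Cap**: a long connected set with at most `M'` differences, in a translate of thin sets modulo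
`2 J` parts, is small. -/
theorem capCore (hLB : LBStmt) (hLA : LAStmt) {r : ℕ → ℤ} {P : ℕ → Finset ℕ} {J : ℕ} (hJ : 1 ≤ J)
    {x y M' Z : ℝ} {L ρ ρ' : ℕ} (hrts : ∀ a < 2 * J, Rts r (P a))
    (hdisj : ∀ a < 2 * J, ∀ b < 2 * J, a ≠ b → Disjoint (P a) (P b))
    (hlow : ∀ a < 2 * J, x ≤ Real.log (qq (P a))) (hx : 0 ≤ x) (hρ' : 0 < ρ')
    {A : Finset (ℤ × ℤ)} (hA : Conn L A) (hAρ : A ⊆ box ρ) (hlong : ∃ w ∈ A, w ∉ box ρ')
    (hM : ((A - A).card : ℝ) ≤ M') (E : ℕ → Finset (∀ p : ℕ, ZMod p))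
    (hE : ∀ a < 2 * J, ((E a).card : ℝ) ≤ Real.exp y) (z : ℕ → (∀ p : ℕ, ZMod p))
    (hz : ∀ a < 2 * J, ∀ w ∈ A, z a + res r (P a) w ∈ E a)
    (h1 : 8 * (4 * L + 1) ^ 2 * M' * ρ ≤ Z * ρ') (h2 : (4 : ℝ) * ρ ≤ Z)
    (hZ : Z < Real.exp ((J - 1 : ℕ) * x)) :
    (A.card : ℝ) ≤ Real.exp (J * y) := by
  classical
  obtain ⟨a, haA, ha⟩ := hlong
  have hρ'r : (0 : ℝ) < ρ' := by exact_mod_cast hρ'
  set R : Set (ℤ × ℤ) := {V | ∃ u ∈ A, ∃ v ∈ A, V = u - v} with hR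
  set n : ℕ := (A - A).card with hn
  set Δ : ℕ := 8 * ((4 * L + 1) ^ 2 * n) * ρ / ρ' with hΔ
  have hΔZ : (Δ : ℝ) ≤ Z := by
    have e1 : (Δ : ℝ) ≤ ((8 * ((4 * L + 1) ^ 2 * n) * ρ : ℕ) : ℝ) / ρ' := Nat.cast_div_le
    refine e1.trans ?_
    rw [div_le_iff₀ hρ'r]
    refine le_trans ?_ h1
    push_cast
    have : (8 : ℝ) * ((4 * L + 1) ^ 2 * n) * ρ = (8 * (4 * L + 1) ^ 2 * ρ) * n := by ring
    rw [this]
    calc (8 * (4 * (L : ℝ) + 1) ^ 2 * ρ) * n ≤ (8 * (4 * (L : ℝ) + 1) ^ 2 * ρ) * M' :=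
          mul_le_mul_of_nonneg_left hM (by positivity)
      _ = _ := by ring
  obtain ⟨T, hT, hTc, hTk⟩ := hLA r J P hJ hrts hdisj R (2 * ρ) Δ (by
      rintro V ⟨u, hu, v, hv, rfl⟩
      have hu1 := mem_box.1 (hAρ hu)
      have hv1 := mem_box.1 (hAρ hv)
      rw [mem_box]
      simp only [Prod.fst_sub, Prod.snd_sub]
      push_cast
      refine ⟨⟨?_, ?_⟩, ?_, ?_⟩ <;> linarith [hu1.1.1, hu1.1.2, hu1.2.1, hu1.2.2, hv1.1.1, hv1.1.2,
        hv1.2.1, hv1.2.2])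
    (by
      rintro V ⟨u, hu, v, hv, rfl⟩ V' ⟨u', hu', v', hv', rfl⟩
      have h3 := cross_diff ha hAρ (fun b hb => hLB L A hA a haA b hb) hu hv hu' hv'
      rw [hΔ]
      push_cast
      apply Int.le_ediv_of_mul_le (by exact_mod_cast hρ')
      rw [mul_comm]
      exact h3)
    (by
      intro T hT hTc
      have h3 := exp_le_prod_qq (x := x) hTc (fun a ha => hrts a (Finset.mem_range.1 (hT ha)))
        (fun a ha => hlow a (Finset.mem_range.1 (hT ha)))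
      have h4 : (Δ : ℝ) < ((∏ a ∈ T, qq (P a) : ℕ) : ℝ) := lt_of_le_of_lt hΔZ (lt_of_lt_of_le hZ h3)
      exact_mod_cast h4)
    (by
      intro T hT hTc
      have h3 := exp_le_prod_qq (x := x) hTc (fun a ha => hrts a (Finset.mem_range.1 (hT ha)))
        (fun a ha => hlow a (Finset.mem_range.1 (hT ha)))
      have h4 : Real.exp ((J - 1 : ℕ) * x) ≤ Real.exp (J * x) := by
        apply Real.exp_le_exp.2
        apply mul_le_mul_of_nonneg_right _ hx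
        exact_mod_cast Nat.sub_le _ _
      have h5 : (((2 * (2 * ρ) : ℕ)) : ℝ) < ((∏ a ∈ T, qq (P a) : ℕ) : ℝ) := by
        push_cast at *
        linarith
      exact_mod_cast h5)
  -- injectivity
  have hcard : A.card ≤ (T.pi (fun a => E a)).card := by
    apply Finset.card_le_card_of_injOn (fun w => fun a _ => z a + res r (P a) w)
    · intro w hw
      rw [Finset.mem_coe, Finset.mem_pi]
      intro a ha
      exact hz a (Finset.mem_range.1 (hT ha)) w hw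
    · intro w hw w' hw' heq
      have h3 : w - w' = 0 := by
        apply hTk (w - w') ⟨w, hw, w', hw', rfl⟩
        intro a ha
        have h4 := congrFun (congrFun heq a) ha
        simp only at h4
        rw [map_sub, sub_eq_zero]
        exact add_left_cancel h4
      exact sub_eq_zero.1 h3
  rw [Finset.card_pi] at hcard
  have h3 : (A.card : ℝ) ≤ ∏ a ∈ T, ((E a).card : ℝ) := by exact_mod_cast hcard
  refine h3.trans ?_
  have h4 : ∏ a ∈ T, ((E a).card : ℝ) ≤ ∏ a ∈ T, Real.exp y :=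
    Finset.prod_le_prod (fun _ _ => Nat.cast_nonneg _)
      (fun a ha => hE a (Finset.mem_range.1 (hT ha)))
  refine h4.trans ?_
  rw [Finset.prod_const, hTc, ← Real.exp_nat_mul]

end Vale.Agent.P015.M
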