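import Vale.Agent.P015.M.SSA

/-! Module SS, part B: components, products of systems, one stage. -/

namespace Vale.Agent.P015.M

open Finset hiding box
open Vale.Agent.P006.CLS Vale.Agent.P015.H222
open scoped Pointwise

theorem zero_mem_box (m : ℕ) : (0 : ℤ × ℤ) ∈ box m := by
  rw [mem_box]; simp

theorem box_mono {m n : ℕ} (h : m ≤ n) {w : ℤ × ℤ} (hw : w ∈ box m) : w ∈ box n := by
  rw [mem_box] at *
  have : (m : ℤ) ≤ n := by exact_mod_cast h
  refine ⟨⟨?_, ?_⟩, ?_, ?_⟩ <;> linarith [hw.1.1, hw.1.2, hw.2.1, hw.2.2]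

theorem box_add {m n k : ℕ} (h : m + n ≤ k) {u v : ℤ × ℤ} (hu : u ∈ box m) (hv : v ∈ box n) :
    u + v ∈ box k := by
  rw [mem_box] at *
  have : (m : ℤ) + n ≤ k := by exact_mod_cast h
  simp only [Prod.fst_add, Prod.snd_add]
  refine ⟨⟨?_, ?_⟩, ?_, ?_⟩ <;>
    linarith [hu.1.1, hu.1.2, hu.2.1, hu.2.2, hv.1.1, hv.1.2, hv.2.1, hv.2.2]

theorem box_sub {m n k : ℕ} (h : m + n ≤ k) {u v : ℤ × ℤ} (hu : u ∈ box m) (hv : v ∈ box n) :
    u - v ∈ box k := by
  rw [mem_box] at *
  have : (m : ℤ) + n ≤ k := by exact_mod_cast h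
  simp only [Prod.fst_sub, Prod.snd_sub]
  refine ⟨⟨?_, ?_⟩, ?_, ?_⟩ <;>
    linarith [hu.1.1, hu.1.2, hu.2.1, hu.2.2, hv.1.1, hv.1.2, hv.2.1, hv.2.2]

theorem card_box' (K : ℕ) : (box K).card = (2 * K + 1) ^ 2 := by
  unfold Vale.Agent.P006.CLS.box
  rw [Finset.card_product, Int.card_Icc]
  have : ((K : ℤ) + 1 - (-(K : ℤ))).toNat = 2 * K + 1 := by omega
  rw [this, sq]

theorem comp_sub_box {L ρ : ℕ} {S : Set (ℤ × ℤ)} : comp L ρ S ⊆ box ρ := by
  classical
  intro v hv
  rw [comp, Finset.mem_filter] at hv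
  exact hv.1

theorem mem_comp {L ρ : ℕ} {S : Set (ℤ × ℤ)} {v : ℤ × ℤ} :
    v ∈ comp L ρ S ↔ v ∈ box ρ ∧ Reach L (S ∩ (box ρ : Finset (ℤ × ℤ))) v := by
  classical
  rw [comp, Finset.mem_filter]

theorem comp_conn (L ρ : ℕ) (S : Set (ℤ × ℤ)) : Conn L (comp L ρ S) where
  zero := mem_comp.2 ⟨zero_mem_box _, Relation.ReflTransGen.refl⟩
  reach := by
    intro v hv
    have h1 := (mem_comp.1 hv).2
    clear hv
    unfold Reach at h1 ⊢
    induction h1 with
    | refl => exact Relation.ReflTransGen.refl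
    | @tail b c hb hbc ih =>
      refine ih.tail ⟨?_, hbc.2⟩
      rw [Finset.mem_coe, mem_comp]
      exact ⟨by exact_mod_cast hbc.1.2, hb.tail hbc⟩

theorem comp_sub {L ρ : ℕ} {S : Set (ℤ × ℤ)} (h0 : (0 : ℤ × ℤ) ∈ S) {v : ℤ × ℤ}
    (hv : v ∈ comp L ρ S) : v ∈ S := by
  have h1 := (mem_comp.1 hv).2
  rcases Relation.ReflTransGen.cases_tail h1 with h | ⟨b, -, hb⟩
  · rw [h]; exact h0
  · exact hb.1.1

/-- a chain that starts at `0` and leaves `box ρ'` gives a point of the component outside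
`box ρ'` -/
theorem exists_far {L ρ ρ' : ℕ} (hρ : ρ' + L ≤ ρ) {S : Set (ℤ × ℤ)} (u : ℕ → ℤ × ℤ) (h0 : u 0 = 0)
    (m : ℕ) (hS : ∀ j ≤ m, u j ∈ S) (hst : ∀ j < m, u (j + 1) - u j ∈ box L)
    (hm : u m ∉ box ρ') : ∃ v ∈ comp L ρ S, v ∉ box ρ' := by
  classical
  have hex : ∃ j, j ≤ m ∧ u j ∉ box ρ' := ⟨m, le_rfl, hm⟩
  set k := Nat.find hex with hk
  have hk1 := Nat.find_spec hex
  have hmin : ∀ j < k, u j ∈ box ρ' := by
    intro j hj
    by_contra hcon
    exact Nat.find_min hex hj ⟨by omega, hcon⟩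
  have hk0 : k ≠ 0 := by
    intro h
    apply hk1.2
    rw [← hk, h, h0]
    exact zero_mem_box _
  have hkbox : u k ∈ box ρ := by
    obtain ⟨j, hj⟩ := Nat.exists_eq_succ_of_ne_zero hk0
    rw [hj]
    have h1 := hmin j (by omega)
    have h2 := hst j (by omega)
    have := box_add hρ h1 h2
    rwa [add_sub_cancel] at this
  have hreach : ∀ j ≤ k, Reach L (S ∩ (box ρ : Finset (ℤ × ℤ))) (u j) := by
    intro j hj
    induction j with
    | zero => rw [h0]; exact Relation.ReflTransGen.refl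
    | succ j ih =>
      refine (ih (by omega)).tail ⟨⟨hS _ (by omega), ?_⟩, hst j (by omega)⟩
      rcases Nat.lt_or_ge (j + 1) k with h | h
      · exact_mod_cast box_mono (by omega) (hmin _ h)
      · have : j + 1 = k := by omega
        rw [this]; exact_mod_cast hkbox
  exact ⟨u k, mem_comp.2 ⟨hkbox, hreach k le_rfl⟩, hk1.2⟩

theorem exists_step {α : Type*} {R : α → α → Prop} {Q : α → Prop} {a b : α}
    (h : Relation.ReflTransGen R a b) (ha : ¬ Q a) (hb : Q b) :
    ∃ y z, R y z ∧ ¬ Q y ∧ Q z := by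
  induction h with
  | refl => exact absurd hb ha
  | @tail y z _ hyz ih =>
    by_cases hy : Q y
    · exact ih hy
    · exact ⟨y, z, hyz, hy, hb⟩

/-- a connected set that reaches outside `box ρ'` has many points -/
theorem conn_card {L ρ' : ℕ} {A : Finset (ℤ × ℤ)} (hA : Conn L A) (hlong : ∃ w ∈ A, w ∉ box ρ') :
    ρ' < L * A.card := by
  obtain ⟨w, hw, hwb⟩ := hlong
  have hL : 0 < L := by
    rcases Nat.eq_zero_or_pos L with h | h
    · exfalso
      obtain ⟨y, z, hyz, hy, hz⟩ := exists_step (Q := fun v => v ∉ box ρ') (hA.reach w hw)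
        (by simp only [not_not]; exact zero_mem_box _) hwb
      simp only [not_not] at hy
      apply hz
      have := box_add (k := ρ') (by omega) hy hyz.2
      rwa [add_sub_cancel] at this
    · exact h
  have key : ∀ j ∈ range (ρ' / L + 1), ∃ v ∈ A, v ∉ box (j * L) ∧ v ∈ box ((j + 1) * L) := by
    intro j hj
    rw [Finset.mem_range] at hj
    have hjL : j * L ≤ ρ' := by
      have : j ≤ ρ' / L := by omega
      exact (Nat.mul_le_mul_right _ this).trans (Nat.div_mul_le_self _ _)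
    obtain ⟨y, z, hyz, hy, hz⟩ := exists_step (Q := fun v => v ∉ box (j * L)) (hA.reach w hw)
      (by simp only [not_not]; exact zero_mem_box _) (fun h => hwb (box_mono hjL h))
    simp only [not_not] at hy
    refine ⟨z, hyz.1, hz, ?_⟩
    have := box_add (k := (j + 1) * L) (by ring_nf; omega) hy hyz.2
    rwa [add_sub_cancel] at this
  choose! f hf1 hf2 hf3 using key
  have h1 : (range (ρ' / L + 1)).card ≤ A.card := by
    apply Finset.card_le_card_of_injOn f
    · intro j hj; exact hf1 j hj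
    · have aux : ∀ i ∈ range (ρ' / L + 1), ∀ j ∈ range (ρ' / L + 1), i < j → f i ≠ f j := by
        intro i hi j hj hij heq
        apply hf2 j hj
        rw [← heq]
        exact box_mono (Nat.mul_le_mul_right _ hij) (hf3 i hi)
      intro i hi j hj heq
      rcases lt_trichotomy i j with h | h | h
      · exact absurd heq (aux i hi j hj h)
      · exact h
      · exact absurd heq.symm (aux j hj i hi h)
  rw [Finset.card_range] at h1
  have h2 := Nat.lt_div_mul_add (a := ρ') hL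
  calc ρ' < ρ' / L * L + L := h2
    _ = L * (ρ' / L + 1) := by ring
    _ ≤ L * A.card := Nat.mul_le_mul_left _ h1

/-- one stage -/
theorem stage_step (hST : StageStmt) {n : ℕ} (S : Fin n → Sys) (hn : 1 ≤ n) {L ρ ρ' ρ'' : ℕ}
    {M η τ m η' : ℝ} (hτ : 0 < τ) (hM : 0 ≤ M) (hη : 0 ≤ η) (hρ : 2 * ρ'' ≤ ρ')
    (hsm : ∀ i, (S i).Small L ρ'' (2 * ρ) M η)
    (hcap : (Sys.prod S).Cap L ρ' ρ (M / τ) m)
    (hη' : ((box ρ).card : ℝ) * n * η + ((box ρ).card : ℝ) * (box (2 * ρ)).card * τ ^ n ≤ η') :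
    (Sys.prod S).Small L ρ' ρ m η' := by
  classical
  have h := hST n S L ρ ρ' ρ'' M η τ hτ hM hη hρ hn hsm
  unfold Sys.Small
  refine le_trans ?_ (h.trans (mul_le_mul_of_nonneg_right hη' (Nat.cast_nonneg _)))
  have hsub : (Sys.prod S).E.filter (fun x => (Sys.prod S).Long L ρ' ρ x ∧
      m < (((Sys.prod S).A L ρ x).card : ℝ)) ⊆
      (Sys.prod S).E.filter (fun x => (Sys.prod S).Long L ρ' ρ x ∧
      M / τ < (((Sys.prod S).A L ρ x - (Sys.prod S).A L ρ x).card : ℝ)) := by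
    intro x hx
    rw [Finset.mem_filter] at hx ⊢
    refine ⟨hx.1, hx.2.1, ?_⟩
    by_contra hcon
    rw [not_lt] at hcon
    have h0 : (0 : ℤ × ℤ) ∈ (Sys.prod S).web x := by
      unfold Sys.web
      rw [Set.mem_ofPred_eq, map_zero, add_zero]
      exact hx.1
    have h1 := hcap x hx.1 ((Sys.prod S).A L ρ x) (comp_conn _ _ _) comp_sub_box hx.2.1
      (fun w hw => comp_sub h0 hw) hcon
    exact absurd h1 (not_le.2 hx.2.2)
  exact_mod_cast Finset.card_le_card hsub

/-- the start: components in `box ρ` have at most `|box ρ|` points -/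
theorem small_zero (S : Sys) {L ρ' ρ : ℕ} {M η : ℝ} (hM : ((box ρ).card : ℝ) ≤ M) (hη : 0 ≤ η) :
    S.Small L ρ' ρ M η := by
  classical
  unfold Sys.Small
  have h : S.E.filter (fun x => S.Long L ρ' ρ x ∧ M < ((S.A L ρ x).card : ℝ)) = ∅ := by
    rw [Finset.filter_eq_empty_iff]
    rintro x - ⟨-, h⟩
    have h1 : ((S.A L ρ x).card : ℝ) ≤ ((box ρ).card : ℝ) := by
      exact_mod_cast Finset.card_le_card comp_sub_box
    linarith
  rw [h, Finset.card_empty, Nat.cast_zero]
  positivity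

/-- a system made of the parts in `T`, for the walk `w 0, …, w n` -/
structure OK (r : ℕ → ℤ) (P : ℕ → Finset ℕ) (w : ℕ → ℤ × ℤ) (n : ℕ) (S : Sys) (T : Finset ℕ) :
    Prop where
  mem : ∀ i ≤ n, S.φ (w i) ∈ S.E
  card : (S.E.card : ℝ) = ∏ a ∈ T, (nres r (P a) w n : ℝ)
  det : ∀ u v, S.φ u = S.φ v → ∀ a ∈ T, res r (P a) u = res r (P a) v
  web : ∀ x ∈ S.E, ∀ a ∈ T, ∃ y, ∀ u, x + S.φ u ∈ S.E →
    ∃ i ≤ n, y + res r (P a) u = res r (P a) (w i)

open Classical in
/-- the system of one part -/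
noncomputable def base (r : ℕ → ℤ) (P : Finset ℕ) (w : ℕ → ℤ × ℤ) (n : ℕ) : Sys where
  G := ∀ p : ℕ, ZMod p
  φ := res r P
  E := (range (n + 1)).image (fun i => res r P (w i))

theorem base_ok (r : ℕ → ℤ) (P : ℕ → Finset ℕ) (w : ℕ → ℤ × ℤ) (n a : ℕ) :
    OK r P w n (base r (P a) w n) {a} where
  mem := by
    classical
    intro i hi
    exact (Finset.mem_image (s := range (n + 1)) (f := fun i => res r (P a) (w i))).2
      ⟨i, Finset.mem_range.2 (by omega), rfl⟩
  card := by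
    rw [Finset.prod_singleton]
    rfl
  det := by
    intro u v h b hb
    rw [Finset.mem_singleton] at hb
    subst hb
    exact h
  web := by
    intro x _ b hb
    rw [Finset.mem_singleton] at hb
    subst hb
    classical
    refine ⟨x, fun u hu => ?_⟩
    obtain ⟨i, hi, hi2⟩ := (Finset.mem_image (s := range (n + 1))
      (f := fun i => res r (P b) (w i))).1 hu
    rw [Finset.mem_range] at hi
    exact ⟨i, by omega, hi2.symm⟩

theorem mem_prodE {n : ℕ} (S : Fin n → Sys) (x : ∀ i, (S i).G) :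
    Membership.mem (Sys.prod S).E (show (Sys.prod S).G from x) ↔ ∀ i, x i ∈ (S i).E := by
  classical
  exact Fintype.mem_piFinset (t := fun i => (S i).E)

theorem prod_ok {r : ℕ → ℤ} {P : ℕ → Finset ℕ} {w : ℕ → ℤ × ℤ} {n m : ℕ} {S : Fin m → Sys}
    {T : Fin m → Finset ℕ} (h : ∀ i, OK r P w n (S i) (T i))
    (hT : ∀ i j, i ≠ j → Disjoint (T i) (T j)) :
    OK r P w n (Sys.prod S) (Finset.univ.biUnion T) where
  mem := by
    intro i hi
    exact (mem_prodE S (fun j => (S j).φ (w i))).2 fun j => (h j).mem i hi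
  card := by
    change ((Fintype.piFinset (fun i => (S i).E)).card : ℝ) = _
    rw [Fintype.card_piFinset, Finset.prod_biUnion (fun i _ j _ hij => hT i j hij)]
    push_cast
    exact Finset.prod_congr rfl fun i _ => (h i).card
  det := by
    intro u v huv a ha
    obtain ⟨i, -, hi⟩ := Finset.mem_biUnion.1 ha
    exact (h i).det u v (congrFun huv i) a hi
  web := by
    intro x hx a ha
    obtain ⟨i, -, hi⟩ := Finset.mem_biUnion.1 ha
    replace hx := (mem_prodE S x).1 hx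
    obtain ⟨y, hy⟩ := (h i).web (x i) (hx i) a hi
    refine ⟨y, fun u hu => hy u ?_⟩
    exact (mem_prodE S (fun i => x i + (S i).φ u)).1 hu i

end Vale.Agent.P015.M
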