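import Vale.Agent.P015.M.Defs

/-! # P015, module SS: the cap (stage conclusion) from Lemma A and Lemma B -/

namespace Vale.Agent.P015.M

open Finset hiding box
open Vale.Agent.P006.CLS Vale.Agent.P015.H222
open scoped Pointwise

/-- differences of a connected set with a far point are almost parallel -/
theorem cross_le (hLB : LBStmt) {L ρ ρ' Δ : ℕ} {A : Finset (ℤ × ℤ)} (hA : Conn L A)
    (hAρ : A ⊆ box ρ) (hfar : ∃ w ∈ A, w ∉ box ρ')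
    (hΔ : 8 * ρ * ((4 * L + 1) ^ 2 * (A - A).card) ≤ Δ * (ρ' + 1))
    {u v u' v' : ℤ × ℤ} (hu : u ∈ A) (hv : v ∈ A) (hu' : u' ∈ A) (hv' : v' ∈ A) :
    |(u - v).1 * (u' - v').2 - (u - v).2 * (u' - v').1| ≤ (Δ : ℤ) := by
  obtain ⟨a, ha, hfar⟩ := hfar
  set C : ℤ := (4 * L + 1) ^ 2 * ((A - A).card : ℤ) with hC
  have hC0 : 0 ≤ C := by positivity
  have hb : ∀ b ∈ A, |a.1 * b.2 - a.2 * b.1| ≤ C := fun b hb => hLB L A hA a ha b hb
  have hV : ∀ u ∈ A, ∀ v ∈ A, |a.1 * (u - v).2 - a.2 * (u - v).1| ≤ 2 * C := by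
    intro u hu v hv
    have h1 := hb u hu
    have h2 := hb v hv
    rw [abs_le] at h1 h2 ⊢
    simp only [Prod.fst_sub, Prod.snd_sub]
    constructor <;> nlinarith
  have hbox : ∀ u ∈ A, ∀ v ∈ A, |(u - v).1| ≤ 2 * ρ ∧ |(u - v).2| ≤ 2 * ρ := by
    intro u hu v hv
    have h1 := mem_box.mp (hAρ hu)
    have h2 := mem_box.mp (hAρ hv)
    simp only [Prod.fst_sub, Prod.snd_sub, abs_le]
    omega
  set V := u - v with hVd
  set V' := u' - v' with hVd'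
  obtain ⟨hV1, hV2⟩ := hbox u hu v hv
  obtain ⟨hV1', hV2'⟩ := hbox u' hu' v' hv'
  have hc := hV u hu v hv
  have hc' := hV u' hu' v' hv'
  rw [← hVd] at hV1 hV2 hc
  rw [← hVd'] at hV1' hV2' hc'
  have key : ∀ x y X : ℤ, |x| ≤ 2 * ρ → |y| ≤ 2 * ρ →
      X * (V.1 * V'.2 - V.2 * V'.1) =
        x * (a.1 * V'.2 - a.2 * V'.1) - y * (a.1 * V.2 - a.2 * V.1) →
      |X| * |V.1 * V'.2 - V.2 * V'.1| ≤ 8 * ρ * C := by
    intro x y X hx hy h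
    rw [← abs_mul, h]
    refine (abs_sub _ _).trans ?_
    rw [abs_mul, abs_mul]
    have h1 : |x| * |a.1 * V'.2 - a.2 * V'.1| ≤ (2 * ρ) * (2 * C) :=
      mul_le_mul hx hc' (abs_nonneg _) (by positivity)
    have h2 : |y| * |a.1 * V.2 - a.2 * V.1| ≤ (2 * ρ) * (2 * C) :=
      mul_le_mul hy hc (abs_nonneg _) (by positivity)
    linarith
  have hk1 := key V.1 V'.1 a.1 hV1 hV1' (by ring)
  have hk2 := key V.2 V'.2 a.2 hV2 hV2' (by ring)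
  have hfar' : (ρ' : ℤ) + 1 ≤ |a.1| ∨ (ρ' : ℤ) + 1 ≤ |a.2| := by
    by_contra hcon
    push Not at hcon
    apply hfar
    rw [mem_box]
    have h1 := abs_le.mp (show |a.1| ≤ (ρ' : ℤ) by omega)
    have h2 := abs_le.mp (show |a.2| ≤ (ρ' : ℤ) by omega)
    exact ⟨h1, h2⟩
  have hΔ' : 8 * (ρ : ℤ) * C ≤ Δ * (ρ' + 1) := by
    rw [hC]
    exact_mod_cast hΔ
  have hn : (0 : ℤ) ≤ |V.1 * V'.2 - V.2 * V'.1| := abs_nonneg _
  have hfin : ((ρ' : ℤ) + 1) * |V.1 * V'.2 - V.2 * V'.1| ≤ (ρ' + 1) * Δ := by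
    rcases hfar' with h | h
    · calc ((ρ' : ℤ) + 1) * |V.1 * V'.2 - V.2 * V'.1| ≤ |a.1| * |V.1 * V'.2 - V.2 * V'.1| :=
            mul_le_mul_of_nonneg_right h hn
        _ ≤ 8 * ρ * C := hk1
        _ ≤ _ := by linarith
    · calc ((ρ' : ℤ) + 1) * |V.1 * V'.2 - V.2 * V'.1| ≤ |a.2| * |V.1 * V'.2 - V.2 * V'.1| :=
            mul_le_mul_of_nonneg_right h hn
        _ ≤ 8 * ρ * C := hk2
        _ ≤ _ := by linarith
  exact le_of_mul_le_mul_left hfin (by positivity)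

/-- `J` of the `2 J` parts separate the points of a connected set with few differences -/
theorem cap_inj (hLB : LBStmt) (hLA : LAStmt) {r : ℕ → ℤ} {J : ℕ} {P : ℕ → Finset ℕ} (hJ : 1 ≤ J)
    (hR : ∀ a < 2 * J, Rts r (P a))
    (hd : ∀ a < 2 * J, ∀ b < 2 * J, a ≠ b → Disjoint (P a) (P b))
    {L ρ ρ' Δ : ℕ} {A : Finset (ℤ × ℤ)} (hA : Conn L A) (hAρ : A ⊆ box ρ)
    (hfar : ∃ w ∈ A, w ∉ box ρ')
    (hΔ : 8 * ρ * ((4 * L + 1) ^ 2 * (A - A).card) ≤ Δ * (ρ' + 1))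
    (h1 : ∀ T ⊆ range (2 * J), T.card = J - 1 → Δ < ∏ a ∈ T, qq (P a))
    (h2 : ∀ T ⊆ range (2 * J), T.card = J → 2 * (2 * ρ) < ∏ a ∈ T, qq (P a)) :
    ∃ T ⊆ range (2 * J), T.card = J ∧
      ∀ u ∈ A, ∀ v ∈ A, (∀ a ∈ T, res r (P a) u = res r (P a) v) → u = v := by
  have h := hLA r J P hJ hR hd {V | ∃ u ∈ A, ∃ v ∈ A, V = u - v} (2 * ρ) Δ ?_ ?_ h1 h2
  · obtain ⟨T, hT, hTc, hT2⟩ := h
    refine ⟨T, hT, hTc, fun u hu v hv huv => ?_⟩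
    refine sub_eq_zero.mp (hT2 (u - v) ⟨u, hu, v, hv, rfl⟩ (fun a ha => ?_))
    rw [map_sub, huv a ha, sub_self]
  · rintro V ⟨u, hu, v, hv, rfl⟩
    have h1 := mem_box.mp (hAρ hu)
    have h2 := mem_box.mp (hAρ hv)
    rw [mem_box]
    simp only [Prod.fst_sub, Prod.snd_sub]
    push_cast
    omega
  · rintro V ⟨u, hu, v, hv, rfl⟩ V' ⟨u', hu', v', hv', rfl⟩
    exact cross_le hLB hA hAρ hfar hΔ hu hv hu' hv'

/-- **cap**: a connected set with a far point, few differences and all its residues in the sets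
`E a` of at most `m` classes has at most `m ^ J` points -/
theorem cap_parts (hLB : LBStmt) (hLA : LAStmt) {r : ℕ → ℤ} {J : ℕ} {P : ℕ → Finset ℕ}
    (hJ : 1 ≤ J) (hR : ∀ a < 2 * J, Rts r (P a))
    (hd : ∀ a < 2 * J, ∀ b < 2 * J, a ≠ b → Disjoint (P a) (P b))
    {L ρ ρ' Δ : ℕ} {A : Finset (ℤ × ℤ)} (hA : Conn L A) (hAρ : A ⊆ box ρ)
    (hfar : ∃ w ∈ A, w ∉ box ρ')
    (hΔ : 8 * ρ * ((4 * L + 1) ^ 2 * (A - A).card) ≤ Δ * (ρ' + 1))
    (h1 : ∀ T ⊆ range (2 * J), T.card = J - 1 → Δ < ∏ a ∈ T, qq (P a))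
    (h2 : ∀ T ⊆ range (2 * J), T.card = J → 2 * (2 * ρ) < ∏ a ∈ T, qq (P a))
    (y : ℕ → ∀ p : ℕ, ZMod p) (E : ℕ → Finset (∀ p : ℕ, ZMod p))
    (hy : ∀ a < 2 * J, ∀ w ∈ A, y a + res r (P a) w ∈ E a)
    {m : ℝ} (hm : ∀ a < 2 * J, ((E a).card : ℝ) ≤ m) : (A.card : ℝ) ≤ m ^ J := by
  classical
  obtain ⟨T, hT, hTc, hT2⟩ := cap_inj hLB hLA hJ hR hd hA hAρ hfar hΔ h1 h2
  have hTlt : ∀ a ∈ T, a < 2 * J := fun a ha => Finset.mem_range.mp (hT ha)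
  have hcard : A.card ≤ ∏ a ∈ T, (E a).card := by
    rw [← Finset.card_pi]
    refine Finset.card_le_card_of_injOn (fun w => fun a _ => y a + res r (P a) w) ?_ ?_
    · intro w hw
      rw [Finset.mem_coe, Finset.mem_pi]
      intro a ha
      exact hy a (hTlt a ha) w hw
    · intro u hu v hv huv
      refine hT2 u hu v hv (fun a ha => ?_)
      have h3 := congrFun (congrFun huv a) ha
      exact add_left_cancel h3
  calc (A.card : ℝ) ≤ ((∏ a ∈ T, (E a).card : ℕ) : ℝ) := by exact_mod_cast hcard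
    _ = ∏ a ∈ T, ((E a).card : ℝ) := by push_cast; rfl
    _ ≤ ∏ _a ∈ T, m := Finset.prod_le_prod (fun _ _ => Nat.cast_nonneg _)
        (fun a ha => hm a (hTlt a ha))
    _ = m ^ J := by rw [Finset.prod_const, hTc]

end Vale.Agent.P015.M
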