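import Vale.Agent.P015.M.Defs
import Vale.Agent.P015.R2.H222.Energy

/-! # P015, module SS: the points of a long chain have long components -/

namespace Vale.Agent.P015.M

open Finset hiding box
open Vale.Agent.P006.CLS Vale.Agent.P015.H222
open scoped Pointwise

namespace SSLong

theorem box_add {a b : ℕ} {u v : ℤ × ℤ} (hu : u ∈ box a) (hv : v ∈ box b) : u + v ∈ box (a + b) := by
  rw [H222.mem_box] at *
  simp only [Prod.fst_add, Prod.snd_add]
  push_cast
  omega

theorem box_neg {a : ℕ} {u : ℤ × ℤ} (hu : u ∈ box a) : -u ∈ box a := by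
  rw [H222.mem_box] at *
  simp only [Prod.fst_neg, Prod.snd_neg]
  omega

theorem box_mono {a b : ℕ} (h : a ≤ b) {u : ℤ × ℤ} (hu : u ∈ box a) : u ∈ box b := by
  rw [H222.mem_box] at *
  omega

theorem zero_mem_box (a : ℕ) : (0 : ℤ × ℤ) ∈ box a := by
  rw [H222.mem_box]
  simp

theorem box_sub_comm {a : ℕ} {u v : ℤ × ℤ} (h : u - v ∈ box a) : v - u ∈ box a := by
  have := box_neg h
  rwa [neg_sub] at this

/-- a chain from `0` that leaves `box ρ` has a point of the component of `0` outside `box ρ'` -/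
theorem exit_comp {L ρ ρ' : ℕ} (hρ : ρ' + L ≤ ρ) (S : Set (ℤ × ℤ)) (v : ℕ → ℤ × ℤ) (h0 : v 0 = 0)
    (m : ℕ) (hS : ∀ i ≤ m, v i ∈ S) (hst : ∀ i < m, v (i + 1) - v i ∈ box L)
    (hm : v m ∉ box ρ) : ∃ w ∈ comp L ρ S, w ∉ box ρ' := by
  classical
  -- first exit from `box ρ`
  have hex : ∃ i, v i ∉ box ρ := ⟨m, hm⟩
  set j := Nat.find hex with hj
  have hjm : j ≤ m := Nat.find_min' hex hm
  have hjo : v j ∉ box ρ := Nat.find_spec hex
  have hjb : ∀ i < j, v i ∈ box ρ := fun i hi => by
    have := Nat.find_min hex hi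
    rwa [not_not] at this
  have hj0 : j ≠ 0 := by
    intro h
    rw [h, h0] at hjo
    exact hjo (zero_mem_box _)
  obtain ⟨k, hk⟩ : ∃ k, j = k + 1 := ⟨j - 1, by omega⟩
  have hreach : ∀ i ≤ k, Reach L (S ∩ (box ρ : Finset (ℤ × ℤ))) (v i) := by
    intro i
    induction i with
    | zero => intro _; rw [h0]; exact Relation.ReflTransGen.refl
    | succ i ih =>
      intro hi
      exact (ih (by omega)).tail ⟨⟨hS _ (by omega), hjb _ (by omega)⟩, hst _ (by omega)⟩
  refine ⟨v k, ?_, ?_⟩
  · unfold comp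
    rw [Finset.mem_filter]
    exact ⟨hjb k (by omega), hreach k le_rfl⟩
  · intro hk'
    apply hjo
    rw [hk]
    have h1 := box_add hk' (hst k (by omega))
    rw [add_sub_cancel] at h1
    exact box_mono hρ h1

/-- the points of a long chain have long components, in every system that contains the chain -/
theorem long_of_chain (S : Sys) {L ρ ρ' n : ℕ} (hρ : ρ' + L ≤ ρ) (w : ℕ → ℤ × ℤ)
    (hst : ∀ i < n, w (i + 1) - w i ∈ box L) (hE : ∀ i ≤ n, S.φ (w i) ∈ S.E) {t : ℕ} (ht : t ≤ n)
    (hfar : ∃ i ≤ n, w i - w t ∉ box ρ) : S.Long L ρ' ρ (S.φ (w t)) := by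
  obtain ⟨i, hi, hfar⟩ := hfar
  have hweb : ∀ j ≤ n, w j - w t ∈ S.web (S.φ (w t)) := by
    intro j hj
    have e : S.φ (w t) + S.φ (w j - w t) = S.φ (w j) := by
      rw [← map_add, add_sub_cancel]
    simp only [Sys.web, Set.mem_ofPred_eq]
    rw [e]
    exact hE j hj
  rcases le_total t i with hti | hit
  · refine exit_comp hρ _ (fun j => w (t + j) - w t) (by simp) (i - t) ?_ ?_ ?_
    · intro j hj
      exact hweb _ (by omega)
    · intro j hj
      have := hst (t + j) (by omega)
      have e : w (t + (j + 1)) - w t - (w (t + j) - w t) = w (t + j + 1) - w (t + j) := by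
        rw [sub_sub_sub_cancel_right, add_assoc]
      simp only [e]
      exact this
    · rw [show t + (i - t) = i by omega]
      exact hfar
  · refine exit_comp hρ _ (fun j => w (t - j) - w t) (by simp) (t - i) ?_ ?_ ?_
    · intro j hj
      exact hweb _ (by omega)
    · intro j hj
      have := hst (t - (j + 1)) (by omega)
      rw [show t - (j + 1) + 1 = t - j by omega] at this
      have e : w (t - (j + 1)) - w t - (w (t - j) - w t) = w (t - (j + 1)) - w (t - j) := by
        rw [sub_sub_sub_cancel_right]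
      simp only [e]
      exact box_sub_comm this
    · rw [show t - (t - i) = i by omega]
      exact hfar

/-- if two points of the chain are far from each other, every point of the chain is far from
one of them -/
theorem far_all {ρ m n : ℕ} (hm : 2 * ρ ≤ m) (w : ℕ → ℤ × ℤ)
    (hfar : ∃ i ≤ n, ∃ j ≤ n, w i - w j ∉ box m) (t : ℕ) : ∃ i ≤ n, w i - w t ∉ box ρ := by
  obtain ⟨i, hi, j, hj, h⟩ := hfar
  by_contra hcon
  push Not at hcon
  apply h
  have h1 := hcon i hi
  have h2 := box_sub_comm (hcon j hj)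
  have h3 := box_add h1 h2
  rw [sub_add_sub_cancel] at h3
  exact box_mono (by omega) h3

open Classical in
/-- the residues modulo `U` are at most the long classes of a system whose hom determines them -/
theorem nres_le_long (S : Sys) {L ρ ρ' m n : ℕ} (hρ : ρ' + L ≤ ρ) (hm : 2 * ρ ≤ m)
    (w : ℕ → ℤ × ℤ) (hst : ∀ i < n, w (i + 1) - w i ∈ box L) (hE : ∀ i ≤ n, S.φ (w i) ∈ S.E)
    (hfar : ∃ i ≤ n, ∃ j ≤ n, w i - w j ∉ box m) (r : ℕ → ℤ) (U : Finset ℕ)
    (hU : ∀ u v, S.φ u = S.φ v → res r U u = res r U v) :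
    nres r U w n ≤ (S.E.filter (fun x => S.Long L ρ' ρ x)).card := by
  unfold nres
  -- choose a time for every residue
  have hch : ∀ y ∈ (range (n + 1)).image (fun i => res r U (w i)), ∃ i ≤ n, res r U (w i) = y := by
    intro y hy
    obtain ⟨i, hi, rfl⟩ := Finset.mem_image.1 hy
    exact ⟨i, by rw [Finset.mem_range] at hi; omega, rfl⟩
  choose! f hf using hch
  refine Finset.card_le_card_of_injOn (fun y => S.φ (w (f y))) ?_ ?_
  · intro y hy
    have h := hf y (by exact_mod_cast hy)
    rw [Finset.mem_coe, Finset.mem_filter]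
    exact ⟨hE _ h.1, long_of_chain S hρ w hst hE h.1 (far_all hm w hfar _)⟩
  · intro y hy y' hy' h
    have h1 := (hf y (by exact_mod_cast hy)).2
    have h2 := (hf y' (by exact_mod_cast hy')).2
    rw [← h1, ← h2]
    exact hU _ _ h

/-- the system of one part, with the residues of the chain -/
noncomputable def partSys (r : ℕ → ℤ) (P : Finset ℕ) (w : ℕ → ℤ × ℤ) (n : ℕ) : Sys where
  G := ∀ p : ℕ, ZMod p
  φ := res r P
  E := by
    classical
    exact (range (n + 1)).image (fun i => res r P (w i))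

theorem partSys_card (r : ℕ → ℤ) (P : Finset ℕ) (w : ℕ → ℤ × ℤ) (n : ℕ) :
    (partSys r P w n).E.card = nres r P w n := rfl

theorem partSys_mem (r : ℕ → ℤ) (P : Finset ℕ) (w : ℕ → ℤ × ℤ) (n : ℕ) {i : ℕ} (hi : i ≤ n) :
    (partSys r P w n).φ (w i) ∈ (partSys r P w n).E := by
  classical
  unfold partSys
  simp only [Finset.mem_image, Finset.mem_range]
  exact ⟨i, by omega, rfl⟩

theorem prod_mem {n : ℕ} (S : Fin n → Sys) (v : ℤ × ℤ) (h : ∀ i, (S i).φ v ∈ (S i).E) :
    (Sys.prod S).φ v ∈ (Sys.prod S).E := by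
  unfold Sys.prod
  rw [Fintype.mem_piFinset]
  intro i
  exact h i

theorem prod_card {n : ℕ} (S : Fin n → Sys) :
    (Sys.prod S).E.card = ∏ i, (S i).E.card := by
  unfold Sys.prod
  exact Fintype.card_piFinset _

theorem prod_eq {n : ℕ} (S : Fin n → Sys) (u v : ℤ × ℤ) (h : (Sys.prod S).φ u = (Sys.prod S).φ v)
    (i : Fin n) : (S i).φ u = (S i).φ v := congrFun h i

/-- residues modulo a union of parts are determined by the residues modulo the parts -/
theorem res_biUnion (r : ℕ → ℤ) {ι : Type*} [DecidableEq ι] (I : Finset ι) (P : ι → Finset ℕ)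
    (u v : ℤ × ℤ) (h : ∀ a ∈ I, res r (P a) u = res r (P a) v) :
    res r (I.biUnion P) u = res r (I.biUnion P) v := by
  ext p
  rw [res_apply, res_apply]
  split_ifs with hp
  · rw [Finset.mem_biUnion] at hp
    obtain ⟨a, ha, hp⟩ := hp
    have h1 := congrFun (h a ha) p
    rw [res_apply, res_apply, if_pos hp, if_pos hp] at h1
    exact h1
  · rfl

end SSLong

end Vale.Agent.P015.M
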