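import Vale.Agent.P015.M.SSTree

/-! # P015, module SS: the stage induction over the tree of systems -/

namespace Vale.Agent.P015.M

open Finset hiding box
open Vale.Agent.P006.CLS Vale.Agent.P015.H222
open scoped Pointwise

namespace SSTree

theorem small_mono {S : Sys} {L ρ ρ' : ℕ} {M M' η η' : ℝ} (hM : M ≤ M') (hη : η ≤ η')
    (h : S.Small L ρ' ρ M η) : S.Small L ρ' ρ M' η' := by
  classical
  unfold Sys.Small at *
  refine le_trans ?_ (h.trans (mul_le_mul_of_nonneg_right hη (Nat.cast_nonneg _)))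
  refine Nat.cast_le.mpr (Finset.card_le_card ?_)
  intro x hx
  rw [Finset.mem_filter] at hx ⊢
  exact ⟨hx.1, hx.2.1, lt_of_le_of_lt hM hx.2.2⟩

theorem biUnion_blocks (a₀ Q p : ℕ) (hQ : 0 < Q) :
    (univ : Finset (Fin p)).biUnion (fun i => Ico (a₀ + i * Q) (a₀ + i * Q + Q)) =
      Ico a₀ (a₀ + Q * p) := by
  ext c
  simp only [Finset.mem_biUnion, Finset.mem_univ, true_and, Finset.mem_Ico]
  constructor
  · rintro ⟨i, h1, h2⟩
    have h3 : (i : ℕ) + 1 ≤ p := i.2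
    have h4 : ((i : ℕ) + 1) * Q ≤ p * Q := Nat.mul_le_mul_right _ h3
    have h5 : ((i : ℕ) + 1) * Q = i * Q + Q := by ring
    have h6 : p * Q = Q * p := Nat.mul_comm _ _
    have h7 : 0 ≤ (i : ℕ) * Q := Nat.zero_le _
    omega
  · rintro ⟨h1, h2⟩
    have h3 : (c - a₀) / Q < p := by
      rw [Nat.div_lt_iff_lt_mul hQ, Nat.mul_comm]
      omega
    refine ⟨⟨(c - a₀) / Q, h3⟩, ?_, ?_⟩
    · have := Nat.div_mul_le_self (c - a₀) Q
      simp only
      omega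
    · have := Nat.lt_mul_div_succ (c - a₀) hQ
      have e : Q * ((c - a₀) / Q + 1) = (c - a₀) / Q * Q + Q := by ring
      simp only
      omega

theorem disj_blocks (a₀ Q : ℕ) {i j : ℕ} (h : i ≠ j) :
    Disjoint (Ico (a₀ + i * Q) (a₀ + i * Q + Q)) (Ico (a₀ + j * Q) (a₀ + j * Q + Q)) := by
  rw [Finset.disjoint_left]
  intro c hc hc'
  rw [Finset.mem_Ico] at hc hc'
  rcases lt_or_gt_of_ne h with h | h
  · have h1 : (i + 1) * Q ≤ j * Q := Nat.mul_le_mul_right _ h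
    have h2 : (i + 1) * Q = i * Q + Q := by ring
    omega
  · have h1 : (j + 1) * Q ≤ i * Q := Nat.mul_le_mul_right _ h
    have h2 : (j + 1) * Q = j * Q + Q := by ring
    omega

/-- **the stage induction** -/
theorem stages (hLB : LBStmt) (hLA : LAStmt) (hSt : StageStmt) {r : ℕ → ℤ} {P : ℕ → Finset ℕ}
    {w : ℕ → ℤ × ℤ} {n L q p N B : ℕ} {m₀ τ : ℝ} {ρ ρ' : ℕ → ℕ} {M η : ℕ → ℝ}
    (hq : 1 ≤ q) (hp : 1 ≤ p)
    (hR : ∀ a < B, Rts r (P a)) (hd : ∀ a < B, ∀ b < B, a ≠ b → Disjoint (P a) (P b))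
    (hm : ∀ a < B, (nres r (P a) w n : ℝ) ≤ m₀) (hτ : 0 < τ) (hM0 : ∀ j, 0 ≤ M j)
    (hη0 : ∀ j, 0 ≤ η j) (hbox : ((box (ρ 0)).card : ℝ) ≤ M 0)
    (hst : ∀ j < N, ρ j = 2 * ρ (j + 1) ∧ 2 * ρ' j ≤ ρ' (j + 1) ∧
      ((box (ρ (j + 1))).card : ℝ) * p * η j +
        ((box (ρ (j + 1))).card : ℝ) * (box (2 * ρ (j + 1))).card * τ ^ p ≤ η (j + 1) ∧
      ∃ J Δ : ℕ, 1 ≤ J ∧ 2 * J ≤ q ∧
        8 * ρ (j + 1) * ((4 * L + 1) ^ 2 * (M j / τ)) ≤ Δ * (ρ' (j + 1) + 1) ∧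
        (∀ T ⊆ range B, T.card = J - 1 → Δ < ∏ a ∈ T, qq (P a)) ∧
        (∀ T ⊆ range B, T.card = J → 2 * (2 * ρ (j + 1)) < ∏ a ∈ T, qq (P a)) ∧
        m₀ ^ J ≤ M (j + 1)) :
    ∀ j ≤ N, ∀ a₀, a₀ + q * p ^ j ≤ B → ∃ S : Sys,
      Good S r P w n (Ico a₀ (a₀ + q * p ^ j)) ∧ S.Small L (ρ' j) (ρ j) (M j) (η j) := by
  classical
  intro j
  induction j with
  | zero =>
    intro _ a₀ _
    refine ⟨Sys.prod (fun i : Fin q => SSLong.partSys r (P (a₀ + i)) w n), ?_,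
      small_zero _ hbox (hη0 0)⟩
    have h1 := good_prod (r := r) (P := P) (w := w) (n := n)
      (fun i : Fin q => SSLong.partSys r (P (a₀ + i)) w n) (fun i => {a₀ + (i : ℕ)})
      (fun i j hij => by
        rw [Finset.disjoint_singleton]
        intro h
        exact hij (Fin.ext (by omega))) (fun i => good_part r P w n (a₀ + i))
    have h2 : (univ : Finset (Fin q)).biUnion (fun i => {a₀ + (i : ℕ)}) =
        Ico a₀ (a₀ + q * p ^ 0) := by
      ext c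
      simp only [Finset.mem_biUnion, Finset.mem_univ, true_and, Finset.mem_singleton,
        Finset.mem_Ico, pow_zero, mul_one]
      constructor
      · rintro ⟨i, rfl⟩
        have := i.2
        omega
      · rintro ⟨h3, h4⟩
        exact ⟨⟨c - a₀, by omega⟩, by simp only; omega⟩
    rwa [h2] at h1
  | succ j ih =>
    intro hj a₀ ha₀
    obtain ⟨hρ, hρ', hη, J, Δ, hJ, hJq, hΔ, h1, h2, hMJ⟩ := hst j (by omega)
    set Q := q * p ^ j with hQ
    have hQ0 : 0 < Q := by positivity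
    have hQp : q * p ^ (j + 1) = Q * p := by rw [hQ, pow_succ]; ring
    rw [hQp] at ha₀ ⊢
    have hblock : ∀ i : Fin p, a₀ + i * Q + Q ≤ B := by
      intro i
      have h3 : ((i : ℕ) + 1) * Q ≤ p * Q := Nat.mul_le_mul_right _ i.2
      have h4 : ((i : ℕ) + 1) * Q = i * Q + Q := by ring
      have h5 : p * Q = Q * p := Nat.mul_comm _ _
      omega
    choose S hS1 hS2 using fun i : Fin p => ih (by omega) (a₀ + i * Q) (hblock i)
    have hG := good_prod S (fun i => Ico (a₀ + i * Q) (a₀ + i * Q + Q))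
      (fun i k hik => disj_blocks a₀ Q (fun h => hik (Fin.ext h))) hS1
    rw [biUnion_blocks a₀ Q p hQ0] at hG
    refine ⟨Sys.prod S, hG, ?_⟩
    have hIB : ∀ a ∈ Ico a₀ (a₀ + Q * p), a < B := fun a ha => by
      rw [Finset.mem_Ico] at ha
      omega
    have hqQ : q ≤ Q * p := by
      rw [← hQp]
      exact Nat.le_mul_of_pos_right _ (by positivity)
    have hcap := good_cap hLB hLA (J := J) (a₀ := a₀) hG (fun a ha => by
      rw [Finset.mem_Ico]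
      omega) hJ (fun a ha => hR a (hIB a ha))
      (fun a ha b hb hab => hd a (hIB a ha) b (hIB b hb) hab) (L := L) (ρ := ρ (j + 1))
      (ρ' := ρ' (j + 1)) (Δ := Δ) (M := M j / τ) hΔ
      (fun T hT => h1 T (fun a ha => Finset.mem_range.mpr (hIB a (hT ha))))
      (fun T hT => h2 T (fun a ha => Finset.mem_range.mpr (hIB a (hT ha))))
      (fun a ha => hm a (hIB a ha))
    have hS2' : ∀ i, (S i).Small L (ρ' j) (2 * ρ (j + 1)) (M j) (η j) := fun i => by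
      rw [← hρ]
      exact hS2 i
    have hstep := stage_step hSt S hτ (hM0 j) (hη0 j) hρ' hp hS2' hcap
    exact small_mono hMJ hη hstep

/-- the long classes are few -/
theorem long_few' (S : Sys) {L ρ ρ' : ℕ} {M η : ℝ} (h : S.Small L ρ' ρ M η)
    (hM : M * L < (ρ' : ℝ) + 1) : by
    classical
    exact ((S.E.filter (fun x => S.Long L ρ' ρ x)).card : ℝ) ≤ η * S.E.card := by
  classical
  unfold Sys.Small at h
  refine le_trans ?_ h
  refine Nat.cast_le.mpr (Finset.card_le_card ?_)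
  intro x hx
  rw [Finset.mem_filter] at hx ⊢
  refine ⟨hx.1, hx.2, ?_⟩
  have h1 : ρ' + 1 ≤ L * (S.A L ρ x).card := long_card (comp_conn L ρ (S.web x)) hx.2
  have h2 : (ρ' : ℝ) + 1 ≤ L * ((S.A L ρ x).card : ℝ) := by exact_mod_cast h1
  by_contra hcon
  have h3 : ((S.A L ρ x).card : ℝ) ≤ M := not_lt.mp hcon
  have h4 : (L : ℝ) * ((S.A L ρ x).card : ℝ) ≤ L * M := by gcongr
  linarith

/-- the real inequalities of the stage induction -/
def NumStmt : Prop := ∀ c : ℝ, 0 < c → c < 1 → ∃ (q p N : ℕ) (ε s₀ : ℝ), 1 ≤ q ∧ 1 ≤ p ∧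
  0 < ε ∧ ε ≤ 1 ∧ ∀ s : ℝ, s₀ ≤ s → ∀ L : ℕ, 1 ≤ L → Real.log L ≤ s →
  ∃ (ρ ρ' : ℕ → ℕ) (M η : ℕ → ℝ) (τ : ℝ), 0 < τ ∧ (∀ j, 0 ≤ M j) ∧ (∀ j, 0 ≤ η j) ∧
    ((box (ρ 0)).card : ℝ) ≤ M 0 ∧
    (∀ j < N, ρ j = 2 * ρ (j + 1) ∧ 2 * ρ' j ≤ ρ' (j + 1) ∧
      ((box (ρ (j + 1))).card : ℝ) * p * η j +
        ((box (ρ (j + 1))).card : ℝ) * (box (2 * ρ (j + 1))).card * τ ^ p ≤ η (j + 1) ∧
      ∃ J Δ : ℕ, 1 ≤ J ∧ 2 * J ≤ q ∧
        8 * ρ (j + 1) * ((4 * L + 1) ^ 2 * (M j / τ)) ≤ Δ * (ρ' (j + 1) + 1) ∧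
        (Δ : ℝ) < Real.exp ((J - 1) * ((1 - c / 4) * s)) ∧
        4 * (ρ (j + 1) : ℝ) < Real.exp (J * ((1 - c / 4) * s)) ∧
        Real.exp ((1 - c) * s * J) ≤ M (j + 1)) ∧
    η N * Real.exp (s / ε) ≤ 1 ∧ M N * L < (ρ' N : ℝ) + 1 ∧ ρ' N + L ≤ ρ N ∧
    2 * (ρ N : ℝ) ≤ Real.exp (2 * s / ε)

theorem prod_qq_ge {r : ℕ → ℤ} {P : ℕ → Finset ℕ} {B : ℕ} {e s : ℝ} (h : Parts r P B e s)
    {T : Finset ℕ} (hT : T ⊆ range B) :
    Real.exp (T.card * ((1 - e) * s)) ≤ ((∏ a ∈ T, qq (P a) : ℕ) : ℝ) := by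
  have h1 : ∀ a ∈ T, Real.exp ((1 - e) * s) ≤ (qq (P a) : ℝ) := by
    intro a ha
    have haB : a < B := Finset.mem_range.mp (hT ha)
    have hpos : 0 < qq (P a) := Finset.prod_pos fun p hp => (h.rts a haB p hp).1.pos
    have hpos' : (0 : ℝ) < qq (P a) := by exact_mod_cast hpos
    calc Real.exp ((1 - e) * s) ≤ Real.exp (Real.log (qq (P a))) :=
          Real.exp_le_exp.mpr (h.low a haB)
      _ = qq (P a) := Real.exp_log hpos'
  rw [Nat.cast_prod, Real.exp_nat_mul, ← Finset.prod_const]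
  exact Finset.prod_le_prod (fun _ _ => (Real.exp_pos _).le) h1

/-- **assembly**: (S) from the real inequalities -/
theorem ss_of_num (hNum : NumStmt) (hLB : LBStmt) (hLA : LAStmt) (hSt : StageStmt) : SStmt := by
  classical
  intro c hc0 hc1
  obtain ⟨q, p, N, ε, s₀, hq, hp, hε0, hε1, hnum⟩ := hNum c hc0 hc1
  refine ⟨q * p ^ N, ε, s₀, by
    have : 0 < q * p ^ N := by positivity
    omega, hε0, hε1, ?_⟩
  intro s hs r P hP L n w hL hw hres hfar
  obtain ⟨ρ, ρ', M, η, τ, hτ, hM0, hη0, hbox, hst, hηN, hMN, hρN, hρN2⟩ :=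
    hnum s hs (max L 1) (le_max_right _ _) (by
      rcases Nat.eq_zero_or_pos L with rfl | h
      · simpa using hL
      · rwa [max_eq_left h])
  set L' := max L 1 with hL'
  have hLL' : L ≤ L' := le_max_left _ _
  have hw' : ∀ i < n, w (i + 1) - w i ∈ box L' := fun i hi => SSLong.box_mono hLL' (hw i hi)
  obtain ⟨S, hG, hS⟩ := stages hLB hLA hSt (r := r) (P := P) (w := w) (n := n) (L := L') (q := q)
    (p := p) (N := N) (B := q * p ^ N) (m₀ := Real.exp ((1 - c) * s)) (τ := τ) (ρ := ρ)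
    (ρ' := ρ') (M := M) (η := η) hq hp hP.rts hP.disj hres hτ hM0 hη0 hbox (by
      intro j hj
      obtain ⟨h1, h2, h3, J, Δ, hJ, hJq, h4, h5, h6, h7⟩ := hst j hj
      refine ⟨h1, h2, h3, J, Δ, hJ, hJq, h4, ?_, ?_, ?_⟩
      · intro T hT hTc
        have h8 := prod_qq_ge hP hT
        rw [hTc, Nat.cast_sub hJ, Nat.cast_one] at h8
        have h9 : (Δ : ℝ) < ((∏ a ∈ T, qq (P a) : ℕ) : ℝ) := lt_of_lt_of_le h5 h8
        exact_mod_cast h9
      · intro T hT hTc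
        have h8 := prod_qq_ge hP hT
        rw [hTc] at h8
        have h9 : (2 * (2 * (ρ (j + 1) : ℝ))) < ((∏ a ∈ T, qq (P a) : ℕ) : ℝ) :=
          lt_of_lt_of_le (by linarith) h8
        exact_mod_cast h9
      · rw [← Real.exp_nat_mul]
        refine le_trans (le_of_eq ?_) h7
        congr 1
        ring) N le_rfl 0 (by rw [zero_add])
  rw [zero_add, ← Finset.range_eq_Ico] at hG
  obtain ⟨i, hi, k, hk, m, hm1, hm2⟩ := hfar
  have hm3 : 2 * ρ N ≤ m := by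
    have : (2 * (ρ N : ℝ)) ≤ m := hρN2.trans hm1
    exact_mod_cast this
  have h1 := SSLong.nres_le_long S hρN hm3 w hw' hG.mem ⟨i, hi, k, hk, hm2⟩ r
    ((range (q * p ^ N)).biUnion P) (fun u v huv => SSLong.res_biUnion r _ P u v
      (fun a ha => hG.sep u v huv a ha))
  have h2 := long_few' S hS hMN
  have h3 : (nres r ((range (q * p ^ N)).biUnion P) w n : ℝ) ≤ η N * S.E.card :=
    le_trans (by exact_mod_cast h1) h2
  rw [hG.card] at h3
  push_cast at h3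
  have hprod : (0 : ℝ) ≤ ∏ a ∈ range (q * p ^ N), (nres r (P a) w n : ℝ) :=
    Finset.prod_nonneg fun _ _ => Nat.cast_nonneg _
  calc (nres r ((range (q * p ^ N)).biUnion P) w n : ℝ) * Real.exp (s / ε)
      ≤ (η N * ∏ a ∈ range (q * p ^ N), (nres r (P a) w n : ℝ)) * Real.exp (s / ε) :=
        mul_le_mul_of_nonneg_right h3 (Real.exp_pos _).le
    _ = (η N * Real.exp (s / ε)) * ∏ a ∈ range (q * p ^ N), (nres r (P a) w n : ℝ) := by ring
    _ ≤ 1 * ∏ a ∈ range (q * p ^ N), (nres r (P a) w n : ℝ) :=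
        mul_le_mul_of_nonneg_right hηN hprod
    _ = _ := one_mul _

end SSTree

end Vale.Agent.P015.M
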