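import Vale.Agent.P015.M.SSCap
import Vale.Agent.P015.M.SSLong

/-! # P015, module SS: the abstract stage induction -/

namespace Vale.Agent.P015.M

open Finset hiding box
open Vale.Agent.P006.CLS Vale.Agent.P015.H222
open scoped Pointwise

namespace SSTree

theorem mem_comp {L ρ : ℕ} {S : Set (ℤ × ℤ)} {v : ℤ × ℤ} :
    v ∈ comp L ρ S ↔ v ∈ box ρ ∧ Reach L (S ∩ (box ρ : Finset (ℤ × ℤ))) v := by
  simp only [comp, Finset.mem_filter]

theorem comp_box (L ρ : ℕ) (S : Set (ℤ × ℤ)) : comp L ρ S ⊆ box ρ := fun _ hv => (mem_comp.mp hv).1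

theorem comp_conn (L ρ : ℕ) (S : Set (ℤ × ℤ)) : Conn L (comp L ρ S) := by
  refine ⟨mem_comp.mpr ⟨SSLong.zero_mem_box ρ, Relation.ReflTransGen.refl⟩, ?_⟩
  intro v hv
  have h := (mem_comp.mp hv).2
  have key : ∀ u, Reach L (S ∩ (box ρ : Finset (ℤ × ℤ))) u →
      Reach L ((comp L ρ S : Finset (ℤ × ℤ)) : Set (ℤ × ℤ)) u := by
    intro u hu
    unfold Reach at hu ⊢
    induction hu with
    | refl => exact Relation.ReflTransGen.refl
    | tail h1 h2 ih =>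
      refine ih.tail ⟨?_, h2.2⟩
      rw [Finset.mem_coe, mem_comp]
      exact ⟨by exact_mod_cast h2.1.2, Relation.ReflTransGen.tail h1 h2⟩
  exact key v h

theorem comp_web {L ρ : ℕ} {S : Set (ℤ × ℤ)} (h0 : (0 : ℤ × ℤ) ∈ S) {v : ℤ × ℤ}
    (hv : v ∈ comp L ρ S) : v ∈ S := by
  have h := (mem_comp.mp hv).2
  unfold Reach at h
  induction h with
  | refl => exact h0
  | tail _ h2 _ => exact h2.1.1

/-- **stage step** -/
theorem stage_step (hSt : StageStmt) {n : ℕ} (S : Fin n → Sys) {L ρ ρ' ρ'' : ℕ} {M η τ m : ℝ}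
    (hτ : 0 < τ) (hM : 0 ≤ M) (hη : 0 ≤ η) (hρ : 2 * ρ'' ≤ ρ') (hn : 1 ≤ n)
    (hS : ∀ i, (S i).Small L ρ'' (2 * ρ) M η) (hcap : (Sys.prod S).Cap L ρ' ρ (M / τ) m) :
    (Sys.prod S).Small L ρ' ρ m
      (((box ρ).card : ℝ) * n * η + ((box ρ).card : ℝ) * (box (2 * ρ)).card * τ ^ n) := by
  classical
  have h := hSt n S L ρ ρ' ρ'' M η τ hτ hM hη hρ hn hS
  unfold Sys.Small
  refine le_trans ?_ h
  refine Nat.cast_le.mpr (Finset.card_le_card ?_)
  intro x hx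
  rw [Finset.mem_filter] at hx ⊢
  refine ⟨hx.1, hx.2.1, ?_⟩
  by_contra hcon
  have h0 : (0 : ℤ × ℤ) ∈ (Sys.prod S).web x := by
    simp only [Sys.web, Set.mem_ofPred_eq, map_zero, add_zero]
    exact hx.1
  have := hcap x hx.1 ((Sys.prod S).A L ρ x) (comp_conn _ _ _) (comp_box _ _ _) hx.2.1
    (fun w hw => comp_web h0 hw) (not_lt.mp hcon)
  exact absurd hx.2.2 (not_lt.mpr this)

/-- every system is small with the trivial bound -/
theorem small_zero (S : Sys) {L ρ ρ' : ℕ} {M η : ℝ} (hM : ((box ρ).card : ℝ) ≤ M) (hη : 0 ≤ η) :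
    S.Small L ρ' ρ M η := by
  classical
  unfold Sys.Small
  have : S.E.filter (fun x => S.Long L ρ' ρ x ∧ M < ((S.A L ρ x).card : ℝ)) = ∅ := by
    rw [Finset.filter_eq_empty_iff]
    rintro x _ ⟨_, h⟩
    have h1 : ((S.A L ρ x).card : ℝ) ≤ (box ρ).card := by
      exact_mod_cast Finset.card_le_card (comp_box _ _ _)
    linarith
  rw [this, Finset.card_empty, Nat.cast_zero]
  positivity

/-- sup norm -/
def nm (v : ℤ × ℤ) : ℕ := max v.1.natAbs v.2.natAbs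

theorem nm_le {v : ℤ × ℤ} {m : ℕ} : nm v ≤ m ↔ v ∈ box m := by
  rw [mem_box, nm]
  omega

theorem nm_add (u v : ℤ × ℤ) : nm (u + v) ≤ nm u + nm v := by
  rw [nm_le]
  exact SSLong.box_add (nm_le.mp le_rfl) (nm_le.mp le_rfl)

theorem reach_levels {L : ℕ} {A : Finset (ℤ × ℤ)} {v : ℤ × ℤ}
    (h : Reach L (A : Set (ℤ × ℤ)) v) (k : ℕ) (hk : k * L < nm v) :
    ∃ u ∈ A, k * L < nm u ∧ nm u ≤ (k + 1) * L := by
  unfold Reach at h
  induction h with
  | refl => simp [nm] at hk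
  | @tail b c _ h2 ih =>
    rcases lt_or_ge (k * L) (nm b) with hb | hb
    · exact ih hb
    · refine ⟨c, by exact_mod_cast h2.1, hk, ?_⟩
      have h3 := nm_add b (c - b)
      rw [add_sub_cancel] at h3
      have h4 := nm_le.mpr h2.2
      have : (k + 1) * L = k * L + L := by ring
      omega

/-- a connected set with a point outside `box ρ'` has more than `ρ' / L` points -/
theorem long_card {L ρ' : ℕ} {A : Finset (ℤ × ℤ)} (hA : Conn L A) (hfar : ∃ w ∈ A, w ∉ box ρ') :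
    ρ' < L * A.card := by
  classical
  obtain ⟨w, hw, hfar⟩ := hfar
  have hw2 : ρ' < nm w := by
    by_contra h
    exact hfar (nm_le.mp (not_lt.mp h))
  rcases Nat.eq_zero_or_pos L with rfl | hL
  · obtain ⟨u, _, h1, h2⟩ := reach_levels (hA.reach w hw) 0 (by omega)
    omega
  have hch : ∀ k ∈ range (ρ' / L + 1), ∃ u ∈ A, k * L < nm u ∧ nm u ≤ (k + 1) * L := by
    intro k hk
    rw [Finset.mem_range] at hk
    refine reach_levels (hA.reach w hw) k ?_
    have h1 : k ≤ ρ' / L := by omega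
    have h2 := Nat.mul_le_of_le_div L k ρ' h1
    omega
  choose! u hu1 hu2 hu3 using hch
  have hinj : Set.InjOn u (range (ρ' / L + 1) : Finset ℕ) := by
    intro k hk k' hk' h
    have hk := hk
    have a1 := hu2 k (by exact_mod_cast hk)
    have a2 := hu3 k (by exact_mod_cast hk)
    have b1 := hu2 k' (by exact_mod_cast hk')
    have b2 := hu3 k' (by exact_mod_cast hk')
    rw [h] at a1 a2
    have c1 : k * L < (k' + 1) * L := lt_of_lt_of_le a1 b2
    have c2 : k' * L < (k + 1) * L := lt_of_lt_of_le b1 a2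
    have d1 := lt_of_mul_lt_mul_right c1 (Nat.zero_le L)
    have d2 := lt_of_mul_lt_mul_right c2 (Nat.zero_le L)
    omega
  have hcard : ρ' / L + 1 ≤ A.card := by
    have := Finset.card_le_card_of_injOn u (fun k hk => hu1 k (by exact_mod_cast hk)) hinj
    rwa [Finset.card_range] at this
  have h1 : ρ' < L * (ρ' / L + 1) := Nat.lt_mul_div_succ ρ' hL
  exact lt_of_lt_of_le h1 (Nat.mul_le_mul_left _ hcard)

/-- the long classes of a small system are few when `L * M ≤ ρ'` -/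
theorem long_few (S : Sys) {L ρ ρ' : ℕ} {M η : ℝ} (h : S.Small L ρ' ρ M η)
    (hM : L * M ≤ (ρ' : ℝ)) : by
    classical
    exact ((S.E.filter (fun x => S.Long L ρ' ρ x)).card : ℝ) ≤ η * S.E.card := by
  classical
  unfold Sys.Small at h
  refine le_trans ?_ h
  refine Nat.cast_le.mpr (Finset.card_le_card ?_)
  intro x hx
  rw [Finset.mem_filter] at hx ⊢
  refine ⟨hx.1, hx.2, ?_⟩
  have h1 := long_card (comp_conn L ρ (S.web x)) hx.2
  have h2 : (ρ' : ℝ) < L * ((S.A L ρ x).card : ℝ) := by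
    unfold Sys.A
    exact_mod_cast h1
  by_contra hcon
  have h3 : ((S.A L ρ x).card : ℝ) ≤ M := not_lt.mp hcon
  have h4 : (L : ℝ) * ((S.A L ρ x).card : ℝ) ≤ L * M := by gcongr
  linarith

/-- a system built from the parts `P a`, `a ∈ I`, of the chain -/
structure Good (S : Sys) (r : ℕ → ℤ) (P : ℕ → Finset ℕ) (w : ℕ → ℤ × ℤ) (n : ℕ)
    (I : Finset ℕ) : Prop where
  mem : ∀ t ≤ n, S.φ (w t) ∈ S.E
  card : S.E.card = ∏ a ∈ I, nres r (P a) w n
  part : ∀ a ∈ I, ∀ x : S.G, ∃ y : ∀ p : ℕ, ZMod p, ∀ v : ℤ × ℤ, x + S.φ v ∈ S.E →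
    y + res r (P a) v ∈ (SSLong.partSys r (P a) w n).E
  sep : ∀ u v, S.φ u = S.φ v → ∀ a ∈ I, res r (P a) u = res r (P a) v

theorem good_part (r : ℕ → ℤ) (P : ℕ → Finset ℕ) (w : ℕ → ℤ × ℤ) (n a : ℕ) :
    Good (SSLong.partSys r (P a) w n) r P w n {a} := by
  refine ⟨fun t ht => SSLong.partSys_mem r (P a) w n ht, ?_, ?_, ?_⟩
  · rw [Finset.prod_singleton, SSLong.partSys_card]
  · intro b hb x
    rw [Finset.mem_singleton] at hb
    subst hb
    exact ⟨x, fun v hv => hv⟩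
  · intro u v h b hb
    rw [Finset.mem_singleton] at hb
    subst hb
    exact h

theorem good_prod {r : ℕ → ℤ} {P : ℕ → Finset ℕ} {w : ℕ → ℤ × ℤ} {n k : ℕ} (S : Fin k → Sys)
    (I : Fin k → Finset ℕ) (hI : ∀ i j, i ≠ j → Disjoint (I i) (I j))
    (h : ∀ i, Good (S i) r P w n (I i)) :
    Good (Sys.prod S) r P w n (univ.biUnion I) := by
  classical
  refine ⟨fun t ht => SSLong.prod_mem S _ (fun i => (h i).mem t ht), ?_, ?_, ?_⟩
  · rw [SSLong.prod_card, Finset.prod_biUnion (fun i _ j _ hij => hI i j hij)]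
    exact Finset.prod_congr rfl fun i _ => (h i).card
  · intro a ha x
    obtain ⟨i, _, hi⟩ := Finset.mem_biUnion.mp ha
    obtain ⟨y, hy⟩ := (h i).part a hi (x i)
    refine ⟨y, fun v hv => hy v ?_⟩
    have hv' := Fintype.mem_piFinset.mp hv i
    exact hv'
  · intro u v huv a ha
    obtain ⟨i, _, hi⟩ := Finset.mem_biUnion.mp ha
    exact (h i).sep u v (SSLong.prod_eq S u v huv i) a hi

/-- the cap of a system with at least `2 J` parts -/
theorem good_cap (hLB : LBStmt) (hLA : LAStmt) {S : Sys} {r : ℕ → ℤ} {P : ℕ → Finset ℕ}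
    {w : ℕ → ℤ × ℤ} {n J a₀ : ℕ} {I : Finset ℕ} (h : Good S r P w n I)
    (hI : ∀ a < 2 * J, a₀ + a ∈ I) (hJ : 1 ≤ J) (hR : ∀ a ∈ I, Rts r (P a))
    (hd : ∀ a ∈ I, ∀ b ∈ I, a ≠ b → Disjoint (P a) (P b)) {L ρ ρ' Δ : ℕ} {M m : ℝ}
    (hΔ : 8 * ρ * ((4 * L + 1) ^ 2 * M) ≤ Δ * (ρ' + 1))
    (h1 : ∀ T ⊆ I, T.card = J - 1 → Δ < ∏ a ∈ T, qq (P a))
    (h2 : ∀ T ⊆ I, T.card = J → 2 * (2 * ρ) < ∏ a ∈ T, qq (P a))
    (hm : ∀ a ∈ I, (nres r (P a) w n : ℝ) ≤ m) : S.Cap L ρ' ρ M (m ^ J) := by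
  classical
  intro x _ A hA hAρ hfar hAE hAM
  have hch : ∀ a < 2 * J, ∃ y : ∀ p : ℕ, ZMod p, ∀ v : ℤ × ℤ, x + S.φ v ∈ S.E →
      y + res r (P (a₀ + a)) v ∈ (SSLong.partSys r (P (a₀ + a)) w n).E :=
    fun a ha => h.part (a₀ + a) (hI a ha) x
  choose! y hy using hch
  have htr : ∀ T ⊆ range (2 * J), ∃ T' ⊆ I, T'.card = T.card ∧
      ∏ a ∈ T', qq (P a) = ∏ a ∈ T, qq (P (a₀ + a)) := by
    intro T hT
    have hinj : Set.InjOn (fun a => a₀ + a) (T : Set ℕ) := fun a _ b _ h => by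
      simpa using h
    refine ⟨T.image (fun a => a₀ + a), ?_, Finset.card_image_of_injOn hinj,
      Finset.prod_image hinj⟩
    intro c hc
    obtain ⟨a, ha, rfl⟩ := Finset.mem_image.mp hc
    exact hI a (Finset.mem_range.mp (hT ha))
  refine cap_parts hLB hLA (P := fun a => P (a₀ + a)) hJ (fun a ha => hR _ (hI a ha))
    (fun a ha b hb hab => hd _ (hI a ha) _ (hI b hb) (by omega)) hA hAρ hfar (Δ := Δ) ?_ ?_ ?_
    y (fun a => (SSLong.partSys r (P (a₀ + a)) w n).E)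
    (fun a ha v hv => hy a ha v (hAE v hv)) (fun a ha => hm _ (hI a ha))
  · have h3 : (8 * ρ * ((4 * L + 1) ^ 2 * (A - A).card) : ℝ) ≤ Δ * (ρ' + 1) := by
      refine le_trans ?_ hΔ
      gcongr
    exact_mod_cast h3
  · intro T hT hc
    obtain ⟨T', hT', hc', hp⟩ := htr T hT
    rw [← hp]
    exact h1 T' hT' (by omega)
  · intro T hT hc
    obtain ⟨T', hT', hc', hp⟩ := htr T hT
    rw [← hp]
    exact h2 T' hT' (by omega)

end SSTree

end Vale.Agent.P015.M
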