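import Vale.Agent.P015.M.Defs4

/-! # P015, the moat theorem: module T4a, the robust level lemma (statement) -/

namespace Vale.Agent.P015.M

open Finset hiding box
open Vale.Agent.P006.CLS Vale.Agent.P015.H222 Vale.Agent.P015.R2.H116

open Classical in
/-- the normalised indicator of the classes `T p` -/
noncomputable def Gp (r : ℕ → ℤ) (T : ∀ p : ℕ, Finset (ZMod p)) (p : ℕ) (w : ℤ × ℤ) : ℂ :=
  if ((lf (r p) w : ℤ) : ZMod p) ∈ T p then (p : ℂ) / (T p).card else 0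

open Classical in
/-- the robust level lemma: `level_freq` without the hypothesis that the classes are missed -/
def LevelRob : Prop := ∀ (X : ℝ), 4 * C1 ≤ X → ∀ (r : ℕ → ℤ) (P : Finset ℕ), Rts r P →
  ∀ (Q : ℕ), (∀ p ∈ P, p ≤ Q) → 4 * X ^ 26 ≤ Q →
  ∀ (T : ∀ p : ℕ, Finset (ZMod p)), (∀ p ∈ P, (p : ℝ) ≤ X * (T p).card) →
  ∀ (W : Finset (ℤ × ℤ)),
  (∀ M : ℕ, 1 ≤ M → M ≤ 2 * Q ^ 2 → ∀ z,
    ((W.filter (fun w => w - z ∈ box M)).card : ℝ) ≤ X * M) →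
  (∀ M : ℕ, M ≤ Q ^ 2 → ∀ w ∈ W,
    (M : ℝ) ≤ X * ((W.filter (fun u => u - w ∈ box M)).card : ℝ)) →
  ∀ (f : ℤ × ℤ → ℂ), (∀ w ∈ W, ‖f w‖ ≤ 1) → W.Nonempty →
  X * ((P.filter (fun p => (W.card : ℝ) ≤ X * ‖∑ w ∈ W, f w * (1 - Gp r T p w)‖ ∧
    ∀ a ∈ Icc 1 (p - 1), X ^ 89 * ‖hh r W f ⟨p, a⟩‖ < W.card)).card : ℝ) ≤ Q

end Vale.Agent.P015.M
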