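import Vale.Agent.P015.M.T4c

/-! # P015, module T4a: one level, without a hypothesis on the set -/

namespace Vale.Agent.P015.M

open Finset hiding box
open Vale.Agent.P001 Vale.Agent.P006.CLS Vale.Agent.P015.H222
open scoped ComplexConjugate Pointwise

open Classical in
/-- the frequencies with small `tau` contribute little -/
theorem small_tau {X : ℝ} (hX : 4 * C1 ≤ X) {r : ℕ → ℤ} {P : Finset ℕ} (hP : Rts r P) {Q : ℕ}
    (hQ : ∀ p ∈ P, p ≤ Q) (hQX : 4 * X ^ 26 ≤ Q)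
    (T : ∀ p : ℕ, Finset (ZMod p)) (hT : ∀ p ∈ P, (p : ℝ) ≤ X * (T p).card)
    {W : Finset (ℤ × ℤ)}
    (dens : ∀ M : ℕ, 1 ≤ M → M ≤ 2 * Q ^ 2 → ∀ z,
      ((W.filter (fun w => w - z ∈ box M)).card : ℝ) ≤ X * M)
    (conn : ∀ M : ℕ, M ≤ Q ^ 2 → ∀ w ∈ W,
      (M : ℝ) ≤ X * ((W.filter (fun u => u - w ∈ box M)).card : ℝ))
    (f : ℤ × ℤ → ℂ) (hf1 : ∀ w ∈ W, ‖f w‖ ≤ 1) :
    X ^ 4 * ∑ θ ∈ (R1 P).filter
      (fun θ => ¬ ((T θ.1).card : ℝ) ≤ X ^ 43 * ‖tau θ.1 (T θ.1) θ.2‖), gT T θ * ‖hh r W f θ‖ ≤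
      10 * X * Q * W.card := by
  have hC1 := one_le_C1
  have hC0 := one_le_C0
  have hX1020 : 4080 ≤ X := by rw [C1] at hX; linarith
  have hX0 : 0 < X := by linarith
  have hX1 : 1 ≤ X := by linarith
  have hQ1 : 1 ≤ Q := by
    have h0 : (1 : ℝ) ≤ X ^ 26 := one_le_pow₀ hX1
    have h1 : (1 : ℝ) ≤ Q := by linarith
    exact_mod_cast h1
  have hQ0 : (1 : ℝ) ≤ Q := by exact_mod_cast hQ1
  have hS0 : 0 < Q ^ 2 := by positivity
  have hQS : Q ≤ Q ^ 2 := by nlinarith only [hQ1]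
  set S : ℕ := Q ^ 2 with hS
  set G : (Σ _ : ℕ, ℕ) → ℝ := fun θ => ∑ b ∈ W.image (cell S),
    ‖hh r (W.filter (fun w => cell S w = b)) f θ‖ with hG
  set q1 : (Σ _ : ℕ, ℕ) → Prop :=
    fun θ => ¬ ((T θ.1).card : ℝ) ≤ X ^ 43 * ‖tau θ.1 (T θ.1) θ.2‖ with hq1
  -- swap
  have h3 : ∑ θ ∈ (R1 P).filter q1, gT T θ * G θ = ∑ b ∈ W.image (cell S),
      ∑ θ ∈ (R1 P).filter q1, gT T θ * ‖hh r (W.filter (fun w => cell S w = b)) f θ‖ := by
    rw [Finset.sum_comm]
    refine Finset.sum_congr rfl (fun θ _ => ?_)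
    rw [hG, Finset.mul_sum]
  have h4 : ∀ b ∈ W.image (cell S), X ^ 4 *
      ∑ θ ∈ (R1 P).filter q1, gT T θ * ‖hh r (W.filter (fun w => cell S w = b)) f θ‖
      ≤ Q * ((W.filter (fun w => cell S w = b)).card : ℝ) + (Q : ℝ) ^ 3 := by
    intro b _
    have hsub : ∀ (M : ℕ), M ≤ S → ∀ w ∈ W.filter (fun w => cell S w = b), ∀ u : ℤ × ℤ,
        u - w ∈ box M → u - corner S b ∈ box (2 * S) := by
      intro M hM w hw u hu
      have hb := cell_bounds hS0 (Finset.mem_filter.mp hw).2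
      have hM' : (M : ℤ) ≤ S := by exact_mod_cast hM
      rw [mem_box] at hu ⊢
      simp only [corner, Prod.fst_sub, Prod.snd_sub] at hu ⊢
      push_cast
      omega
    have hWb : ∀ w ∈ W.filter (fun w => cell S w = b), w - corner S b ∈ box (2 * S) := by
      intro w hw
      refine hsub 0 (Nat.zero_le _) w hw w ?_
      rw [sub_self, mem_box]
      simp
    have hUc : ((W.filter (fun w => w - corner S b ∈ box (2 * S))).card : ℝ)
        ≤ 2 * X * (Q : ℝ) ^ 2 := by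
      refine (dens (2 * S) (by omega) le_rfl (corner S b)).trans (le_of_eq ?_)
      rw [hS]; push_cast; ring
    refine one_cell hX hP hQ hQX T hT (U := W.filter (fun w => w - corner S b ∈ box (2 * S)))
      (n₀ := corner S b) (fun w hw => (Finset.mem_filter.mp hw).2) hUc ?_ ?_ ?_ f
      (fun w hw => hf1 w (Finset.mem_filter.mp hw).1)
    · refine le_trans ?_ hUc
      have : (W.filter (fun w => cell S w = b)) ⊆
          W.filter (fun w => w - corner S b ∈ box (2 * S)) := by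
        intro w hw
        rw [Finset.mem_filter]
        exact ⟨(Finset.mem_filter.mp hw).1, hWb w hw⟩
      exact_mod_cast Finset.card_le_card this
    · intro M hM1 hMQ z
      refine le_trans ?_ (dens M hM1 (by omega) z)
      have : (W.filter (fun w => w - corner S b ∈ box (2 * S))).filter (fun w => w - z ∈ box M)
          ⊆ W.filter (fun w => w - z ∈ box M) :=
        Finset.filter_subset_filter _ (Finset.filter_subset _ _)
      exact_mod_cast Finset.card_le_card this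
    · intro M hMQ w hw
      refine (conn M (hMQ.trans hQS) w (Finset.mem_filter.mp hw).1).trans ?_
      refine mul_le_mul_of_nonneg_left ?_ hX0.le
      have : W.filter (fun u => u - w ∈ box M) ⊆
          (W.filter (fun w => w - corner S b ∈ box (2 * S))).filter (fun u => u - w ∈ box M) := by
        intro u hu
        rw [Finset.mem_filter] at hu
        rw [Finset.mem_filter, Finset.mem_filter]
        exact ⟨⟨hu.1, hsub M (hMQ.trans hQS) w hw u hu.2⟩, hu.2⟩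
      exact_mod_cast Finset.card_le_card this
  have h5 : X ^ 4 * ∑ θ ∈ (R1 P).filter q1, gT T θ * G θ
      ≤ Q * W.card + (Q : ℝ) ^ 3 * ((W.image (cell S)).card : ℝ) := by
    rw [h3, Finset.mul_sum]
    refine (Finset.sum_le_sum h4).trans (le_of_eq ?_)
    rw [Finset.sum_add_distrib, ← Finset.mul_sum, Finset.sum_const, nsmul_eq_mul]
    have h6 : ∑ b ∈ W.image (cell S), ((W.filter (fun w => cell S w = b)).card : ℝ) = W.card := by
      rw [← Nat.cast_sum, ← Finset.card_eq_sum_card_image]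
    rw [h6]
    ring
  have h6 : (Q : ℝ) ^ 3 * ((W.image (cell S)).card : ℝ) ≤ 9 * X * Q * W.card := by
    have h7 := card_cells hX0.le hS0 (conn S le_rfl)
    have h8 : (S : ℝ) = (Q : ℝ) ^ 2 := by rw [hS]; push_cast; rfl
    calc (Q : ℝ) ^ 3 * ((W.image (cell S)).card : ℝ)
        = Q * ((S : ℝ) * ((W.image (cell S)).card : ℝ)) := by rw [h8]; ring
      _ ≤ Q * (9 * X * W.card) := by gcongr
      _ = _ := by ring
  have h7 : X ^ 4 * ∑ θ ∈ (R1 P).filter q1, gT T θ * G θ ≤ 10 * X * Q * W.card := by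
    refine (h5.trans (add_le_add le_rfl h6)).trans ?_
    have h9 : (Q : ℝ) * W.card ≤ X * Q * W.card := by
      have : 1 * ((Q : ℝ) * W.card) ≤ X * (Q * W.card) := by gcongr
      linarith
    linarith
  refine le_trans ?_ h7
  refine mul_le_mul_of_nonneg_left (Finset.sum_le_sum fun θ _ => ?_) (by positivity)
  refine mul_le_mul_of_nonneg_left ?_ (gT_nonneg T θ)
  rw [hG]
  simp only
  rw [hh_cells r W f S]
  exact norm_sum_le _ _

open Classical in
/-- number of frequencies with large `tau` -/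
theorem card_large_tau {X : ℝ} (hX0 : 0 < X) (k : ℕ) {p : ℕ} (hp : 0 < p) (T : Finset (ZMod p))
    (hT : (p : ℝ) ≤ X * T.card) :
    (((Icc 1 (p - 1)).filter (fun a => (T.card : ℝ) ≤ X ^ k * ‖tau p T a‖)).card : ℝ) ≤
      X ^ (2 * k + 1) := by
  have hp0 : (0 : ℝ) < p := by exact_mod_cast hp
  have hT0 : (0 : ℝ) < T.card := by
    by_contra h
    have h1 : (T.card : ℝ) ≤ 0 := not_lt.mp h
    nlinarith
  have h3 : (((Icc 1 (p - 1)).filter (fun a => (T.card : ℝ) ≤ X ^ k * ‖tau p T a‖)).card : ℝ)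
      * (T.card : ℝ) ^ 2 ≤ X ^ (2 * k) * (p * T.card) := by
    rw [← tau_parseval hp T, ← nsmul_eq_mul, Finset.mul_sum]
    refine (Finset.card_nsmul_le_sum _ (fun a => X ^ (2 * k) * ‖tau p T a‖ ^ 2) _
      (fun a ha => ?_)).trans ?_
    · have h4 := (Finset.mem_filter.mp ha).2
      calc (T.card : ℝ) ^ 2 ≤ (X ^ k * ‖tau p T a‖) ^ 2 := pow_le_pow_left₀ hT0.le h4 2
        _ = _ := by ring
    · apply Finset.sum_le_sum_of_subset_of_nonneg
      · intro a ha
        have h5 := (Finset.mem_filter.mp ha).1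
        rw [Finset.mem_Icc] at h5
        rw [Finset.mem_range]
        omega
      · intro _ _ _; positivity
  have h6 : (((Icc 1 (p - 1)).filter (fun a => (T.card : ℝ) ≤ X ^ k * ‖tau p T a‖)).card : ℝ)
      * (T.card : ℝ) ^ 2 ≤ X ^ (2 * k + 1) * (T.card : ℝ) ^ 2 := by
    refine h3.trans ?_
    calc X ^ (2 * k) * (p * T.card) ≤ X ^ (2 * k) * ((X * T.card) * T.card) := by gcongr
      _ = _ := by ring
  exact le_of_mul_le_mul_right h6 (by positivity)

/-- **One level**: a weight whose mean changes much when it is multiplied by `1 - GG` has a large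
coefficient at many primes of the level. -/
theorem level {X : ℝ} (hX : 4 * C1 ≤ X) {r : ℕ → ℤ} {P : Finset ℕ} (hP : Rts r P) {Q : ℕ}
    (hQ : ∀ p ∈ P, p ≤ Q) (hQX : 4 * X ^ 26 ≤ Q) (hPc : (Q : ℝ) ≤ X * P.card)
    (T : ∀ p : ℕ, Finset (ZMod p)) (hT : ∀ p ∈ P, (p : ℝ) ≤ X * (T p).card)
    {W : Finset (ℤ × ℤ)} (hW : W.Nonempty)
    (dens : ∀ M : ℕ, 1 ≤ M → M ≤ 2 * Q ^ 2 → ∀ z,
      ((W.filter (fun w => w - z ∈ box M)).card : ℝ) ≤ X * M)
    (conn : ∀ M : ℕ, M ≤ Q ^ 2 → ∀ w ∈ W,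
      (M : ℝ) ≤ X * ((W.filter (fun u => u - w ∈ box M)).card : ℝ))
    (f : ℤ × ℤ → ℂ) (hf1 : ∀ w ∈ W, ‖f w‖ ≤ 1)
    (hfs : (W.card : ℝ) ≤ X * ‖∑ w ∈ W, f w * (1 - (GG r P T w : ℂ))‖) :
    ∃ P' ⊆ P, (P.card : ℝ) ≤ X ^ 90 * P'.card ∧ ∀ p ∈ P', ∃ a ∈ Icc 1 (p - 1),
      (W.card : ℝ) ≤ X ^ 90 * ‖hh r W f ⟨p, a⟩‖ := by
  classical
  have hC1 := one_le_C1
  have hC0 := one_le_C0
  have hX1020 : 4080 ≤ X := by rw [C1] at hX; linarith
  have hX0 : 0 < X := by linarith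
  have hX1 : 1 ≤ X := by linarith
  have hn : (0 : ℝ) < W.card := by exact_mod_cast hW.card_pos
  have hQ0 : (0 : ℝ) < Q := lt_of_lt_of_le (by positivity) hQX
  have hPp : (0 : ℝ) < P.card := by
    by_contra h
    have h1 : (P.card : ℝ) ≤ 0 := not_lt.mp h
    nlinarith
  have hP0 : P.Nonempty := by
    rw [← Finset.card_pos]; exact_mod_cast hPp
  have hTn : ∀ p ∈ P, (T p).Nonempty := by
    intro p hp
    have := T_pos hP T hT hX0 hp
    rw [← Finset.card_pos]; exact_mod_cast this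
  have hnW : ∀ θ, ‖hh r W f θ‖ ≤ W.card := by
    intro θ
    rw [hh, hf]
    refine (norm_sum_le _ _).trans ?_
    calc ∑ w ∈ W, ‖f w * e2 (fx θ) (fy r θ) w‖ ≤ ∑ w ∈ W, (1 : ℝ) := by
          refine Finset.sum_le_sum (fun w hw => ?_)
          rw [norm_mul, norm_e2, mul_one]
          exact hf1 w hw
      _ = W.card := by simp
  set q1 : (Σ _ : ℕ, ℕ) → Prop :=
    fun θ => ¬ ((T θ.1).card : ℝ) ≤ X ^ 43 * ‖tau θ.1 (T θ.1) θ.2‖ with hq1
  -- total
  have h1 : (P.card : ℝ) * W.card ≤ X * ∑ θ ∈ R1 P, gT T θ * ‖hh r W f θ‖ := by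
    have h2 := sum_one_sub_GG T hP hTn hP0 W f
    have h3 : (P.card : ℝ) * ‖∑ w ∈ W, f w * (1 - (GG r P T w : ℂ))‖ ≤
        ∑ θ ∈ R1 P, gT T θ * ‖hh r W f θ‖ := by
      have h4 : (P.card : ℝ) * ‖∑ w ∈ W, f w * (1 - (GG r P T w : ℂ))‖ =
          ‖(P.card : ℂ) * ∑ w ∈ W, f w * (1 - (GG r P T w : ℂ))‖ := by
        rw [norm_mul, Complex.norm_natCast]
      rw [h4, h2, norm_neg]
      refine (norm_sum_le _ _).trans (Finset.sum_le_sum (fun θ _ => ?_))
      rw [norm_mul, norm_div, Complex.norm_natCast, gT]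
    calc (P.card : ℝ) * W.card ≤ P.card * (X * ‖∑ w ∈ W, f w * (1 - (GG r P T w : ℂ))‖) := by
          gcongr
      _ = X * (P.card * ‖∑ w ∈ W, f w * (1 - (GG r P T w : ℂ))‖) := by ring
      _ ≤ _ := by gcongr
  rw [← Finset.sum_filter_add_sum_filter_not _ q1, mul_add] at h1
  -- small tau
  have h2 := small_tau hX hP hQ hQX T hT dens conn f hf1
  have h3 : X ^ 3 * (X * ∑ θ ∈ (R1 P).filter q1, gT T θ * ‖hh r W f θ‖) ≤
      X ^ 3 * (P.card * W.card / 2) := by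
    calc X ^ 3 * (X * ∑ θ ∈ (R1 P).filter q1, gT T θ * ‖hh r W f θ‖) =
          X ^ 4 * ∑ θ ∈ (R1 P).filter q1, gT T θ * ‖hh r W f θ‖ := by ring
      _ ≤ 10 * X * Q * W.card := h2
      _ ≤ 10 * X * (X * P.card) * W.card := by gcongr
      _ = (20 * X ^ 2) * (P.card * W.card / 2) := by ring
      _ ≤ X ^ 3 * (P.card * W.card / 2) := by
          refine mul_le_mul_of_nonneg_right ?_ (by positivity)
          calc 20 * X ^ 2 ≤ X * X ^ 2 := by gcongr; linarith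
            _ = _ := by ring
  have h4 := le_of_mul_le_mul_left h3 (by positivity)
  have h5 : (P.card : ℝ) * W.card ≤ 2 * X * ∑ θ ∈ (R1 P).filter (fun θ => ¬ q1 θ),
      gT T θ * ‖hh r W f θ‖ := by linarith
  -- the good primes
  set P' : Finset ℕ := P.filter (fun p => ∃ a ∈ Icc 1 (p - 1),
    (W.card : ℝ) ≤ X ^ 90 * ‖hh r W f ⟨p, a⟩‖) with hP'
  refine ⟨P', Finset.filter_subset _ _, ?_, fun p hp => (Finset.mem_filter.mp hp).2⟩
  have h6 : ∑ θ ∈ (R1 P).filter (fun θ => ¬ q1 θ), gT T θ * ‖hh r W f θ‖ =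
      ∑ p ∈ P, ∑ a ∈ (Icc 1 (p - 1)).filter
        (fun a => ((T p).card : ℝ) ≤ X ^ 43 * ‖tau p (T p) a‖), gT T ⟨p, a⟩ * ‖hh r W f ⟨p, a⟩‖ := by
    rw [Finset.sum_filter, R1, Finset.sum_sigma]
    refine Finset.sum_congr rfl fun p _ => ?_
    rw [Finset.sum_filter]
    refine Finset.sum_congr rfl fun a _ => ?_
    simp only [hq1, not_not]
  have hg1 : ∀ p ∈ P, ∀ a, gT T ⟨p, a⟩ ≤ 1 := by
    intro p hp a
    have := T_pos hP T hT hX0 hp
    rw [gT, div_le_one this]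
    exact norm_tau_le p (T p) a
  have hin : ∀ p ∈ P, ∀ v : ℝ, 0 ≤ v → (∀ a ∈ Icc 1 (p - 1), ‖hh r W f ⟨p, a⟩‖ ≤ v) →
      ∑ a ∈ (Icc 1 (p - 1)).filter (fun a => ((T p).card : ℝ) ≤ X ^ 43 * ‖tau p (T p) a‖),
        gT T ⟨p, a⟩ * ‖hh r W f ⟨p, a⟩‖ ≤ X ^ 87 * v := by
    intro p hp v hv hle
    have hc := card_large_tau hX0 43 (hP p hp).1.pos (T p) (hT p hp)
    calc ∑ a ∈ (Icc 1 (p - 1)).filter (fun a => ((T p).card : ℝ) ≤ X ^ 43 * ‖tau p (T p) a‖),
          gT T ⟨p, a⟩ * ‖hh r W f ⟨p, a⟩‖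
        ≤ ∑ a ∈ (Icc 1 (p - 1)).filter (fun a => ((T p).card : ℝ) ≤ X ^ 43 * ‖tau p (T p) a‖),
          v := by
          refine Finset.sum_le_sum fun a ha => ?_
          calc gT T ⟨p, a⟩ * ‖hh r W f ⟨p, a⟩‖ ≤ 1 * v :=
                mul_le_mul (hg1 p hp a) (hle a (Finset.mem_filter.mp ha).1) (norm_nonneg _)
                  zero_le_one
            _ = v := one_mul v
      _ = (((Icc 1 (p - 1)).filter
            (fun a => ((T p).card : ℝ) ≤ X ^ 43 * ‖tau p (T p) a‖)).card : ℝ) * v := by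
          rw [Finset.sum_const, nsmul_eq_mul]
      _ ≤ X ^ 87 * v := mul_le_mul_of_nonneg_right hc hv
  have h7 : ∑ p ∈ P, ∑ a ∈ (Icc 1 (p - 1)).filter
        (fun a => ((T p).card : ℝ) ≤ X ^ 43 * ‖tau p (T p) a‖), gT T ⟨p, a⟩ * ‖hh r W f ⟨p, a⟩‖ ≤
      ∑ p ∈ P, (X ^ 87 * (W.card / X ^ 90) + if p ∈ P' then X ^ 87 * W.card else 0) := by
    refine Finset.sum_le_sum fun p hp => ?_
    by_cases hp' : p ∈ P'
    · rw [if_pos hp']
      have h8 := hin p hp W.card hn.le (fun a _ => hnW _)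
      have h9 : 0 ≤ X ^ 87 * ((W.card : ℝ) / X ^ 90) := by positivity
      linarith
    · rw [if_neg hp', add_zero]
      refine hin p hp _ (by positivity) fun a ha => ?_
      rw [le_div_iff₀ (by positivity)]
      by_contra hcon
      rw [not_le] at hcon
      exact hp' (Finset.mem_filter.mpr ⟨hp, a, ha, by linarith⟩)
  have h8 : ∑ p ∈ P, (X ^ 87 * ((W.card : ℝ) / X ^ 90) +
      if p ∈ P' then X ^ 87 * (W.card : ℝ) else 0) =
      P.card * (X ^ 87 * (W.card / X ^ 90)) + P'.card * (X ^ 87 * W.card) := by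
    rw [Finset.sum_add_distrib, Finset.sum_const, nsmul_eq_mul]
    congr 1
    rw [← Finset.sum_filter, Finset.filter_mem_eq_inter,
      Finset.inter_eq_right.mpr (Finset.filter_subset _ _), Finset.sum_const, nsmul_eq_mul]
  rw [h6] at h5
  have h9 := h5.trans (mul_le_mul_of_nonneg_left (h7.trans (le_of_eq h8)) (by positivity))
  have h10 : 2 * X * (P.card * (X ^ 87 * ((W.card : ℝ) / X ^ 90))) ≤ P.card * W.card / 2 := by
    have e : 2 * X * (P.card * (X ^ 87 * ((W.card : ℝ) / X ^ 90))) =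
        (4 / X ^ 2) * (P.card * W.card / 2) := by
      field_simp
      ring
    rw [e]
    have h11 : 4 / X ^ 2 ≤ 1 := by
      rw [div_le_one (by positivity)]
      nlinarith
    calc (4 / X ^ 2) * (P.card * (W.card : ℝ) / 2) ≤ 1 * (P.card * W.card / 2) := by gcongr
      _ = _ := one_mul _
  have h11 : (P.card : ℝ) * W.card ≤ (X ^ 90 * P'.card) * W.card := by
    have h12 : (P.card : ℝ) * W.card ≤ 4 * X ^ 88 * P'.card * W.card := by
      have e : 2 * X * (P'.card * (X ^ 87 * (W.card : ℝ))) = 2 * X ^ 88 * P'.card * W.card := by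
        ring
      rw [mul_add, e] at h9
      linarith
    refine h12.trans ?_
    have h13 : 4 * X ^ 88 ≤ X ^ 90 := by
      calc 4 * X ^ 88 ≤ X ^ 2 * X ^ 88 := by gcongr; nlinarith
        _ = X ^ 90 := by ring
    gcongr
  exact le_of_mul_le_mul_right h11 hn

end Vale.Agent.P015.M
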