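import Vale.Agent.P015.M.Defs4

/-! # P015, module T4b: cells, upper bound and lower bound for a piece of the walk -/

namespace Vale.Agent.P015.M

open Finset hiding box
open Vale.Agent.P006.CLS Vale.Agent.P015.H222
open scoped Pointwise

theorem box_mono {a b : ℕ} (h : a ≤ b) {w : ℤ × ℤ} (hw : w ∈ box a) : w ∈ box b := by
  rw [mem_box] at hw ⊢
  omega

theorem card_box_le (m : ℕ) (hm : 1 ≤ m) : ((box m).card : ℝ) ≤ 9 * (m : ℝ) ^ 2 := by
  have h : (box m).card = (2 * m + 1) ^ 2 := by
    rw [box, Finset.card_product, Int.card_Icc]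
    have : ((m : ℤ) + 1 - -(m : ℤ)).toNat = 2 * m + 1 := by omega
    rw [this]; ring
  rw [h]
  have hm' : (1 : ℝ) ≤ m := by exact_mod_cast hm
  push_cast
  nlinarith

/-- points in cells in which the mean of `G` is more than `1 / 2` are few -/
theorem card_bad_le {γ : Type*} [DecidableEq γ] (W : Finset (ℤ × ℤ)) (G : ℤ × ℤ → ℝ)
    (hG : ∀ w ∈ W, 0 ≤ G w) (q : ℤ × ℤ → γ) :
    ((W.filter (fun w => ((W.filter (fun u => q u = q w)).card : ℝ) / 2 <
      ∑ u ∈ W.filter (fun u => q u = q w), G u)).card : ℝ) ≤ 2 * ∑ w ∈ W, G w := by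
  classical
  set bad : γ → Prop := fun c => ((W.filter (fun u => q u = c)).card : ℝ) / 2 <
      ∑ u ∈ W.filter (fun u => q u = c), G u with hbad
  have h1 : ((W.filter (fun w => bad (q w))).card : ℝ)
      = ∑ c ∈ W.image q, if bad c then ((W.filter (fun u => q u = c)).card : ℝ) else 0 := by
    have h2 := Finset.card_eq_sum_card_fiberwise (f := q) (s := W.filter (fun w => bad (q w)))
      (t := W.image q) (fun w hw => Finset.mem_image_of_mem _ (Finset.mem_filter.mp hw).1)
    rw [h2, Nat.cast_sum]
    refine Finset.sum_congr rfl (fun c _ => ?_)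
    by_cases hc : bad c
    · rw [if_pos hc]
      congr 2
      ext w
      simp only [Finset.mem_filter]
      constructor
      · rintro ⟨⟨h3, _⟩, h5⟩; exact ⟨h3, h5⟩
      · rintro ⟨h3, h5⟩; exact ⟨⟨h3, by rw [h5]; exact hc⟩, h5⟩
    · rw [if_neg hc]
      have : (W.filter (fun w => bad (q w))).filter (fun w => q w = c) = ∅ := by
        rw [Finset.filter_eq_empty_iff]
        intro w hw h5
        apply hc
        rw [← h5]
        exact (Finset.mem_filter.mp hw).2
      rw [this]; simp
  rw [show ((W.filter (fun w => ((W.filter (fun u => q u = q w)).card : ℝ) / 2 <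
      ∑ u ∈ W.filter (fun u => q u = q w), G u)).card : ℝ)
      = ((W.filter (fun w => bad (q w))).card : ℝ) from rfl, h1]
  have h3 : ∑ w ∈ W, G w = ∑ c ∈ W.image q, ∑ u ∈ W.filter (fun u => q u = c), G u := by
    rw [Finset.sum_fiberwise_of_maps_to (fun w hw => Finset.mem_image_of_mem _ hw)]
  rw [h3, Finset.mul_sum]
  refine Finset.sum_le_sum (fun c _ => ?_)
  have h4 : 0 ≤ ∑ u ∈ W.filter (fun u => q u = c), G u :=
    Finset.sum_nonneg (fun u hu => hG u (Finset.mem_filter.mp hu).1)
  by_cases hc : bad c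
  · rw [if_pos hc]
    have := hc
    simp only [hbad] at this
    linarith
  · rw [if_neg hc]; linarith

/-- a set whose points lie in cells of side `S` of `W` with at most `M` points is thin at scales
at most `S` -/
theorem thin_of_cells {W V : Finset (ℤ × ℤ)} (hVW : V ⊆ W) {S : ℕ} (hS : 0 < S) {M : ℝ}
    (hM0 : 0 ≤ M) (hM : ∀ v ∈ V, ((W.filter (fun u => cell S u = cell S v)).card : ℝ) ≤ M)
    {m : ℕ} (hm : m ≤ S) (z : ℤ × ℤ) :
    ((V.filter (fun w => w - z ∈ box m)).card : ℝ) ≤ 9 * M := by
  classical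
  have hS' : (0 : ℤ) < S := by exact_mod_cast hS
  have hm' : (m : ℤ) ≤ S := by exact_mod_cast hm
  set E : Finset (ℤ × ℤ) := Finset.Icc (-1 : ℤ) 1 ×ˢ Finset.Icc (-1 : ℤ) 1 with hE
  have hEc : E.card = 9 := by rw [hE]; rfl
  have h2 : V.filter (fun u => u - z ∈ box m) ⊆
      E.biUnion (fun e => V.filter (fun u => cell S u = cell S z + e)) := by
    intro u hu
    rw [Finset.mem_filter, mem_box] at hu
    obtain ⟨huV, hu2⟩ := hu
    rw [Finset.mem_biUnion]
    have hb1 := cell_bounds hS (rfl : cell S z = cell S z)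
    have hb2 := cell_bounds hS (rfl : cell S u = cell S u)
    simp only [Prod.fst_sub, Prod.snd_sub] at hu2
    refine ⟨cell S u - cell S z, ?_, ?_⟩
    · rw [hE, Finset.mem_product, Finset.mem_Icc, Finset.mem_Icc]
      simp only [Prod.fst_sub, Prod.snd_sub]
      refine ⟨⟨?_, ?_⟩, ?_, ?_⟩
      · by_contra h
        have h3 : (cell S u).1 + 2 ≤ (cell S z).1 := by omega
        nlinarith
      · by_contra h
        have h3 : (cell S z).1 + 2 ≤ (cell S u).1 := by omega
        nlinarith
      · by_contra h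
        have h3 : (cell S u).2 + 2 ≤ (cell S z).2 := by omega
        nlinarith
      · by_contra h
        have h3 : (cell S z).2 + 2 ≤ (cell S u).2 := by omega
        nlinarith
    · rw [Finset.mem_filter]
      exact ⟨huV, by abel⟩
  have h3 : ((V.filter (fun u => u - z ∈ box m)).card : ℝ)
      ≤ ∑ e ∈ E, ((V.filter (fun u => cell S u = cell S z + e)).card : ℝ) := by
    have := (Finset.card_le_card h2).trans Finset.card_biUnion_le
    exact_mod_cast this
  refine h3.trans ?_
  calc ∑ e ∈ E, ((V.filter (fun u => cell S u = cell S z + e)).card : ℝ) ≤ ∑ e ∈ E, M := by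
        refine Finset.sum_le_sum (fun e _ => ?_)
        rcases (V.filter (fun u => cell S u = cell S z + e)).eq_empty_or_nonempty with h | h
        · rw [h]; simpa using hM0
        · obtain ⟨v, hv⟩ := h
          rw [Finset.mem_filter] at hv
          refine le_trans ?_ (hM v hv.1)
          have : V.filter (fun u => cell S u = cell S z + e) ⊆
              W.filter (fun u => cell S u = cell S v) := by
            intro u hu
            rw [Finset.mem_filter] at hu ⊢
            exact ⟨hVW hu.1, by rw [hu.2, hv.2]⟩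
          exact_mod_cast Finset.card_le_card this
    _ = 9 * M := by rw [Finset.sum_const, hEc, nsmul_eq_mul]; push_cast; ring

/-- displacement after `j` steps -/
theorem walk_disp {D : ℕ} {g : ℕ → ℤ × ℤ} {s e : ℕ}
    (hstep : ∀ t, s ≤ t → t < e → g (t + 1) - g t ∈ box D) (t j : ℕ) (h1 : s ≤ t)
    (h2 : t + j ≤ e) : g (t + j) - g t ∈ box (j * D) := by
  induction j with
  | zero => rw [Nat.add_zero, sub_self, mem_box]; simp
  | succ j ih =>
    have h3 := ih (by omega)
    have h4 := hstep (t + j) (by omega) (by omega)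
    rw [mem_box] at h3 h4 ⊢
    simp only [Prod.fst_sub, Prod.snd_sub] at h3 h4 ⊢
    rw [← Nat.add_assoc]
    push_cast at h3 h4 ⊢
    constructor
    · constructor <;> nlinarith [h3.1.1, h3.1.2, h4.1.1, h4.1.2]
    · constructor <;> nlinarith [h3.2.1, h3.2.2, h4.2.1, h4.2.2]


/-- lower bound at all scales for a piece that leaves a large box -/
theorem low_piece {D K : ℕ} {g : ℕ → ℤ × ℤ} {s e : ℕ} (hD : 1 ≤ D)
    (hstep : ∀ t, s ≤ t → t < e → g (t + 1) - g t ∈ box D)
    (hinj : ∀ a, s ≤ a → a ≤ e → ∀ b, s ≤ b → b ≤ e → g a = g b → a = b)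
    (hDK : 8 * D ≤ K) (hse : s < e) (hout : g e - g s ∉ box (K - D)) (v₀ : ℤ × ℤ)
    {W : Finset (ℤ × ℤ)} (hW : W = (Ico s e).image (fun t => g t - v₀)) :
    ∀ w ∈ W, ∀ m : ℕ, 8 * m ≤ K →
      (m : ℝ) ≤ D * ((W.filter (fun u => u - w ∈ box m)).card : ℝ) := by
  classical
  intro w hw m hm
  subst hW
  obtain ⟨t, ht, rfl⟩ := Finset.mem_image.mp hw
  rw [Finset.mem_Ico] at ht
  set n := m / D with hn
  have hnD : n * D ≤ m := Nat.div_mul_le_self m D
  have hmn : m < D * (n + 1) := by
    have := Nat.lt_mul_div_succ m (b := D) (by omega)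
    exact this
  have key : ∀ a : ℕ, s ≤ a → a + n < e → (∀ j ≤ n, g (a + j) - g t ∈ box (n * D)) →
      (m : ℝ) ≤ D * ((((Ico s e).image (fun t => g t - v₀)).filter
        (fun u => u - (g t - v₀) ∈ box m)).card : ℝ) := by
    intro a ha1 ha2 ha3
    have h1 : (range (n + 1)).image (fun j => g (a + j) - v₀) ⊆
        ((Ico s e).image (fun t => g t - v₀)).filter (fun u => u - (g t - v₀) ∈ box m) := by
      intro u hu
      obtain ⟨j, hj, rfl⟩ := Finset.mem_image.mp hu
      rw [Finset.mem_range] at hj
      rw [Finset.mem_filter]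
      refine ⟨Finset.mem_image.mpr ⟨a + j, Finset.mem_Ico.mpr ⟨by omega, by omega⟩, rfl⟩, ?_⟩
      have : g (a + j) - v₀ - (g t - v₀) = g (a + j) - g t := by abel
      rw [this]
      exact box_mono hnD (ha3 j (by omega))
    have h2 : ((range (n + 1)).image (fun j => g (a + j) - v₀)).card = n + 1 := by
      rw [Finset.card_image_of_injOn, Finset.card_range]
      intro i hi j hj hij
      simp only [Finset.coe_range, Set.mem_Iio] at hi hj
      have h3 : g (a + i) = g (a + j) := by
        have := congrArg (fun x => x + v₀) hij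
        simpa using this
      have := hinj (a + i) (by omega) (by omega) (a + j) (by omega) (by omega) h3
      omega
    have h3 := Finset.card_le_card h1
    rw [h2] at h3
    have h4 : (m : ℝ) ≤ D * ((n + 1 : ℕ) : ℝ) := by exact_mod_cast hmn.le
    refine h4.trans ?_
    have h5 : ((n + 1 : ℕ) : ℝ) ≤ ((((Ico s e).image (fun t => g t - v₀)).filter
        (fun u => u - (g t - v₀) ∈ box m)).card : ℝ) := by exact_mod_cast h3
    gcongr
  by_cases h1 : t + n < e
  · exact key t ht.1 h1 (fun j hj => box_mono (Nat.mul_le_mul_right D hj)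
      (walk_disp hstep t j ht.1 (by omega)))
  · by_cases h2 : s + n ≤ t
    · refine key (t - n) (by omega) (by omega) (fun j hj => ?_)
      have h3 := walk_disp hstep (t - n + j) (n - j) (by omega) (by omega)
      have h4 : t - n + j + (n - j) = t := by omega
      rw [h4] at h3
      have h5 : g (t - n + j) - g t ∈ box ((n - j) * D) := by
        rw [mem_box] at h3 ⊢
        simp only [Prod.fst_sub, Prod.snd_sub] at h3 ⊢
        omega
      exact box_mono (Nat.mul_le_mul_right D (by omega)) h5
    · exfalso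
      apply hout
      have h3 := walk_disp hstep s (e - s) le_rfl (by omega)
      rw [show s + (e - s) = e by omega] at h3
      refine box_mono ?_ h3
      have h4 : e - s ≤ 2 * n := by omega
      have h5 : (e - s) * D ≤ 2 * n * D := Nat.mul_le_mul_right D h4
      have h6 : 2 * n * D = 2 * (n * D) := by ring
      omega

/-- the piece is long -/
theorem long_piece {D K : ℕ} {g : ℕ → ℤ × ℤ} {s e : ℕ}
    (hstep : ∀ t, s ≤ t → t < e → g (t + 1) - g t ∈ box D)
    (hse : s < e) (hout : g e - g s ∉ box (K - D)) : K ≤ (e - s) * D + D := by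
  by_contra h
  apply hout
  have h3 := walk_disp hstep s (e - s) le_rfl (by omega)
  rw [show s + (e - s) = e by omega] at h3
  exact box_mono (by omega) h3

end Vale.Agent.P015.M
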